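import Vale.Agent.N347X.Eval

/-! P347, explicit constants: choice of the parameters and the rate. -/

open MeasureTheory Filter Module
open scoped ENNReal NNReal

namespace Vale.Agent.N347X

open Vale.Agent.P347 Vale.Agent.P347.Z Vale.Agent.P347.S

theorem par_fin {y W z x : ℝ} (hy : 100000 ≤ y) (hW : y ^ 18 ≤ W) (hz : W ^ 25 ≤ z) (c : ℝ)
    (k j : ℕ) (hc : c ≤ 10 ^ 9 ∧ k ≤ 16 ∧ j ≤ 24) (h : x ≤ c * y ^ k * W ^ j) : x ≤ z := by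
  obtain ⟨hc, hk, hj⟩ := hc
  have hy1 : 1 ≤ y := by linarith
  have hW1 : 1 ≤ W := (one_le_pow₀ hy1).trans hW
  have h1 : c ≤ y ^ 2 := by nlinarith
  calc x ≤ c * y ^ k * W ^ j := h
    _ ≤ y ^ 2 * y ^ 16 * W ^ 24 := by gcongr
    _ = y ^ 18 * W ^ 24 := by ring
    _ ≤ W * W ^ 24 := by gcongr
    _ = W ^ 25 := by ring
    _ ≤ z := hz

theorem par_b {y W z C C' c₁ ℓ : ℝ} {N p : ℕ} (hy5 : 100000 ≤ y) (hW18 : y ^ 18 ≤ W)
    (hWz : W ^ 25 ≤ z) (hC : 1 ≤ C) (hC' : 1 ≤ C') (hc8 : 8 ≤ c₁) (hℓ : 1 ≤ ℓ)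
    (vC : C ≤ W ^ 12) (vC' : C' ≤ W ^ 3) (vN : (N : ℝ) ≤ y ^ 3) (vp : (p : ℝ) ≤ y) (vc : c₁ ≤ y)
    (vℓ : ℓ ≤ y) :
    4 ≤ z ∧ 8 * (p : ℝ) ≤ z ∧ 128 * C * p * N ≤ z ∧ 8 * C * N ≤ z ∧
      512 * N * (N + 1) * C * (72 * c₁ ^ 2) * ℓ ^ 2 ≤ z ∧ 128 * C * c₁ * ℓ ≤ z ∧
      256 * C ^ 2 * c₁ ^ 2 * ℓ ^ 2 ≤ z ∧ 576 * N * C * c₁ * ℓ ≤ z ∧ C' ^ 2 * (8 * p) ≤ z ∧
      576 * p * C' * c₁ * ℓ ≤ z ∧ C' ≤ z ∧ 88 * 72 * p ^ 2 * C' * c₁ * ℓ ≤ z ∧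
      52 * 792 * p ^ 2 * C' * c₁ * ℓ ^ 2 ≤ z ∧ 600 * 1424 * 792 * p ^ 2 * C' * c₁ * ℓ ^ 2 ≤ z ∧
      (2 * N + p) * (4 * (c₁ * ℓ)) ≤ z ∧ 464 * p * c₁ * ℓ ^ 2 + 1 ≤ z := by
  have hy1 : 1 ≤ y := by linarith
  have hW0 : 0 ≤ W := le_trans (by positivity) hW18
  have hℓ0 : 0 ≤ ℓ := by linarith
  have hc0 : 0 ≤ c₁ := by linarith
  have hC0 : 0 ≤ C := by linarith
  have hC0' : 0 ≤ C' := by linarith
  have y3 : 1 ≤ y ^ 3 := one_le_pow₀ hy1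
  have y4 : 1 ≤ y ^ 4 := one_le_pow₀ hy1
  have p3 : (p : ℝ) ≤ y ^ 3 := vp.trans (le_self_pow₀ hy1 (by norm_num))
  have h4 : 4 ≤ z := par_fin hy5 hW18 hWz 4 0 0 (by norm_num) (by norm_num)
  have b1 : 8 * (p : ℝ) ≤ z := par_fin hy5 hW18 hWz 8 1 0 (by norm_num) (by linarith)
  have b2 : 128 * C * p * N ≤ z := par_fin hy5 hW18 hWz 128 4 12 (by norm_num)
    (calc _ ≤ 128 * W ^ 12 * y * y ^ 3 := by gcongr
      _ = _ := by ring)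
  have b3 : 8 * C * N ≤ z := par_fin hy5 hW18 hWz 8 3 12 (by norm_num)
    (calc _ ≤ 8 * W ^ 12 * y ^ 3 := by gcongr
      _ = _ := by ring)
  have b4 : 512 * N * (N + 1) * C * (72 * c₁ ^ 2) * ℓ ^ 2 ≤ z := par_fin hy5 hW18 hWz 73728 10 12 (by norm_num)
    (calc _ ≤ 512 * y ^ 3 * (y ^ 3 + y ^ 3) * W ^ 12 * (72 * y ^ 2) * y ^ 2 := by gcongr
      _ = _ := by ring)
  have b5 : 128 * C * c₁ * ℓ ≤ z := par_fin hy5 hW18 hWz 128 2 12 (by norm_num)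
    (calc _ ≤ 128 * W ^ 12 * y * y := by gcongr
      _ = _ := by ring)
  have b6 : 256 * C ^ 2 * c₁ ^ 2 * ℓ ^ 2 ≤ z := par_fin hy5 hW18 hWz 256 4 24 (by norm_num)
    (calc _ ≤ 256 * (W ^ 12) ^ 2 * y ^ 2 * y ^ 2 := by gcongr
      _ = _ := by ring)
  have b7 : 576 * N * C * c₁ * ℓ ≤ z := par_fin hy5 hW18 hWz 576 5 12 (by norm_num)
    (calc _ ≤ 576 * y ^ 3 * W ^ 12 * y * y := by gcongr
      _ = _ := by ring)
  have b8 : C' ^ 2 * (8 * p) ≤ z := par_fin hy5 hW18 hWz 8 1 6 (by norm_num)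
    (calc _ ≤ (W ^ 3) ^ 2 * (8 * y) := by gcongr
      _ = _ := by ring)
  have b9 : 576 * p * C' * c₁ * ℓ ≤ z := par_fin hy5 hW18 hWz 576 3 3 (by norm_num)
    (calc _ ≤ 576 * y * W ^ 3 * y * y := by gcongr
      _ = _ := by ring)
  have b10 : C' ≤ z := par_fin hy5 hW18 hWz 1 0 3 (by norm_num) (by linarith)
  have c1 : 88 * 72 * p ^ 2 * C' * c₁ * ℓ ≤ z := par_fin hy5 hW18 hWz (88 * 72) 4 3 (by norm_num)
    (calc _ ≤ 88 * 72 * y ^ 2 * W ^ 3 * y * y := by gcongr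
      _ = _ := by ring)
  have c2 : 52 * 792 * p ^ 2 * C' * c₁ * ℓ ^ 2 ≤ z := par_fin hy5 hW18 hWz (52 * 792) 5 3 (by norm_num)
    (calc _ ≤ 52 * 792 * y ^ 2 * W ^ 3 * y * y ^ 2 := by gcongr
      _ = _ := by ring)
  have c3 : 600 * 1424 * 792 * p ^ 2 * C' * c₁ * ℓ ^ 2 ≤ z := par_fin hy5 hW18 hWz (600 * 1424 * 792) 5 3 (by norm_num)
    (calc _ ≤ 600 * 1424 * 792 * y ^ 2 * W ^ 3 * y * y ^ 2 := by gcongr
      _ = _ := by ring)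
  have c4 : (2 * N + p) * (4 * (c₁ * ℓ)) ≤ z := par_fin hy5 hW18 hWz 12 5 0 (by norm_num)
    (calc _ ≤ (2 * y ^ 3 + y ^ 3) * (4 * (y * y)) := by gcongr
      _ = _ := by ring)
  have c5 : 464 * p * c₁ * ℓ ^ 2 + 1 ≤ z := par_fin hy5 hW18 hWz 465 4 0 (by norm_num)
    (calc _ ≤ 464 * y * y * y ^ 2 + y ^ 4 := by gcongr
      _ = _ := by ring)
  exact ⟨h4, b1, b2, b3, b4, b5, b6, b7, b8, b9, b10, c1, c2, c3, c4, c5⟩

theorem par_cost {N g M n S J N₁ K : ℕ} {z ℓ c₁ : ℝ} (hz : 4 ≤ z) (hℓ1 : 1 ≤ ℓ) (hc₁ : 8 ≤ c₁)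
    (hJY : (J : ℝ) ≤ c₁ * ℓ * z) (hJ1 : 1 ≤ J)
    (hN₁ : (N₁ : ℝ) ≤ 64 * ℓ * z ^ (S + 1)) (hK : (K : ℝ) ≤ 52 * ℓ * z)
    (c4 : (2 * N + g) * (4 * (c₁ * ℓ)) ≤ z) (c5 : 464 * M * c₁ * ℓ ^ 2 + 1 ≤ z) :
    (((N₁ + K) * (M * (2 * J + 2) * ((2 * N + g) * (2 * J + 2)) ^ (n ^ 2)) + 1 : ℕ) : ℝ) ≤
      z ^ (S + 3 + 2 * n ^ 2) := by
  have hz1 : 1 ≤ z := by linarith only [hz]
  have hJr : (1 : ℝ) ≤ J := by exact_mod_cast hJ1
  have hB : 2 * (J : ℝ) + 2 ≤ 4 * (c₁ * ℓ) * z := by linarith only [hJr, hJY]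
  have hNK : (N₁ : ℝ) + K ≤ 116 * ℓ * z ^ (S + 1) := by
    have h2 : ℓ * z ≤ ℓ * z ^ (S + 1) :=
      mul_le_mul_of_nonneg_left (le_self_pow₀ hz1 (by omega)) (by linarith only [hℓ1])
    linarith only [hK, hN₁, h2]
  have hD : (2 * (N : ℝ) + g) * (2 * J + 2) ≤ z * z :=
    calc _ ≤ (2 * (N : ℝ) + g) * (4 * (c₁ * ℓ) * z) := by gcongr
      _ ≤ _ := by rw [← mul_assoc]; gcongr
  push_cast
  calc ((N₁ : ℝ) + K) * (M * (2 * J + 2) * ((2 * N + g) * (2 * J + 2)) ^ (n ^ 2)) + 1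
      ≤ (116 * ℓ * z ^ (S + 1)) * (M * (4 * (c₁ * ℓ) * z) * (z * z) ^ (n ^ 2)) +
        z ^ (S + 2 + 2 * n ^ 2) := by
        gcongr
        exact one_le_pow₀ hz1
    _ = (464 * M * c₁ * ℓ ^ 2 + 1) * z ^ (S + 2 + 2 * n ^ 2) := by ring
    _ ≤ z ^ (S + 3 + 2 * n ^ 2) := pz_pow hz1 c5 (by omega)

theorem par_more {N g p A n S B D : ℕ} {C z ε a : ℝ}
    (par : GPar N g C z⁻¹ (z ^ A)⁻¹ ε a 9 (z ^ S)⁻¹ (n ^ 2) (2 * n) B D) (hgp : g ≤ p)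
    (hz1 : 1 ≤ z) (hA : 1 ≤ A) (b1 : 8 * (p : ℝ) ≤ z) (b2 : 128 * C * p * N ≤ z) :
    GPar N p C z⁻¹ (z ^ A)⁻¹ ε a 9 (z ^ S)⁻¹ (n ^ 2) (2 * n) B D := by
  have hp1 : 1 ≤ p := par.hp.trans hgp
  have hpr : (1 : ℝ) ≤ p := by exact_mod_cast hp1
  have hNr : (1 : ℝ) ≤ N := by exact_mod_cast par.hN
  have hC := par.hC
  have hϖ := par.hϖ
  refine { par with hp := hp1, hδ' := ?_, i3 := ?_, i6 := le_trans ?_ par.i6 }
  · rw [inv_eq_one_div]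
    exact one_div_le_one_div_of_le (by linarith only [hpr]) b1
  · rw [inv_pow, ← pow_mul, mul_comm A 2, div_inv_eq_mul]
    have h1 : (1 : ℝ) ≤ 16 * p * N * z := one_le_mul_of_one_le_of_one_le
      (one_le_mul_of_one_le_of_one_le (by linarith only [hpr]) hNr) hz1
    calc 8 * C * (z ^ (2 * A))⁻¹ * √(16 * p * N * z)
        ≤ 8 * C * (z ^ (2 * A))⁻¹ * (16 * p * N * z) :=
          mul_le_mul_of_nonneg_left (pz_sqrt' h1) (by positivity)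
      _ = (128 * C * p * N * z ^ 1) * (z ^ (2 * A))⁻¹ := by ring
      _ ≤ 1 := pz_inv (by positivity) (pz_pow hz1 b2 (by omega))
  · have h1 := pow_le_pow_of_le_one (Real.sqrt_nonneg z⁻¹)
      (Real.sqrt_le_one.2 (inv_le_one_of_one_le₀ hz1)) hgp
    have h2 := pow_le_pow_of_le_one (sq_nonneg (z ^ A)⁻¹) (pow_le_one₀ hϖ.le par.hϖ'.le)
      (Nat.sub_le_sub_right hgp 1)
    gcongr

theorem par_n {n S T g : ℕ} {L : ℝ} (hn : 26 ≤ n) (hS : S = 4 * n * n)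
    (hT : T + S + 3 = n * n ^ 2) (hg : g = 2 * (n * (4 * n + n ^ 2) + 3)) (hL2 : 2 ≤ L)
    (hL : 900 * (n : ℝ) ^ 3 * Real.log (L + 1) ≤ L) :
    ∃ y z : ℝ, 100000 ≤ y ∧ (y ^ 18) ^ 25 ≤ z ∧ L + 1 ≤ y ∧
      15 * (((2 * (2 * g + 1) ^ 2 : ℕ) : ℝ) + 1) ≤ y ∧ 2 * (n : ℝ) * n ^ 2 + 8 ≤ y ∧
      z ^ T = Real.exp L ∧ Real.log z ≤ L + 1 ∧
      z ^ (S + 3 + 2 * n ^ 2) ≤ Real.exp (8 * L / n) := by
  obtain ⟨y, hy⟩ : ∃ y, y = L + 1 := ⟨_, rfl⟩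
  rw [← hy] at hL ⊢
  have hnr : (26 : ℝ) ≤ n := by exact_mod_cast hn
  have hly : 1 ≤ Real.log y := by
    rw [Real.le_log_iff_exp_le (by linarith)]
    linarith [Real.exp_one_lt_d9]
  have m3 : (26 : ℝ) ^ 3 ≤ (n : ℝ) ^ 3 := by gcongr
  have m2 : 26 * (n : ℝ) ^ 2 ≤ (n : ℝ) ^ 3 := by nlinarith only [hnr, sq_nonneg (n : ℝ)]
  have m1 : 26 * (n : ℝ) ≤ (n : ℝ) ^ 2 := by nlinarith only [hnr]
  have hy3 : 45 * (n : ℝ) ^ 3 ≤ y := by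
    have h1 : 900 * (n : ℝ) ^ 3 * 1 ≤ 900 * (n : ℝ) ^ 3 * Real.log y := by gcongr
    linarith only [h1, hL, hy, m3]
  have hy1 : 1 ≤ y := by linarith only [hy3, m3]
  have hyy : y ≤ y ^ 2 := le_self_pow₀ hy1 two_ne_zero
  have hpr : (g : ℝ) = 2 * n ^ 3 + 8 * n ^ 2 + 6 := by
    rw [hg]
    push_cast
    ring
  have hTr : (T : ℝ) = n ^ 3 - 4 * n ^ 2 - 3 := by
    have : ((T + S + 3 : ℕ) : ℝ) = (n * n ^ 2 : ℕ) := by exact_mod_cast hT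
    rw [hS] at this
    push_cast at this
    linarith only [this]
  have hT1 : (1 : ℝ) ≤ T := by linarith only [hTr, m2, m3]
  refine ⟨y ^ 2, Real.exp (L / T), by linarith only [hyy, hy3, m3], ?_, hyy, ?_,
    by linarith only [hyy, hy3, m3], ?_, ?_, ?_⟩
  · rw [← pow_mul, ← pow_mul, ← Real.exp_log (show 0 < y by linarith only [hy1]),
      ← Real.exp_nat_mul, Real.exp_le_exp, le_div_iff₀ (by linarith only [hT1])]
    push_cast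
    calc 900 * Real.log y * T ≤ 900 * Real.log y * n ^ 3 :=
          mul_le_mul_of_nonneg_left (by linarith only [hTr, sq_nonneg (n : ℝ)]) (by positivity)
      _ = 900 * (n : ℝ) ^ 3 * Real.log y := by ring
      _ ≤ L := hL
  · have h1 : (2 * (g : ℝ) + 1) ^ 2 ≤ (6 * n ^ 3) ^ 2 :=
      pow_le_pow_left₀ (by positivity) (by linarith only [hpr, m2, m3]) 2
    have h2 : (45 * (n : ℝ) ^ 3) ^ 2 ≤ y ^ 2 := pow_le_pow_left₀ (by positivity) hy3 2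
    have h3 : 1 ≤ ((n : ℝ) ^ 3) ^ 2 := one_le_pow₀ (by linarith only [m3])
    push_cast
    linarith only [h1, h2, h3]
  · rw [← Real.exp_nat_mul, mul_div_cancel₀ _ (by linarith only [hT1])]
  · rw [Real.log_exp]
    linarith only [hy, div_le_self (show 0 ≤ L by linarith only [hL2]) hT1]
  · rw [← Real.exp_nat_mul, Real.exp_le_exp, ← mul_div_assoc,
      div_le_div_iff₀ (by linarith only [hT1]) (by linarith only [hnr]), hS]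
    push_cast
    have h1 : (4 * n * n + 3 + 2 * n ^ 2) * (n : ℝ) ≤ 8 * T := by linarith only [hTr, m1, m2, hnr]
    nlinarith only [h1, hL2]

theorem par_Rg {y z : ℝ} {P : ℕ} (hP : 1 ≤ P) (hy : 1 ≤ y) (hz : (y ^ 18) ^ 25 ≤ z)
    (h : 15 * (((2 * (2 * (2 * P) + 1) ^ 2 : ℕ) : ℝ) + 1) ≤ y) :
    Rg (2 * (2 * P) + 1) * √z⁻¹ ^ (2 * P) ≤ 1 := by
  have hz0 : 0 < z := lt_of_lt_of_le (by positivity) hz
  rw [pow_mul, Real.sq_sqrt (inv_nonneg.2 hz0.le), inv_pow]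
  refine pz_inv (by positivity) ?_
  have h1 : 2 * (2 * P) + 1 ≤ 2 * (2 * (2 * P) + 1) ^ 2 :=
    (Nat.le_self_pow two_ne_zero _).trans (by omega)
  calc Rg (2 * (2 * P) + 1) ≤ y ^ (6 * (2 * (2 * P) + 1 + 1)) :=
        pow_le_pow_left₀ (by positivity) (le_trans (by gcongr) h) _
    _ ≤ ((y ^ 18) ^ 25) ^ P := by
        rw [← pow_mul, ← pow_mul]
        exact pow_le_pow_right₀ hy (by omega)
    _ ≤ z ^ P := by gcongr

theorem wd_n {n d D' : ℕ} (hn : 26 ≤ n) (hd : 1 ≤ d) (hdD : d ≤ D') (hL2 : 2 ≤ Real.log D')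
    (hL : 900 * (n : ℝ) ^ 3 * Real.log (Real.log D' + 1) ≤ Real.log D') :
    ∃ A : Samp d Unit (Eu d), ((A.cost + 1 : ℕ) : ℝ) ≤ Real.exp (8 * Real.log D' / n) ∧
      ∀ V ∈ PotClass d, WD (A.law V ()) (gibbs V) (1 / (200 * √(D' : ℝ))) := by
  obtain ⟨S, hS⟩ : ∃ S : ℕ, S = 4 * n * n := ⟨_, rfl⟩
  obtain ⟨T, hT⟩ : ∃ T : ℕ, T + S + 3 = n * n ^ 2 := by
    have hn2 : 26 * 26 ≤ n * n := Nat.mul_le_mul hn hn
    have hn3 : n * n * 26 ≤ n * n * n := Nat.mul_le_mul_left _ hn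
    refine ⟨n * n ^ 2 - (S + 3), ?_⟩
    have e1 : n * n ^ 2 = n * n * n := by ring
    have e2 : 4 * n * n = 4 * (n * n) := by ring
    omega
  obtain ⟨P, hP⟩ : ∃ P : ℕ, P = n * (4 * n + n ^ 2) + 3 := ⟨_, rfl⟩
  have hD1 : 1 ≤ D' := hd.trans hdD
  obtain ⟨y, z, hy5, hWz, vℓ, hM, vc, hzT, hlz, hcost⟩ :=
    par_n (g := 2 * P) hn hS hT (by rw [hP]) hL2 hL
  rw [Real.exp_log (by exact_mod_cast hD1)] at hzT
  have hy1 : 1 ≤ y := by linarith only [hy5]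
  have hZ := par_Rg (by omega) hy1 hWz hM
  obtain ⟨g, hg⟩ : ∃ g : ℕ, g = 2 * P := ⟨_, rfl⟩
  rw [← hg] at hM hZ
  obtain ⟨p, hp, hgp⟩ : ∃ p : ℕ, p + 1 = 2 * (2 * g + 1) ^ 2 ∧ g ≤ p := by
    have := Nat.le_self_pow two_ne_zero (2 * g + 1)
    exact ⟨2 * (2 * g + 1) ^ 2 - 1, by omega, by omega⟩
  rw [← hp] at hM
  obtain ⟨N, C, ⟨hC, hN, uN, uC⟩, hnodes⟩ := nodesY (g := g) (e := g) (by omega) (by ring) hp
  obtain ⟨C', ⟨hC', uC'⟩, hdown⟩ := downY (g := g) (e := g + 1) (by omega) (by ring) hp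
  have hp0 : (0 : ℝ) ≤ p := Nat.cast_nonneg p
  have hM1 : (1 : ℝ) ≤ (p + 1 : ℕ) := by exact_mod_cast Nat.succ_pos p
  have vM : ((p + 1 : ℕ) : ℝ) ≤ y := by linarith only [hM, hM1]
  have hK : 15 * (((p + 1 : ℕ) : ℝ) + 1) ^ 3 ≤ y ^ 3 :=
    le_trans (by rw [mul_pow]; gcongr; norm_num) (pow_le_pow_left₀ (by positivity) hM 3)
  have vC : C ≤ (y ^ 18) ^ 12 := uC.trans (pow_le_pow_left₀ (by positivity)
    (hK.trans (pow_le_pow_right₀ hy1 (by norm_num))) _)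
  have vC' : C' * ((p + 1 : ℕ) : ℝ) ^ 2 ≤ (y ^ 18) ^ 3 :=
    calc _ ≤ y * y ^ 3 * y ^ 2 := by
          gcongr
          exact uC'.trans (mul_le_mul (by linarith only [hy5]) hK (by positivity) (by positivity))
      _ = y ^ 6 := by ring
      _ ≤ _ := by
          rw [← pow_mul]
          exact pow_le_pow_right₀ hy1 (by norm_num)
  have hC'' := one_le_mul_of_one_le_of_one_le hC' (one_le_pow₀ (n := 2) hM1)
  have hc8 : 8 ≤ 2 * (n : ℝ) * n ^ 2 + 8 := le_add_of_nonneg_left (by positivity)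
  have hℓ1 : 1 ≤ Real.log D' + 1 := by linarith only [hL2]
  have vN := uN.trans (pow_le_pow_left₀ (by positivity) hM _)
  obtain ⟨h4, b1, b2, b3, b4, b5, b6, b7, b8, b9, b10, c1, c2, c3, c4, -⟩ :=
    par_b (p := g) hy5 le_rfl hWz hC hC'' hc8 hℓ1 vC vC' vN
      (le_trans (by exact_mod_cast hgp.trans (Nat.le_succ p)) vM) vc vℓ
  obtain ⟨-, d1, -, -, -, -, -, -, -, -, -, -, -, -, -, c5⟩ :=
    par_b hy5 le_rfl hWz hC hC'' hc8 hℓ1 vC vC' vN vM vc vℓ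
  obtain ⟨-, e1, e2, -⟩ := par_b (p := p) hy5 le_rfl hWz hC hC'' hc8 hℓ1 vC vC' vN
    (le_trans (by exact_mod_cast Nat.le_succ p) vM) vc vℓ
  obtain ⟨J, N₁, K, hJ1, hJlow, hJY, hN₁, hN₁', hK, hK'⟩ :=
    pz_JNK (S := S) (A := n) (n := n) hD1 h4 rfl hlz rfl
  have hz1 : 1 ≤ z := by linarith only [h4]
  have ap := pz_asm hD1 (by omega) hg hC hC'' (by omega) hn hS hP hT h4 hℓ1 hc8 hzT hJ1 hJlow hJY
    hN₁ hN₁' hK hK' b1 b2 b3 b4 b5 b6 b7 b8 b9 b10 c1 c2 c3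
  have par1 := par_more ap.par hgp hz1 (by omega) e1 e2
  have hδM : z⁻¹ ≤ 1 / (8 * ((p + 1 : ℕ) : ℝ)) := by
    rw [inv_eq_one_div]
    exact one_div_le_one_div_of_le (by positivity) d1
  have hZ' : Rg (2 * g + 1) * √z⁻¹ ^ (g + 1) ≤ 1 := le_trans (mul_le_mul_of_nonneg_left
    (pow_le_pow_of_le_one (Real.sqrt_nonneg _) (Real.sqrt_le_one.2 (inv_le_one_of_one_le₀ hz1))
      (Nat.le_succ g)) (Rg_nonneg _)) hZ
  obtain ⟨A, hA, hA'⟩ := main_wdY (Nat.succ_pos p) hC' le_rfl (hnodes _ par1.hδ par1.hδ' hZ)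
    (fun s hs hs' => hdown s _ hs hs' par1.hδ hδM hZ') hd hdD ap par1 hδM
    (Nat.mul_le_mul_right _ (by omega))
  exact ⟨A, le_trans (by exact_mod_cast Nat.add_le_add_right hA 1)
    ((par_cost h4 hℓ1 hc8 hJY hJ1 hN₁ hK c4 c5).trans hcost), hA'⟩

/-- `x ^ (2 / 3) * log (1 + x) ^ (1 / 3)` -/
noncomputable def rate (x : ℝ) : ℝ := x ^ (2 / 3 : ℝ) * Real.log (1 + x) ^ (1 / 3 : ℝ)

theorem rate_le {x L c : ℝ} (hc : 1 ≤ c) (hL : 0 ≤ L) (hx : 0 ≤ x) (h : L ≤ c * x) :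
    rate L ≤ c * rate x := by
  have h1 : Real.log (1 + L) ≤ c * Real.log (1 + x) := by
    rw [← Real.log_rpow (by linarith)]
    exact Real.log_le_log (by linarith)
      (le_trans (by linarith) (one_add_mul_self_le_rpow_one_add (by linarith) hc))
  have h2 : 0 ≤ Real.log (1 + L) := Real.log_nonneg (by linarith)
  have h3 : 0 ≤ Real.log (1 + x) := Real.log_nonneg (by linarith)
  have hc0 : 0 < c := by linarith
  calc rate L ≤ (c * x) ^ (2 / 3 : ℝ) * (c * Real.log (1 + x)) ^ (1 / 3 : ℝ) := by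
        unfold rate
        gcongr
    _ = c ^ (2 / 3 : ℝ) * c ^ (1 / 3 : ℝ) * rate x := by
        rw [Real.mul_rpow hc0.le hx, Real.mul_rpow hc0.le h3, rate]
        ring
    _ = _ := by
        rw [← Real.rpow_add hc0]
        norm_num

theorem wd_rate : ∃ D₀ : ℕ, 1 ≤ D₀ ∧ ∀ d D' : ℕ, 1 ≤ d → d ≤ D' → D₀ ≤ D' →
    ∃ A : Samp d Unit (Eu d), ((A.cost + 1 : ℕ) : ℝ) ≤ Real.exp (160 * rate (Real.log D')) ∧
      ∀ V ∈ PotClass d, WD (A.law V ()) (gibbs V) (1 / (200 * √(D' : ℝ))) := by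
  have hl : Tendsto (fun d : ℕ => Real.log d + 1) atTop atTop :=
    tendsto_atTop_add_const_right _ 1 (Real.tendsto_log_atTop.comp tendsto_natCast_atTop_atTop)
  have h1 := hl.eventually (Real.isLittleO_log_id_atTop.bound
    (show (0 : ℝ) < 1 / (1800 * 26 ^ 3) by positivity))
  obtain ⟨D₁, hD₁⟩ := eventually_atTop.1 (h1.and (hl.eventually_ge_atTop 3))
  refine ⟨max D₁ 1, le_max_right _ _, fun d D' hd hdD hD => ?_⟩
  obtain ⟨e1, e2⟩ := hD₁ D' ((le_max_left _ _).trans hD)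
  obtain ⟨L, hL⟩ : ∃ L, L = Real.log D' := ⟨_, rfl⟩
  rw [← hL] at e1 e2
  have hly : 1 ≤ Real.log (L + 1) := by
    rw [Real.le_log_iff_exp_le (by linarith)]
    linarith [Real.exp_one_lt_d9]
  rw [id, Real.norm_of_nonneg (by linarith), Real.norm_of_nonneg (by linarith)] at e1
  have hex : ∃ n : ℕ, L < 900 * ((n + 1 : ℕ) : ℝ) ^ 3 * Real.log (L + 1) := by
    obtain ⟨n, hn⟩ := exists_nat_gt L
    refine ⟨n, hn.trans_le ?_⟩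
    have h2 : ((n + 1 : ℕ) : ℝ) ≤ ((n + 1 : ℕ) : ℝ) ^ 3 :=
      le_self_pow₀ (by exact_mod_cast Nat.succ_pos n) (by norm_num)
    have h3 : (0 : ℝ) ≤ n := Nat.cast_nonneg n
    push_cast at h2 ⊢
    nlinarith
  have hn := Nat.find_spec hex
  have hmin := fun m => Nat.find_min hex (m := m)
  generalize Nat.find hex = n at hn hmin
  have h26 : 26 ≤ n := by
    by_contra h
    have h2 : ((n + 1 : ℕ) : ℝ) ≤ 26 := by exact_mod_cast (by omega : n + 1 ≤ 26)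
    have h3 : 900 * ((n + 1 : ℕ) : ℝ) ^ 3 * Real.log (L + 1) ≤ 900 * 26 ^ 3 * Real.log (L + 1) := by
      gcongr
    linarith
  have h2 := not_lt.1 (hmin (n - 1) (by omega))
  rw [Nat.sub_add_cancel (by omega)] at h2
  obtain ⟨A, hA, hA'⟩ := wd_n h26 hd hdD (by linarith) (by rw [← hL]; exact h2)
  refine ⟨A, hA.trans (Real.exp_le_exp.2 ?_), hA'⟩
  rw [← hL]
  have hnr : (26 : ℝ) ≤ n := by exact_mod_cast h26
  have h3 : L ≤ (20 * n) ^ 3 * Real.log (1 + L) := by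
    rw [add_comm 1 L]
    refine hn.le.trans (mul_le_mul_of_nonneg_right ?_ (by linarith))
    calc 900 * ((n + 1 : ℕ) : ℝ) ^ 3 ≤ 10 ^ 3 * (2 * n) ^ 3 := by
          gcongr
          · norm_num
          · push_cast
            linarith
      _ = _ := by ring
  have h4 : L ^ (1 / 3 : ℝ) ≤ 20 * n * Real.log (1 + L) ^ (1 / 3 : ℝ) := by
    refine (Real.rpow_le_rpow (by linarith) h3 (by norm_num)).trans (le_of_eq ?_)
    rw [Real.mul_rpow (by positivity) (by rw [add_comm]; linarith), ← Real.rpow_natCast,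
      ← Real.rpow_mul (by positivity)]
    norm_num
  have h5 : L = L ^ (2 / 3 : ℝ) * L ^ (1 / 3 : ℝ) := by
    rw [← Real.rpow_add (by linarith)]
    norm_num
  have h6 := mul_le_mul_of_nonneg_left h4 (Real.rpow_nonneg (show 0 ≤ L by linarith) (2 / 3))
  rw [div_le_iff₀ (by linarith), rate]
  linarith

/-- The explicit rate, in the model of `Stmt`. -/
theorem within_rate : ∃ C : ℝ, 0 < C ∧ ∀ (d : ℕ) (ε : ℝ), 2 ≤ d → 0 < ε → ε ≤ 1 →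
    ∃ q : ℕ, (q : ℝ) ≤ Real.exp (C * rate (Real.log (d / ε))) ∧ ∃ A : Algo d q, A.Within ε := by
  obtain ⟨D₀, hD₀, h⟩ := wd_rate
  have hD₀r : (1 : ℝ) ≤ D₀ := by exact_mod_cast hD₀
  have hl0 : 0 ≤ Real.log (2 * D₀) := Real.log_nonneg (by linarith)
  refine ⟨160 * (2 * Real.log (2 * D₀) + 3), by positivity, fun d ε hd hε hε1 => ?_⟩
  have hd0 : (2 : ℝ) ≤ d := by exact_mod_cast hd
  have h1 : (d : ℝ) ≤ (d : ℝ) / ε := by
    rw [le_div_iff₀ hε]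
    nlinarith
  obtain ⟨x, hx⟩ : ∃ x : ℝ, x = d / ε := ⟨_, rfl⟩
  rw [← hx] at h1 ⊢
  have hx3 : x ≤ x ^ 3 := le_self_pow₀ (by linarith) (by norm_num)
  have hceil := Nat.le_ceil (x ^ 3)
  have hceil2 := (Nat.ceil_lt_add_one (show 0 ≤ x ^ 3 by linarith)).le
  have hc1 : 1 ≤ ⌈x ^ 3⌉₊ := Nat.one_le_ceil_iff.2 (by linarith)
  have hlow : x ^ 3 ≤ (D₀ * ⌈x ^ 3⌉₊ : ℕ) := by
    push_cast
    nlinarith
  have hup : ((D₀ * ⌈x ^ 3⌉₊ : ℕ) : ℝ) ≤ 2 * D₀ * x ^ 3 := by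
    push_cast
    nlinarith
  have hDD : D₀ ≤ D₀ * ⌈x ^ 3⌉₊ := Nat.le_mul_of_pos_right _ hc1
  generalize D₀ * ⌈x ^ 3⌉₊ = D' at hlow hup hDD
  obtain ⟨A, hc, hA⟩ := h d D' (by omega) (by exact_mod_cast (by linarith : (d : ℝ) ≤ D')) hDD
  have hD3 : (d : ℝ) ≤ ε ^ 3 * D' := by
    have h2 : ε ^ 3 * x ^ 3 = (d : ℝ) ^ 3 := by rw [hx, ← mul_pow, mul_div_cancel₀ _ hε.ne']
    have h3 : (d : ℝ) ≤ (d : ℝ) ^ 3 := le_self_pow₀ (by linarith) (by norm_num)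
    have h4 := mul_le_mul_of_nonneg_left hlow (show 0 ≤ ε ^ 3 by positivity)
    linarith
  obtain ⟨A', hA'⟩ := exists_within_eps (by omega) hε hε1 hD3 le_rfl A hA
  refine ⟨A.cost + 1, hc.trans (Real.exp_le_exp.2 ?_), A', hA'⟩
  have h2 : 1 / 2 ≤ Real.log x :=
    le_trans (by linarith [Real.log_two_gt_d9]) (Real.log_le_log two_pos (by linarith))
  have h3 : Real.log D' ≤ Real.log (2 * D₀) + 3 * Real.log x := by
    refine (Real.log_le_log (by linarith) hup).trans (le_of_eq ?_)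
    rw [Real.log_mul (by positivity) (by linarith), Real.log_pow]
    norm_num
  rw [mul_assoc]
  refine mul_le_mul_of_nonneg_left (rate_le (by linarith) (Real.log_natCast_nonneg _)
    (by linarith) ?_) (by norm_num)
  nlinarith

end Vale.Agent.N347X
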