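import Vale.Agent.N347X.Defs
import Vale.Agent.N347X.Par
import Vale.Agent.P347.H941.Diag
import Vale.Agent.P347Z.Low.Main
import Mathlib.Probability.Kernel.Representation

/-! P347: the model of `N347X.Defs` and the model of `P347.Stmt` have the same algorithms. -/

open MeasureTheory Filter

namespace Vale.Agent.N347X

open Vale.Agent.P347

variable {d q : ℕ}

theorem cls_eq (d : ℕ) : Cls d = PotClass d := by
  ext V
  simp only [Cls, PotClass, PotOn, Set.mem_ofPred_eq, iteratedFDeriv_two_apply,
    Matrix.cons_val_zero, Matrix.cons_val_one]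

theorem law_real (A : Algo d q) {V : Eu d → ℝ} (hV : V ∈ PotClass d) {B : Set (Eu d)}
    (hB : MeasurableSet B) : letI := A.mΩ
    MeasurableSet {ω | A.out (ω, A.answers V ω q le_rfl) ∈ B} ∧
      (A.law V).real B = A.P.real {ω | A.out (ω, A.answers V ω q le_rfl) ∈ B} := by
  let := A.mΩ
  have hm : Measurable fun ω => A.out (ω, A.answers V ω q le_rfl) :=
    A.out_meas.comp (measurable_id.prodMk (A.measurable_answers hV q le_rfl))
  exact ⟨hm hB, map_measureReal_apply hm hB⟩

theorem samples_of (A : Algo d q) {ε : ℝ} (hA : A.Within ε) : Samples d q ε := by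
  let := A.mΩ
  have := A.sΩ
  have := A.prob
  have : Nonempty A.Ω := nonempty_of_isProbabilityMeasure A.P
  obtain ⟨g, hg, hP⟩ := A.P.exists_measurable_map_eq
  have hr : ∀ k : ℕ, Measurable fun z : unitInterval × (ℕ → ℝ × Rd d) =>
      (g z.1, fun i : Fin k => z.2 i) := fun k =>
    (hg.comp measurable_fst).prodMk
      (measurable_pi_lambda _ fun i => (measurable_pi_apply _).comp measurable_snd)
  obtain ⟨f, hf⟩ : ∃ f : ℕ → unitInterval × (ℕ → ℝ × Rd d) → Rd d, ∀ k z, f k z =
      if hk : k < q then A.query ⟨k, hk⟩ (g z.1, fun i : Fin k => z.2 i)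
      else A.out (g z.1, fun i : Fin q => z.2 i) := ⟨_, fun _ _ => rfl⟩
  refine ⟨f, fun k => ?_, fun V hV B hB => ?_⟩
  · rw [funext (hf k)]
    by_cases hk : k < q
    · simp only [dif_pos hk]
      exact (A.query_meas ⟨k, hk⟩).comp (hr k)
    · simp only [dif_neg hk]
      exact A.out_meas.comp (hr q)
  · rw [cls_eq] at hV
    have key : ∀ ω (k : ℕ) (hk : k ≤ q),
        (fun i : Fin k => record f V ω k i) = A.answers V (g ω) k hk := by
      intro ω k
      induction k with
      | zero => exact fun _ => funext fun i => i.elim0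
      | succ k ih =>
        intro hk
        funext i
        rw [record, Algo.answers, ← ih (Nat.le_of_succ_le hk)]
        refine Fin.lastCases ?_ (fun j => ?_) i
        · rw [Fin.snoc_last, Fin.val_last, Function.update_self, hf, dif_pos (Nat.lt_of_succ_le hk)]
          rfl
        · rw [Fin.snoc_castSucc, Fin.val_castSucc, Function.update_of_ne j.2.ne]
    obtain ⟨h1, h2⟩ := law_real A hV hB
    have h3 := hA V hV B hB
    rw [h2, target_eq_gibbs hV, ← hP, map_measureReal_apply hg h1] at h3
    simp only [hf q, dif_neg (lt_irrefl q), key _ q le_rfl]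
    exact h3

/-- A finite record extended by `0`. -/
def ext0 {α : Type} [Zero α] {k : ℕ} (a : Fin k → α) (i : ℕ) : α :=
  if h : i < k then a ⟨i, h⟩ else 0

theorem algo_of {ε : ℝ} (h : Samples d q ε) : ∃ A : Algo d q, A.Within ε := by
  obtain ⟨f, hf, h⟩ := h
  have hr : ∀ k : ℕ, Measurable fun z : unitInterval × (Fin k → ℝ × Rd d) =>
      (z.1, ext0 z.2) := fun k => by
    refine measurable_fst.prodMk (measurable_pi_lambda _ fun i => ?_)
    by_cases hi : i < k
    · simp only [ext0, dif_pos hi]
      exact (measurable_pi_apply _).comp measurable_snd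
    · simp only [ext0, dif_neg hi]
      exact measurable_const
  let A : Algo d q := ⟨unitInterval, inferInstance, inferInstance, volume, inferInstance,
    fun k z => f k (z.1, ext0 z.2), fun k => (hf k).comp (hr k), fun z => f q (z.1, ext0 z.2),
    (hf q).comp (hr q)⟩
  refine ⟨A, fun V hV B hB => ?_⟩
  have key : ∀ ω (k : ℕ) (hk : k ≤ q), ext0 (A.answers V ω k hk) = record f V ω k := by
    intro ω k
    induction k with
    | zero => exact fun _ => funext fun i => dif_neg (Nat.not_lt_zero i)
    | succ k ih =>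
      intro hk
      funext i
      rw [record, Algo.answers, ← ih (Nat.le_of_succ_le hk)]
      rcases lt_trichotomy i k with hi | rfl | hi
      · rw [Function.update_of_ne hi.ne, ext0, ext0, dif_pos hi, dif_pos (Nat.lt_succ_of_lt hi)]
        exact Fin.snoc_castSucc (α := fun _ => ℝ × Eu d) _ _ ⟨i, hi⟩
      · rw [Function.update_self, ext0, dif_pos (Nat.lt_succ_self i)]
        exact Fin.snoc_last (α := fun _ => ℝ × Eu d) _ _
      · rw [Function.update_of_ne hi.ne', ext0, ext0, dif_neg (by omega), dif_neg (by omega)]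
  have h3 := h V (by rwa [cls_eq]) B hB
  rw [(law_real A hV hB).2, target_eq_gibbs hV]
  simp only [← key _ q le_rfl] at h3
  exact h3

theorem samples_lower {ε : ℝ} (h : Samples d q ε) : (1 - ε) * d ≤ 2 ^ (25 * (q + 1)) := by
  obtain ⟨A, hA⟩ := algo_of h
  exact Low.lower A fun V hV => hA V hV.1

end Vale.Agent.N347X
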