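import Vale.Agent.P347.MathlibUsed
import Mathlib.MeasureTheory.Constructions.UnitInterval
import Mathlib.MeasureTheory.Measure.Tilted

/-! P347: the class of potentials, algorithms with a first-order oracle, query complexity. -/

open MeasureTheory

namespace Vale.Agent.N347X

/-- Euclidean space `ℝ^d`. -/
abbrev Rd (d : ℕ) : Type := EuclideanSpace ℝ (Fin d)

/-- The class `V_d`: `V` is `C^2`, `V 0 = 0`, `∇V 0 = 0` and `I ≤ ∇²V(x) ≤ 2 I` for all `x`. -/
def Cls (d : ℕ) : Set (Rd d → ℝ) :=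
  {V | ContDiff ℝ 2 V ∧ V 0 = 0 ∧ gradient V 0 = 0 ∧ ∀ x v : Rd d,
    ‖v‖ ^ 2 ≤ iteratedFDeriv ℝ 2 V x ![v, v] ∧ iteratedFDeriv ℝ 2 V x ![v, v] ≤ 2 * ‖v‖ ^ 2}

/-- The record after `k` queries of the algorithm `f` run on `V` with the random seed `ω`. The
entry `i < k` is the answer `(V x, ∇V x)` at the point `x = f i (ω, record after i queries)`, the
other entries are `0`. -/
noncomputable def record {d : ℕ} (f : ℕ → unitInterval × (ℕ → ℝ × Rd d) → Rd d) (V : Rd d → ℝ)
    (ω : unitInterval) : ℕ → ℕ → ℝ × Rd d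
  | 0 => 0
  | k + 1 => Function.update (record f V ω k) k
      (V (f k (ω, record f V ω k)), gradient V (f k (ω, record f V ω k)))

/-- Some algorithm `f` (measurable maps, seed uniform on `[0, 1]`) makes `q` queries and outputs
`X = f q (ω, record after q queries)` with `|P(X ∈ B) - π_V(B)| ≤ ε` for all `V ∈ V_d` and all
Borel sets `B`, where `π_V(dx) = exp (-V x) dx / ∫ exp (-V)`. -/
def Samples (d q : ℕ) (ε : ℝ) : Prop :=
  ∃ f : ℕ → unitInterval × (ℕ → ℝ × Rd d) → Rd d, (∀ k, Measurable (f k)) ∧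
    ∀ V ∈ Cls d, ∀ B : Set (Rd d), MeasurableSet B →
      |volume.real {ω | f q (ω, record f V ω q) ∈ B} -
        (volume.tilted fun x => -V x).real B| ≤ ε

/-- The query complexity in dimension `d` at total variation accuracy `ε`. -/
noncomputable def Qc (d : ℕ) (ε : ℝ) : ℕ := sInf {q | Samples d q ε}

end Vale.Agent.N347X
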