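import Vale.Agent.N347X.Nodes
import Vale.Agent.P347.H941.Base

/-! P347, explicit constants: the recursion and the chain (proofs as in `Bdl/B4`, `Bdl/B5`,
`Bdl/B6`, `H941/Base`) for nets whose order differs from the number of nodes. -/

open MeasureTheory Filter Module
open scoped ENNReal NNReal

set_option linter.unusedVariables false
set_option linter.unusedTactic false
set_option linter.style.haveILetI false

namespace Vale.Agent.N347X

open Vale.Agent.P347 Vale.Agent.P347.Z Vale.Agent.P347.S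

variable {d : ℕ}

theorem evalAt_stepY {N p g lmax mmax B D : ℕ} {C δ ϖ ε a Λ smax : ℝ}
    (par : GPar N p C δ ϖ ε a Λ smax lmax mmax B D) 
    (par2 : GPar N g C δ ϖ ε a Λ smax lmax mmax B D) (hnodes : NodesY p g N C δ) (hd : 1 ≤ d)
    {l m : ℕ} (hm : 2 ≤ m) (hm' : m ≤ mmax) (hl1 : 1 ≤ l) (hl : l ≤ lmax) {s : ℝ} (hs : 0 < s)
    (hs' : s ≤ smax) {a₁ Λ₁ : ℝ} {B₁ : ℕ} (ha₁ : 0 ≤ a₁) (ha₁' : a₁ ≤ a) (hΛ₁ : 0 ≤ Λ₁)
    (hΛ₁' : Λ₁ ≤ Λ)
    (hmain : EvalAt d (δ / 4) ϖ D l m ((1 - δ) * s) a₁ Λ₁ B₁)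
    (hE : ∀ l' < l, ∀ s', (1 - 2 * δ) * s ≤ s' → s' ≤ s →
      EvalAt d (δ / 4) ϖ D l' (m - 2) s' a Λ B)
    (hE' : ∀ s', (1 - 2 * δ) * s ≤ s' → s' ≤ s → EvalAt d (δ / 4) ϖ D (l - 1) m s' a Λ B) :
    EvalAt d (δ / 4) ϖ D l m s ((1 + ε) * a₁ + (2 * Λ + 3)) ((1 + ε) * Λ₁ + ε) (B₁ + 2) := by
  intro w σ hσ hw Θ _ h
  have hϖ := par.hϖ
  have hϖ1 := par.hϖ'.le
  have hδ := par.hδ
  have hC := par.hC
  have hε := par.hε
  have hε1 := par.hε'
  have hΛ := par.hΛ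
  have hN0 : (0 : ℝ) < N := by exact_mod_cast par.hN
  have hp : (1 : ℝ) ≤ p := by exact_mod_cast par.hp
  have hδ8 : δ ≤ 1 / 8 := by
    refine par.hδ'.trans ?_
    rw [div_le_div_iff₀ (by (clear * - hp; positivity)) (by norm_num)]
    linarith only [hp]
  have num := gs_num par hm hm' hs hs' hσ hw
  set κ := -2 * w / (√δ * σ) with hκ
  set b := ϖ ^ (2 * m - 2) with hb
  obtain ⟨net, hgood, hcert⟩ := hnodes s b κ hs (hs'.trans par.hs') num.b0 num.b8
    num.ks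
  have hgood' := gs_good_mono hgood num.W
  obtain ⟨H, Hcost, Hlip, Herr⟩ :=
    exists_nodeHandles par hd hm hm' hl hs hs' net hgood' hE Θ h
  have ctop : |w| * √((1 - δ) * s) ≤ ϖ ^ (2 * m) * (√(1 - δ / 2) * σ) := by
    rw [Real.sqrt_mul (by linarith only [hδ8])]
    have h1 : √(1 - δ) ≤ √(1 - δ / 2) := Real.sqrt_le_sqrt (by linarith only [hδ])
    calc |w| * (√(1 - δ) * √s) = √(1 - δ) * (|w| * √s) := by ring
      _ ≤ √(1 - δ / 2) * (ϖ ^ (2 * m) * σ) := by (clear * - h1 hw hs; gcongr)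
      _ = ϖ ^ (2 * m) * (√(1 - δ / 2) * σ) := by ring
  have hσt : 0 < √(1 - δ / 2) * σ := mul_pos (Real.sqrt_pos.2 (by linarith only [hδ8])) hσ
  obtain ⟨At, Atc, Atl, Ate⟩ := hmain w (√(1 - δ / 2) * σ) hσt ctop
    (Θ × Eu d × Eu d × Eu d) (fun l' => H l' net.top)
  have hc0 : 0 ≤ √δ / 2 * σ := by (clear * - hδ hσ; (clear * - hδ hσ; positivity))
  have hwj0 : ∀ j, |√δ / 2 * σ * net.q j| ≤ √δ / 2 * σ * (C * (κ ^ 2 * √(δ * s) / b)) := by
    intro j
    rw [abs_mul, abs_of_nonneg hc0]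
    exact mul_le_mul_of_nonneg_left (hgood.q_le j) hc0
  have hwj1 : ∀ j, |√δ / 2 * σ * net.q j| ≤ 2 * C * ϖ ^ 2 * |w| := fun j =>
    (hwj0 j).trans num.q1
  have hwj2 : ∀ j, |√δ / 2 * σ * net.q j| * √(net.lev j) ≤
      ϖ ^ (2 * m) * (σ * √(δ / (4 * N))) := by
    intro j
    refine le_trans ?_ num.q2
    have h1 : √(net.lev j) ≤ √s := Real.sqrt_le_sqrt (hgood.lev_hi j)
    exact mul_le_mul (hwj0 j) h1 (Real.sqrt_nonneg _) ((abs_nonneg _).trans (hwj0 j))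
  have hσj : 0 < σ * √(δ / (4 * N)) := mul_pos hσ (Real.sqrt_pos.2 (by (clear * - hδ hN0; positivity)))
  have hAj := fun j => hE' (net.lev j) (hgood.lev_lo j) (hgood.lev_hi j)
    (√δ / 2 * σ * net.q j) (σ * √(δ / (4 * N))) hσj (hwj2 j)
    (Θ × Eu d × Eu d × Eu d) (fun l' => H l' j)
  choose Aj Ajc Ajl Aje using hAj
  obtain ⟨O, cO, lO⟩ := gs_out
    (fun t : Θ × Eu d × Eu d × Eu d => (√δ / 2 * σ) • t.2.2.1) (by (clear * -; fun_prop)) At Aj
  obtain ⟨A, cA, lA⟩ := gs_total (h l) (√(3 / 4 * (δ * s))) O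
  -- the Lipschitz estimate of the inner sampler
  have Olip : ∀ V ∈ PotClass d, ∀ (θ₁ θ₂ : Θ) (c : ℝ), 0 ≤ c →
      (∀ l' ≤ l, WD ((h l').law V θ₁) ((h l').law V θ₂) c) →
      ∀ (K₁ K₂ : Eu d) (z : Eu d × Eu d), WD (O.law V (θ₁, K₁, z)) (O.law V (θ₂, K₂, z))
        (|w| * Λ₁ * ((1 + ε / 8) * ‖K₁ - K₂‖ + ε / 8 * c) +
          |w| * (4 * N * C * Λ * ϖ ^ 2) * (c + ‖K₁ - K₂‖)) := by
    intro V hV θ₁ θ₂ c hc hh K₁ K₂ z
    obtain ⟨i1, i2⟩ := Hlip V hV θ₁ θ₂ c hc hh K₁ K₂ z.1 z.2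
    exact gs_out_lip par hV (lO V hV) hwj1 (t₁ := (θ₁, K₁, z)) (t₂ := (θ₂, K₂, z)) rfl
      (ct := (1 + ε / 8) * ‖K₁ - K₂‖ + ε / 8 * c) (cj := c + ‖K₁ - K₂‖) (by (clear * - hc; (clear * - hc; positivity)))
      (Atl V hV _ _ _ fun l' hl' => i2 l' hl')
      (fun j => Ajl j V hV _ _ _ fun l' hl' => i1 l' (by (clear * - hl1 hl'; (clear * - hl1 hl'; omega))) j)
  set G : ℝ := 4 * N * C * Λ * ϖ ^ 2 with hG
  have hG0 : 0 ≤ G := by (clear * - hN0 hC hΛ hϖ; positivity)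
  have hG1 : G ≤ ε / 16 := by
    have h1 := par.i8
    have h2 : ϖ ^ 2 ≤ ϖ := by (refine le_of_not_gt fun hng_ => ?_; linarith only [mul_nonneg (sub_nonneg.2 hδ8) (le_of_lt (sub_pos.2 hng_)), mul_pos hδ (sub_pos.2 hng_), mul_nonneg (le_of_lt hϖ) (sub_nonneg.2 hϖ1)])
    calc G ≤ 4 * N * C * Λ * ϖ := by rw [hG]; (clear * - h2 hN0 hC hΛ; gcongr)
      _ ≤ ε / 16 := by linarith only [h1]
  have hLKle : |w| * (Λ₁ * (1 + ε / 8) + G) ≤ |w| * (2 * Λ) := by
    have h1 : Λ₁ * (1 + ε / 8) ≤ Λ * (1 + 1 / 8) := by (clear * - hΛ₁' hε1 hε hΛ; gcongr)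
    have h2 : Λ₁ * (1 + ε / 8) + G ≤ 2 * Λ := by linarith only [hG1, hε1, hΛ, h1]
    (clear * - h2; gcongr)
  have hO1 : ∀ V ∈ PotClass d, ∀ (θ : Θ) (K₁ K₂ : Eu d) (z : Eu d × Eu d),
      WD (O.law V (θ, K₁, z)) (O.law V (θ, K₂, z))
        (|w| * (Λ₁ * (1 + ε / 8) + G) * ‖K₁ - K₂‖) := by
    intro V hV θ K₁ K₂ z
    refine (Olip V hV θ θ 0 le_rfl (fun l' _ => WD.refl _) K₁ K₂ z).mono (le_of_eq ?_)
    ring
  refine ⟨A, ?_, ?_, ?_⟩
  · -- cost
    intro τ hτ hc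
    obtain ⟨c1, c2⟩ := Hcost τ hτ hc
    have k1 := Atc τ hτ fun l' hl' => c2 l' hl'
    have k2 : ∀ j, (Aj j).cost ≤ B * D ^ (l - 1) * (2 * τ) := fun j =>
      Ajc j (2 * τ) (by omega) fun l' hl' => c1 l' (by omega) j
    have k3 : ∑ j, (Aj j).cost ≤ N * (B * D ^ (l - 1) * (2 * τ)) := by
      calc ∑ j, (Aj j).cost ≤ ∑ _j : Fin N, B * D ^ (l - 1) * (2 * τ) :=
            Finset.sum_le_sum fun j _ => k2 j
        _ = N * (B * D ^ (l - 1) * (2 * τ)) := by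
            rw [Finset.sum_const, Finset.card_univ, Fintype.card_fin, smul_eq_mul]
    have k4 : N * (B * D ^ (l - 1) * (2 * τ)) ≤ D ^ l * τ := by
      obtain ⟨k, rfl⟩ : ∃ k, l = k + 1 := ⟨l - 1, by (clear * - hl1; omega)⟩
      rw [Nat.add_sub_cancel, pow_succ]
      calc N * (B * D ^ k * (2 * τ)) = D ^ k * (2 * N * B) * τ := by ring
        _ ≤ D ^ k * D * τ := by
          have := par.i10
          (clear * - this; gcongr)
    have k5 := hc l le_rfl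
    rw [cA, cO]
    calc (h l).cost + (At.cost + ∑ j, (Aj j).cost)
        ≤ D ^ l * τ + (B₁ * D ^ l * τ + D ^ l * τ) := by
          have := k3.trans k4
          omega
      _ = (B₁ + 2) * D ^ l * τ := by ring
  · -- Lipschitz estimate
    intro V hV θ₁ θ₂ c hc
    have hc0 : 0 ≤ c := (hc 0 (Nat.zero_le _)).nonneg
    intro f hlip bf
    obtain ⟨Cf, hCf⟩ := bf
    have hfc : Continuous f := gs_lip_meas zero_le_one (by simpa only [one_mul] using hlip)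
    have hfm := hfc.measurable
    rw [lA V hV θ₁ f hfm ⟨Cf, hCf⟩, lA V hV θ₂ f hfm ⟨Cf, hCf⟩]
    have := (h l).isProb hV θ₁
    have := (h l).isProb hV θ₂
    have hLK0 : 0 ≤ |w| * (Λ₁ * (1 + ε / 8) + G) := by (clear * - hΛ₁ hε hN0 hC hΛ hϖ; (clear * - hΛ₁ hε hN0 hC hΛ hϖ; positivity))
    have hPhi : ∀ K₁ K₂, |gsPhi O V f θ₂ K₁ - gsPhi O V f θ₂ K₂| ≤
        |w| * (Λ₁ * (1 + ε / 8) + G) * ‖K₁ - K₂‖ :=
      fun K₁ K₂ => gsPhi_sub hV hfm hCf hlip (hO1 V hV θ₂ K₁ K₂)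
    have hμ := (hc l le_rfl).cnv (WD.refl (gau (0 : Eu d) (√(3 / 4 * (δ * s)))))
    have key := gs_lip (O := O) hV hCf hlip (θ₁ := θ₁) (θ₂ := θ₂) hLK0
      (Lc := |w| * (Λ₁ * (ε / 8) + G) * c) hμ (hO1 V hV θ₁)
      (fun K z => (Olip V hV θ₁ θ₂ c hc0 hc K K z).mono (le_of_eq (by
        rw [sub_self, norm_zero]
        ring))) (gs_lip_meas hLK0 hPhi)
    refine key.trans ?_
    have h1 : Λ₁ * (1 + ε / 8) + G + (Λ₁ * (ε / 8) + G) ≤ (1 + ε) * Λ₁ + ε := by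
      have : 0 ≤ ε * Λ₁ := by (clear * - hε hΛ₁; positivity)
      linarith only [hG1, hG0, this]
    calc |w| * (Λ₁ * (1 + ε / 8) + G) * (c + 0) + |w| * (Λ₁ * (ε / 8) + G) * c
        = |w| * (Λ₁ * (1 + ε / 8) + G + (Λ₁ * (ε / 8) + G)) * c := by ring
      _ ≤ |w| * ((1 + ε) * Λ₁ + ε) * c := by (clear * - h1 hc0; gcongr)
  · -- error estimate
    intro V hV θ y e he hh
    intro f hlip bf
    obtain ⟨Cf, hCf⟩ := bf
    have hfc : Continuous f := gs_lip_meas zero_le_one (by simpa only [one_mul] using hlip)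
    have hfm := hfc.measurable
    rw [lA V hV θ f hfm ⟨Cf, hCf⟩]
    obtain ⟨X, Z, R, cert⟩ := hcert d V (gradient V) _ (PotClass.pot hV) hd y
    have hLK0 : 0 ≤ |w| * (Λ₁ * (1 + ε / 8) + G) := by (clear * - hΛ₁ hε hN0 hC hΛ hϖ; positivity)
    refine gs_err par2 hl hs hs' hσ ha₁ num hV he (hh l le_rfl) hLK0 hLKle (hO1 V hV θ) cert
      ?_ hlip hCf
    intro ω
    obtain ⟨j1, j2⟩ := Herr V hV θ y e he hh (fun i => X i ω) (R ω) ω.1 ω.2.1 ω.2.2 (cert.R0 ω)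
      (cert.root ω) (fun i => cert.node i ω)
    have hR := cert.R0 ω
    have he0 : 0 ≤ e := le_trans (by (clear * - hd; (clear * - hd; positivity))) he
    have hS0 : 0 ≤ ∑ i, (‖X i ω‖ + √d) := Finset.sum_nonneg fun i _ => by (clear * - hd; positivity)
    have hRl : 0 ≤ R ω / ϖ ^ l := by (clear * - hR hϖ; positivity)
    have hM0 : 0 ≤ e + ∑ i, (‖X i ω‖ + √d) + R ω / ϖ ^ l := by (clear * - he0 hd hR hϖ; (clear * - he0 hd hR hϖ; positivity))
    have hMj : ∀ j, ‖X j ω‖ + √d ≤ 2 * (e + ∑ i, (‖X i ω‖ + √d) + R ω / ϖ ^ l) := by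
      intro j
      have h1 : ‖X j ω‖ + √d ≤ ∑ i, (‖X i ω‖ + √d) :=
        Finset.single_le_sum (f := fun i => ‖X i ω‖ + √d) (fun i _ => by (clear * - hd; positivity))
          (Finset.mem_univ j)
      linarith only [hM0, he0, hRl, h1]
    have a1 := Ate V hV (θ, y + √(δ * s) • ω.1, ω.2) (X net.top ω)
      (‖X net.top ω‖ + √d + ε / (32 * (N + 1)) *
          (e + ∑ i, (‖X i ω‖ + √d) + R ω / ϖ ^ l) + R ω / ϖ ^ l) (by
        have : 0 ≤ ε / (32 * ((N : ℝ) + 1)) * (e + ∑ i, (‖X i ω‖ + √d) + R ω / ϖ ^ l) := by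
          (clear * - hε hN0 he0 hd hR hϖ; (clear * - hε hN0 he0 hd hR hϖ; positivity))
        linarith only [this, hRl]) (fun l' hl' => by
        have h1 := j2 l' hl'
        rw [hgood.top_lev] at h1
        exact h1)
    have a2 := fun j => Aje j V hV (θ, y + √(δ * s) • ω.1, ω.2) (X j ω)
      (2 * (e + ∑ i, (‖X i ω‖ + √d) + R ω / ϖ ^ l)) (hMj j)
      (fun l' hl' => j1 l' (by (clear * - hl1 hl'; omega)) j)
    refine gs_out_err par hs hs' hσ hV (lO V hV _) hwj1 hM0 hR a1 a2 ?_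
    have h1 : (√δ / 2 * σ) • ω.2.1 + (w • Fp V (gradient V) ((1 - δ) * s) (X net.top ω) +
        ∑ j, (√δ / 2 * σ * net.q j) • Fp V (gradient V) (net.lev j) (X j ω)) -
        (√δ / 2 * σ) • Z ω = (√δ / 2 * σ) • (ω.2.1 -
          κ • Fp V (gradient V) ((1 - δ) * s) (X net.top ω)
          + ∑ j, net.q j • Fp V (gradient V) (net.lev j) (X j ω) - Z ω) := by
      rw [smul_sub, smul_add, smul_sub, smul_smul, num.kw, Finset.smul_sum]
      simp only [smul_smul, neg_smul]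
      abel
    rw [h1, norm_smul, Real.norm_eq_abs, abs_of_nonneg hc0]
    calc √δ / 2 * σ * ‖ω.2.1 - κ • Fp V (gradient V) ((1 - δ) * s) (X net.top ω)
          + ∑ j, net.q j • Fp V (gradient V) (net.lev j) (X j ω) - Z ω‖
        ≤ √δ / 2 * σ * (|κ| * √s * R ω) := by
          gcongr
          exact cert.out ω
      _ = (√δ / 2 * σ * |κ|) * √s * R ω := by ring
      _ = |w| * √s * R ω := by rw [num.kw']

theorem evalAt_allY {N p g lmax mmax B D J : ℕ} {C δ ϖ ε a Λ smax smin : ℝ}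
    (par : GPar N p C δ ϖ ε a Λ smax lmax mmax B D) 
    (par2 : GPar N g C δ ϖ ε a Λ smax lmax mmax B D) (hnodes : NodesY p g N C δ) (hd : 1 ≤ d)
    (hJ : (1 - δ) ^ J * smax ≤ smin) (hmin : 16 * √smin ≤ ϖ ^ lmax) (hmin1 : smin ≤ 1)
    (hJε : J * ε ≤ 1) (hΛ : Λ = 9) (ha : 9 + 63 * J ≤ a) (hB : 2 * J + 2 ≤ B)
    {l m : ℕ} (hl : l ≤ lmax) (hm : m ≤ mmax) {s : ℝ} (hs : 0 < s) (hs' : s ≤ smax) :
    EvalAt d (δ / 4) ϖ D l m s a Λ B := by
  have hε0 : 0 ≤ ε := par.hε.le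
  have hϖ0 : 0 ≤ ϖ := par.hϖ.le
  have hp1 : (1 : ℝ) ≤ p := by exact_mod_cast par.hp
  have hδ8 : δ ≤ 1 / 8 := by
    refine par.hδ'.trans ?_
    rw [div_le_div_iff₀ (by (clear * - hp1; positivity)) (by norm_num)]
    linarith only [hp1]
  have hδ0 := par.hδ
  have h1δ : 0 < 1 - δ := by linarith only [hδ8]
  have h1δ' : 1 - δ ≤ 1 := by linarith only [hδ0]
  have hD : 1 ≤ D := by
    have h1 := par.i10
    have h2 := par.hN
    have h3 : 2 * 1 * 1 ≤ 2 * N * B := by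
      gcongr
      omega
    omega
  -- strong induction in the level
  induction l using Nat.strong_induction_on generalizing m s with
  | _ l ih =>
    by_cases hcase : l = 0 ∨ m ≤ 1
    · exact evalAt_noise hcase hs (by linarith only [par.hs', hs']) par.ha (by rw [hΛ]; norm_num)
    · push Not at hcase
      obtain ⟨hl0, hm1⟩ := hcase
      have hl1 : 1 ≤ l := Nat.one_le_iff_ne_zero.2 hl0
      have hpow1 : ∀ k : ℕ, (1 : ℝ) ≤ (1 + ε) ^ k := fun k => one_le_pow₀ (by linarith only [hε0])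
      -- inner induction
      have key : ∀ k : ℕ, k ≤ J → ∀ s : ℝ, 0 < s → s ≤ smax → (1 - δ) ^ k * s ≤ smin →
          EvalAt d (δ / 4) ϖ D l m s ((1 + ε) ^ k * (3 + 21 * k)) ((1 + ε) ^ k * (2 + k * ε))
            (2 * k + 2) := by
        intro k
        induction k with
        | zero =>
          intro _ s hs hs' hsm
          rw [pow_zero, one_mul] at hsm
          have hb : 16 * √s ≤ ϖ ^ l := by
            calc 16 * √s ≤ 16 * √smin := by
                  have := Real.sqrt_le_sqrt hsm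
                  linarith only [this]
              _ ≤ ϖ ^ lmax := hmin
              _ ≤ ϖ ^ l := pow_le_pow_of_le_one hϖ0 par.hϖ'.le hl
          refine evalAt_bottom hs (by linarith only [par.hs', hs']) (by linarith only [h1δ']) (by linarith only [h1δ]) par.hϖ
            par.hϖ'.le hb ?_ ?_ ?_ hD
          · simp
          · simp
          · omega
        | succ k ihk =>
          intro hk s hs hs' hsm
          have hs2 : 0 < (1 - δ) * s := by (clear * - h1δ hs; positivity)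
          have hs3 : (1 - δ) * s ≤ smax := by (refine le_of_not_gt fun hng_ => ?_; linarith only [mul_pos h1δ (sub_pos.2 hng_), mul_nonneg (sub_nonneg.2 h1δ') (le_of_lt hs2), mul_nonneg (le_of_lt h1δ) (sub_nonneg.2 hs')])
          have hmain := ihk (by omega) ((1 - δ) * s) hs2 hs3 (by
            calc (1 - δ) ^ k * ((1 - δ) * s) = (1 - δ) ^ (k + 1) * s := by ring
              _ ≤ smin := hsm)
          have hp3 : (1 + ε) ^ k ≤ 3 := evalThm_pow hε0 (by omega : k ≤ J) hJε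
          have hkJ : (k : ℝ) ≤ J := by exact_mod_cast (by omega : k ≤ J)
          have hk0 : (0 : ℝ) ≤ k := Nat.cast_nonneg k
          have hkε : (k : ℝ) * ε ≤ 1 := by nlinarith only [hJε, hε0, hkJ]
          have ha1 : (1 + ε) ^ k * (3 + 21 * k) ≤ a := by
            calc (1 + ε) ^ k * (3 + 21 * (k : ℝ)) ≤ 3 * (3 + 21 * k) := by (clear * - hp3; gcongr)
              _ ≤ 9 + 63 * J := by linarith only [hkJ]
              _ ≤ a := ha
          have hΛ1 : (1 + ε) ^ k * (2 + k * ε) ≤ Λ := by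
            calc (1 + ε) ^ k * (2 + k * ε) ≤ 3 * (2 + 1) := by (clear * - hp3 hkε hε0; gcongr)
              _ = Λ := by rw [hΛ]; norm_num
          have hstep := evalAt_stepY par par2 hnodes hd (by omega : 2 ≤ m) hm hl1 hl hs hs'
            (a₁ := (1 + ε) ^ k * (3 + 21 * k)) (Λ₁ := (1 + ε) ^ k * (2 + k * ε))
            (B₁ := 2 * k + 2) (by (clear * - hε0; positivity)) ha1 (by (clear * - hε0; positivity)) hΛ1 hmain
            (fun l' hl' s' h1 h2 => ih l' hl' (by omega) (by omega)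
              (lt_of_lt_of_le (mul_pos (by linarith only [hδ8]) hs) h1) (h2.trans hs'))
            (fun s' h1 h2 => ih (l - 1) (by omega) (by omega) hm
              (lt_of_lt_of_le (mul_pos (by linarith only [hδ8]) hs) h1) (h2.trans hs'))
          refine evalThm_mono hϖ0 hstep ?_ ?_ ?_
          · have h1 := hpow1 (k + 1)
            rw [hΛ]
            push_cast
            have h2 : (1 + ε) * ((1 + ε) ^ k * (3 + 21 * (k : ℝ))) =
                (1 + ε) ^ (k + 1) * (3 + 21 * k) := by ring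
            rw [h2]
            linarith only [h1]
          · have h1 := hpow1 (k + 1)
            push_cast
            have h2 : (1 + ε) * ((1 + ε) ^ k * (2 + (k : ℝ) * ε)) =
                (1 + ε) ^ (k + 1) * (2 + k * ε) := by ring
            rw [h2]
            (refine le_of_not_gt fun hng_ => ?_; linarith only [mul_pos hδ0 (sub_pos.2 hng_), mul_nonneg (sub_nonneg.2 hδ8) (le_of_lt (sub_pos.2 hng_)), mul_nonneg hε0 (sub_nonneg.2 h1)])
          · omega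
      have hfin := key J le_rfl s hs hs' (le_trans (by (clear * - hs' h1δ; gcongr)) hJ)
      have hp3 : (1 + ε) ^ J ≤ 3 := evalThm_pow hε0 le_rfl hJε
      have hJ0 : (0 : ℝ) ≤ J := Nat.cast_nonneg J
      refine evalThm_mono hϖ0 hfin ?_ ?_ ?_
      · calc (1 + ε) ^ J * (3 + 21 * (J : ℝ)) ≤ 3 * (3 + 21 * J) := by (clear * - hp3; gcongr)
          _ = 9 + 63 * J := by ring
          _ ≤ a := ha
      · calc (1 + ε) ^ J * (2 + J * ε) ≤ 3 * (2 + 1) := by (clear * - hp3 hJε hε0; gcongr)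
          _ = Λ := by rw [hΛ]; norm_num
      · exact hB

theorem exists_downStepY {p g lmax mmax B D : ℕ} {C δ ϖ a Λ smax : ℝ} (hp : 1 ≤ p) (hC : 1 ≤ C)
    (hd : 1 ≤ d) (hδ : 0 < δ) (hδ' : δ ≤ 1 / (8 * p)) (hϖ : 0 < ϖ) (hϖ' : ϖ < 1) (ha : 2 ≤ a)
    (hs1 : smax ≤ 1 / 4) (hmm : 1 ≤ mmax) (j1 : smax ≤ ϖ ^ (2 * mmax))
    (j2 : C * √(8 * p * δ) ≤ 1) (j3 : 8 * p * C * a * ϖ ≤ 1) (j4 : C * (√δ) ^ g ≤ ϖ ^ lmax)
    (j5 : p * B ≤ D)
    (hev : ∀ l ≤ lmax, ∀ s, 0 < s → s ≤ smax → EvalAt d (δ / 4) ϖ D l mmax s a Λ B)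
    {s ς : ℝ} (hs : 0 < s) (hs' : s ≤ smax) (hς : δ * s / 4 ≤ ς ^ 2) (hς0 : 0 < ς)
    (hdown : DownY p g C s δ) :
    ∃ A : Samp d (Eu d) (Eu d), A.cost ≤ p * B * D ^ lmax ∧ ∀ V ∈ PotClass d, ∃ Q,
      StepTo A V s ((1 - δ) * s + ς ^ 2) (1 - δ * s / 4)
        (11 * p ^ 2 * C * a * eta ϖ lmax mmax) Q := by
  obtain ⟨net, hnet, hall⟩ := hdown
  obtain ⟨Out, hOc, hOe⟩ := ds_out (d := d) hp hC hδ hδ' hϖ hϖ' ha hs1 hmm j1 j2 j3 j5 hev
    hs hs' hς hς0 net hnet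
  obtain ⟨N, hNc, hN⟩ := exists_noise (d := d) (Θ := Eu d) (gam (Eu d))
  obtain ⟨A, hAc, hA⟩ := exists_bind N Out
  refine ⟨A, by rw [hAc, hNc, zero_add]; exact hOc, fun V hV => ?_⟩
  obtain ⟨c, hcc, hcl, hcm, hcX⟩ := hall d V _ _ (PotClass.pot hV) hd
  have hp' : (1 : ℝ) ≤ p := by exact_mod_cast hp
  have hδ8 : δ ≤ 1 / 8 := hδ'.trans (by
    apply div_le_div_of_nonneg_left (by norm_num) (by norm_num); linarith only [hp'])
  have hcm1 : ∀ y, Measurable (c y) := fun y =>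
    (hcc.comp (by fun_prop : Continuous fun a : Eu d => (y, a))).measurable
  have hprob : ∀ y, IsProbabilityMeasure ((gam (Eu d)).map (c y)) := fun y =>
    Measure.isProbabilityMeasure_map (hcm1 y).aemeasurable
  refine ⟨fun y => S.cnv ((gam (Eu d)).map (c y)) (gau 0 ς), ?_, ?_, ?_, ?_, ?_⟩
  · intro y
    exact cnv_prob
  · intro f hf bf
    simp only [fun y => ds_Qi (hcm1 y) (gam (Eu d)) (gau 0 ς) hf]
    have h1 : Measurable (fun q : Eu d × (Eu d × Eu d) => f (c q.1 q.2.1 + q.2.2)) :=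
      hf.comp ((hcc.measurable.comp
        (by fun_prop : Measurable fun q : Eu d × (Eu d × Eu d) => (q.1, q.2.1))).add
        (by fun_prop))
    exact (h1.stronglyMeasurable.integral_prod_right').measurable
  · intro y y'
    have h1 : WD ((gam (Eu d)).map (c y)) ((gam (Eu d)).map (c y'))
        (∫ _ω : Eu d, (1 - δ * s / 4) * ‖y - y'‖ ∂(gam (Eu d))) :=
      wd_coupling (hcm1 y) (hcm1 y') (integrable_const _) (fun ω => hcl y y' ω)
    have h2 := WD.cnv h1 (WD.refl (gau 0 ς))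
    simpa only [integral_const, probReal_univ, smul_eq_mul, one_mul, add_zero] using h2
  · intro f hf bf
    have hs1' : 0 < (1 - δ) * s := mul_pos (by linarith only [hδ8]) hs
    have hpr : IsProbabilityMeasure (gibbs (Wp V s)) := gibbs_Wp_prob hV hs
    rw [← gibbs_Wp_add hV hs1', ← hcm, ds_Qi hcc.measurable _ _ hf]
    simp only [fun y => ds_Qi (hcm1 y) (gam (Eu d)) (gau 0 ς) hf]
    obtain ⟨K, hK⟩ := bf
    have h1 : Measurable (fun q : Eu d × (Eu d × Eu d) => f (c q.1 q.2.1 + q.2.2)) :=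
      hf.comp ((hcc.measurable.comp
        (by fun_prop : Measurable fun q : Eu d × (Eu d × Eu d) => (q.1, q.2.1))).add
        (by fun_prop))
    have h2 : Integrable (fun q : Eu d × (Eu d × Eu d) => f (c q.1 q.2.1 + q.2.2))
        ((gibbs (Wp V s)).prod ((gam (Eu d)).prod (gau 0 ς))) :=
      Integrable.of_bound h1.aestronglyMeasurable K (Eventually.of_forall fun q => by
        rw [Real.norm_eq_abs]; exact hK _)
    rw [← integral_prod _ h2, ← Measure.prodAssoc_prod,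
      integral_map (MeasurableEquiv.measurable _).aemeasurable h1.aestronglyMeasurable]
    rfl
  · intro y
    obtain ⟨X, R, hXm, hRm, hR0, hXn, hcn, hRi, hRb, hXi, hXb⟩ := hcX y
    have hη := ds_eta_pos hϖ lmax mmax
    have hpw : 0 < ϖ ^ lmax := by positivity
    have hSi : Integrable (fun av => ∑ j, (‖X j av‖ + √d)) (gam (Eu d)) :=
      integrable_finsetSum _ fun j _ => (hXi j).add (integrable_const _)
    have hei : Integrable (fun av => ‖y‖ + √d + ∑ j, (‖X j av‖ + √d) + 2 * R av / ϖ ^ lmax)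
        (gam (Eu d)) := ((integrable_const _).add hSi).add ((hRi.const_mul 2).div_const _)
    have hmix := ds_mix hV Out y (A.law V y) (hcm1 y) (ς := ς) (hRi.add (hei.const_mul _))
      (fun av => hOe V hV y av (c y av) (fun j => X j av) (R av) (hR0 av)
          (fun i => hXn i av) (hcn av))
      (fun f hf bf => by rw [hA V hV y f hf bf, hN V hV y])
    refine WD.mono hmix ?_
    have hint := ds_int (P := gam (Eu d)) X R hRi hXi
      (p * (C * (δ * s)) * a * eta ϖ lmax mmax) (ϖ ^ lmax) (‖y‖ + √d)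
    refine le_trans (le_of_eq hint) ?_
    have h1 : ∑ j, ∫ av, (‖X j av‖ + √d) ∂(gam (Eu d)) ≤ p * (3 * (‖y‖ + √d)) := by
      calc ∑ j, ∫ av, (‖X j av‖ + √d) ∂(gam (Eu d))
          ≤ ∑ _j : Fin p, 3 * (‖y‖ + √d) := Finset.sum_le_sum fun j _ => by
            rw [integral_add (hXi j) (integrable_const _)]
            have := hXb j
            have := norm_nonneg y
            simp only [integral_const, probReal_univ, one_smul]
            linarith
        _ = p * (3 * (‖y‖ + √d)) := by simp only [Finset.sum_const, Finset.card_univ, Fintype.card_fin, nsmul_eq_mul]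
    have h2 : ∫ a, R a ∂(gam (Eu d)) ≤ ϖ ^ lmax * √d :=
      hRb.trans (mul_le_mul_of_nonneg_right j4 (Real.sqrt_nonneg _))
    have hlo := ds_eta_lo hϖ hϖ'.le mmax (le_refl lmax)
    have hy := norm_nonneg y
    have hsd := Real.sqrt_nonneg (d : ℝ)
    refine ds_arith hp hC (by positivity) (by (refine le_of_not_gt fun hng_ => ?_; linarith only [mul_nonneg (le_of_lt (sub_pos.2 hng_)) (sub_nonneg.2 (hs'.trans hs1)), mul_pos hs (sub_pos.2 hng_), mul_nonneg (sub_nonneg.2 (hs'.trans hs1)) (sub_nonneg.2 (hs'.trans hs1)), mul_nonneg (le_of_lt hs) (sub_nonneg.2 (hs'.trans hs1)), mul_nonneg (le_of_lt hs) (sub_nonneg.2 hδ8)])) ha hη (by (clear * - hd; (clear * - hd; positivity)))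
      h1 ?_ ?_
    · rw [div_le_iff₀ hpw]
      (refine le_of_not_gt fun hng_ => ?_; linarith only [mul_nonneg (sub_nonneg.2 hs1) (le_of_lt (sub_pos.2 hng_)), mul_pos hs (sub_pos.2 hng_), mul_nonneg (sub_nonneg.2 hs') (le_of_lt (sub_pos.2 hng_)), mul_nonneg (le_of_lt hpw) hy, mul_nonneg (sub_nonneg.2 hs1) (sub_nonneg.2 h2), mul_nonneg (sub_nonneg.2 hs') (sub_nonneg.2 h2), mul_nonneg (le_of_lt hs) (sub_nonneg.2 h2)])
    · exact h2.trans (mul_le_mul hlo (by linarith only [hy]) hsd hη.le)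

/-- The assembly of `main_wd_D` for given parameters. -/
theorem main_wdY {p M g N : ℕ} {C C' C'' : ℝ} (hM : 1 ≤ M) (hC' : 1 ≤ C')
    (hCC : C' * M ^ 2 ≤ C'') {δ ϖ ε a smax smin : ℝ} (hnodes : NodesY p g N C δ)
    (hdown : ∀ s : ℝ, 0 < s → s ≤ 1 / 4 → DownY M g C' s δ)
    {d D' : ℕ} (hd1 : 1 ≤ d) (hdD : d ≤ D') {lmax mmax B D J N₁ K : ℕ}
    (ap : AllPar D' N g C C'' δ ϖ ε a smax smin lmax mmax B D J N₁ K)
    (par1 : GPar N p C δ ϖ ε a 9 smax lmax mmax B D) (hδM : δ ≤ 1 / (8 * M)) (j5 : M * B ≤ D) :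
    ∃ A : Samp d Unit (Eu d), A.cost ≤ (N₁ + K) * (M * B * D ^ lmax) ∧
      ∀ V ∈ PotClass d, WD (A.law V ()) (gibbs V) (1 / (200 * √(D' : ℝ))) := by
  have par := ap.par
  have hp1 : (1 : ℝ) ≤ g := by exact_mod_cast par.hp
  have hM1 : (1 : ℝ) ≤ M := by exact_mod_cast hM
  have hC'' : C' ≤ C'' := (le_mul_of_one_le_right (by linarith) (one_le_pow₀ hM1)).trans hCC
  have hδ8 : δ ≤ 1 / 8 := by
    refine par.hδ'.trans ?_
    rw [div_le_div_iff₀ (by positivity) (by norm_num)]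
    linarith only [hp1]
  have hδ := par.hδ
  have hsmax := par.hs
  have hev : ∀ l ≤ lmax, ∀ s, 0 < s → s ≤ smax → EvalAt d (δ / 4) ϖ D l mmax s a 9 B :=
    fun l hl s hs hs' => evalAt_allY par1 par hnodes hd1 ap.hJ ap.hmin ap.hmin1 ap.hJε rfl ap.ha ap.hB
      hl le_rfl hs hs'
  set ε' : ℝ := 11 * g ^ 2 * C'' * a * eta ϖ lmax mmax with hε'
  have hε'0 : 0 ≤ ε' := by
    have h1 : 0 ≤ eta ϖ lmax mmax := pow_nonneg par.hϖ.le _
    have h2 : 0 ≤ a := le_trans zero_le_two par.ha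
    have h3 : 0 ≤ C'' := by linarith
    rw [hε']
    positivity
  have hstep : ∀ s ς : ℝ, 0 < s → s ≤ smax → δ * s / 4 ≤ ς ^ 2 → 0 < ς →
      ∃ A : Samp d (Eu d) (Eu d), A.cost ≤ M * B * D ^ lmax ∧ ∀ V ∈ PotClass d, ∃ Q,
        StepTo A V s ((1 - δ) * s + ς ^ 2) (1 - δ * s / 4) ε' Q := by
    intro s ς hs hs' hς hς0
    have h1 : 0 ≤ eta ϖ lmax mmax := pow_nonneg par.hϖ.le _
    have h2 : 0 ≤ a := le_trans zero_le_two par.ha
    have h3 : 0 ≤ C' := le_trans zero_le_one hC'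
    have h4 : (M : ℝ) ≤ M ^ 2 := le_self_pow₀ hM1 two_ne_zero
    have hϖ := par.hϖ
    have j2 : C' * √(8 * M * δ) ≤ 1 := by
      refine le_trans ?_ ap.j2
      refine le_trans ?_ (mul_le_mul_of_nonneg_right hCC (Real.sqrt_nonneg _))
      rw [mul_assoc C']
      refine mul_le_mul_of_nonneg_left ?_ h3
      rw [← Real.sqrt_sq (show (0 : ℝ) ≤ M ^ 2 by positivity), ← Real.sqrt_mul (sq_nonneg _)]
      refine Real.sqrt_le_sqrt ?_
      calc 8 * (M : ℝ) * δ = M * (8 * 1 * δ) := by ring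
        _ ≤ (M ^ 2) ^ 2 * (8 * g * δ) := by
          gcongr
          exact h4.trans (le_self_pow₀ (hM1.trans h4) two_ne_zero)
    have j3 : 8 * M * C' * a * ϖ ≤ 1 := by
      refine le_trans ?_ ap.j3
      calc 8 * M * C' * a * ϖ = 8 * 1 * (C' * M) * a * ϖ := by ring
        _ ≤ _ := by
          gcongr
          exact (mul_le_mul_of_nonneg_left h4 h3).trans hCC
    obtain ⟨A, hA, hA'⟩ := exists_downStepY hM hC' hd1 par.hδ hδM par.hϖ par.hϖ' par.ha par.hs'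
      ap.mm par.i9 j2 j3 (le_trans (by gcongr) ap.j4) j5 hev hs hs' hς hς0
      (hdown s hs (hs'.trans par.hs'))
    refine ⟨A, hA, fun V hV => ?_⟩
    obtain ⟨Q, hQ⟩ := hA' V hV
    refine ⟨Q, hQ.prob, hQ.meas, hQ.contr, hQ.inv, fun y => (hQ.err y).mono ?_⟩
    rw [hε']
    calc 11 * M ^ 2 * C' * a * eta ϖ lmax mmax * (‖y‖ + √d)
        = 11 * 1 ^ 2 * (C' * M ^ 2) * a * eta ϖ lmax mmax * (‖y‖ + √d) := by ring
      _ ≤ _ := by gcongr
  have hmain : ∃ A : Samp d (Eu d) (Eu d), A.cost ≤ M * B * D ^ lmax ∧ ∀ V ∈ PotClass d, ∃ Q,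
      StepTo A V smax smax (1 - δ * smax / 4) ε' Q := by
    have h0 : 0 < δ * smax := mul_pos hδ hsmax
    have hsq : √(δ * smax) ^ 2 = δ * smax := Real.sq_sqrt h0.le
    obtain ⟨A, hA, hA'⟩ := hstep smax (√(δ * smax)) hsmax le_rfl (by rw [hsq]; linarith only [h0])
      (Real.sqrt_pos.2 h0)
    refine ⟨A, hA, fun V hV => ?_⟩
    obtain ⟨Q, hQ⟩ := hA' V hV
    exact ⟨Q, mainZ_step hQ (by rw [hsq]; ring) le_rfl⟩
  have hdesc : ∀ k < K, ∃ A : Samp d (Eu d) (Eu d), A.cost ≤ M * B * D ^ lmax ∧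
      ∀ V ∈ PotClass d, ∃ Q,
        StepTo A V ((1 - δ / 2) ^ k * smax) ((1 - δ / 2) ^ (k + 1) * smax) 1 ε' Q := by
    intro k _
    have h1 : 0 < 1 - δ / 2 := by linarith only [hδ8]
    have h2 : (1 - δ / 2) ^ k ≤ 1 := pow_le_one₀ h1.le (by linarith only [hδ])
    have hs : 0 < (1 - δ / 2) ^ k * smax := mul_pos (pow_pos h1 k) hsmax
    have hs' : (1 - δ / 2) ^ k * smax ≤ smax := mul_le_of_le_one_left hsmax.le h2
    have h0 : 0 < δ * ((1 - δ / 2) ^ k * smax) / 2 := by positivity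
    have hsq : √(δ * ((1 - δ / 2) ^ k * smax) / 2) ^ 2 = δ * ((1 - δ / 2) ^ k * smax) / 2 :=
      Real.sq_sqrt h0.le
    obtain ⟨A, hA, hA'⟩ := hstep _ (√(δ * ((1 - δ / 2) ^ k * smax) / 2)) hs hs'
      (by rw [hsq]; linarith only [h0]) (Real.sqrt_pos.2 h0)
    refine ⟨A, hA, fun V hV => ?_⟩
    obtain ⟨Q, hQ⟩ := hA' V hV
    refine ⟨Q, mainZ_step hQ ?_ ?_⟩
    · rw [hsq, pow_succ]
      ring
    · have : 0 < δ * ((1 - δ / 2) ^ k * smax) / 4 := by positivity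
      linarith only [this]
  have hdL : (d : ℝ) ≤ (D' : ℝ) := by exact_mod_cast hdD
  have hdL1 : √(d : ℝ) ≤ √(D' : ℝ) := Real.sqrt_le_sqrt hdL
  have k3 := ap.k3
  have hfac : 0 ≤ 1 - δ * smax / 4 := by
    have h1 : δ * smax ≤ 1 / 8 * (1 / 4) := mul_le_mul hδ8 par.hs' hsmax.le (by norm_num)
    linarith only [h1]
  have hfac2 : 0 ≤ 1 - δ / 2 := by linarith only [hδ8]
  have k3' : 2 * √d * (1 - δ * smax / 4) ^ N₁ + ε' * √d * (6 * N₁ + 20 * K)
      + √((1 - δ / 2) ^ K * smax * d) ≤ 1 / (200 * √(D' : ℝ)) := by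
    refine le_trans ?_ k3
    have a1 : 2 * √(d : ℝ) * (1 - δ * smax / 4) ^ N₁ ≤
        2 * √(D' : ℝ) * (1 - δ * smax / 4) ^ N₁ :=
      mul_le_mul_of_nonneg_right (by linarith only [hdL1]) (pow_nonneg hfac _)
    have a2 : ε' * √(d : ℝ) * (6 * N₁ + 20 * K) ≤ ε' * √(D' : ℝ) * (6 * N₁ + 20 * K) :=
      mul_le_mul_of_nonneg_right (mul_le_mul_of_nonneg_left hdL1 hε'0) (by positivity)
    have a3 : √((1 - δ / 2) ^ K * smax * d) ≤ √((1 - δ / 2) ^ K * smax * (D' : ℝ)) :=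
      Real.sqrt_le_sqrt (mul_le_mul_of_nonneg_left hdL
        (mul_nonneg (pow_nonneg hfac2 _) hsmax.le))
    exact add_le_add (add_le_add a1 a2) a3
  obtain ⟨A, hA, hA'⟩ := exists_chain (c₀ := M * B * D ^ lmax) (N₁ := N₁) (K := K) hd1 par.hδ
    hδ8 par.hs par.hs' hε'0 ap.k1 ap.k2 hmain hdesc k3'
  exact ⟨A, hA, hA'⟩

end Vale.Agent.N347X
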