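import Vale.Agent.P347.Bdl.B7

/-! P347, explicit constants: factorial bounds for the multipliers generated by the Hessian. -/

open MeasureTheory Filter Module Set

namespace Vale.Agent.N347X

open Vale.Agent.P347 Vale.Agent.P347.Z Vale.Agent.P347.Z.MBz

/-- Weight of a code: the largest value of `∑ (length + 1)` over its monomials. -/
def om : Code → ℕ
  | .gen u => u.length + 1
  | .mul c c' => om c + om c'
  | .add c c' => max (om c) (om c')
  | .sm c => om c
  | .amp c => om c
  | .rei c => om c

/-- The operator `P` on codes. -/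
def pm : Code → Code
  | .gen u => pcode u
  | .mul c c' => .add (.add (.mul (pm c) c') (.mul c (pm c'))) (.mul c.din c'.dout)
  | .add c c' => .add (pm c) (pm c')
  | .sm c => .sm (pm c)
  | .amp c => .amp (pm c)
  | .rei c => .rei (pm c)

/-- The bound of a word. -/
noncomputable def gX (X : ℝ) (u : List Bool) : ℝ := (u.length.factorial : ℝ) * X ^ u.length

/-- The bound of a code. -/
noncomputable def val (X : ℝ) (c : Code) : ℝ := c.cst 0 (gX X)

variable {X : ℝ}

theorem gX_nonneg (hX : 0 ≤ X) (u : List Bool) : 0 ≤ gX X u := by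
  unfold gX; positivity

theorem val_nonneg (hX : 0 ≤ X) (c : Code) : 0 ≤ val X c := Code.cst_nonneg (gX_nonneg hX) c

theorem val_gen (u : List Bool) : val X (.gen u) = gX X u := rfl
theorem val_mul (c c' : Code) : val X (.mul c c') = val X c * val X c' := by
  show (3 : ℝ) ^ 0 * (_ * _) = _
  rw [pow_zero, one_mul]; rfl
theorem val_add (c c' : Code) : val X (.add c c') = val X c + val X c' := rfl
theorem val_sm (c : Code) : val X (.sm c) = val X c := rfl
theorem val_amp (c : Code) : val X (.amp c) = val X c := rfl
theorem val_rei (c : Code) : val X (.rei c) = val X c := rfl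
theorem gX_nil : gX X [] = 1 := by simp [gX]
theorem gX_cons (b : Bool) (u : List Bool) : gX X (b :: u) = X * (u.length + 1) * gX X u := by
  simp only [gX, List.length_cons, Nat.factorial_succ]
  push_cast
  ring

theorem om_dout (c : Code) : om c.dout ≤ om c + 1 := by
  induction c with
  | gen u => simp [Code.dout, om]
  | mul c c' ih ih' => simp only [Code.dout, om]; omega
  | add c c' ih ih' => simp only [Code.dout, om]; omega
  | sm c ih => simpa only [Code.dout, om] using ih
  | amp c ih => simpa only [Code.dout, om] using ih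
  | rei c ih => simpa only [Code.dout, om] using ih

theorem om_din (c : Code) : om c.din ≤ om c + 1 := by
  induction c with
  | gen u => simp [Code.din, om]
  | mul c c' ih ih' => simp only [Code.din, om]; omega
  | add c c' ih ih' => simp only [Code.din, om]; omega
  | sm c ih => simpa only [Code.din, om] using ih
  | amp c ih => simpa only [Code.din, om] using ih
  | rei c ih => simpa only [Code.din, om] using ih

theorem max_step {a b : ℕ} {x y x' y' : ℝ} {f : ℝ → ℝ} (hf : ∀ s t, 0 ≤ s → s ≤ t → f s ≤ f t)
    (hx : 0 ≤ x) (hy : 0 ≤ y) (h1 : x' ≤ f a * x) (h2 : y' ≤ f b * y) :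
    x' + y' ≤ f (max a b : ℕ) * (x + y) := by
  have e1 : f a ≤ f (max a b : ℕ) :=
    hf _ _ (Nat.cast_nonneg _) (by exact_mod_cast le_max_left a b)
  have e2 : f b ≤ f (max a b : ℕ) :=
    hf _ _ (Nat.cast_nonneg _) (by exact_mod_cast le_max_right a b)
  have e3 := mul_le_mul_of_nonneg_right e1 hx
  have e4 := mul_le_mul_of_nonneg_right e2 hy
  linarith

theorem val_dout (hX : 0 ≤ X) (c : Code) : val X c.dout ≤ X * om c * val X c := by
  induction c with
  | gen u =>
    simp only [Code.dout, val_gen, gX_cons, om]
    push_cast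
    exact le_rfl
  | mul c c' ih ih' =>
    simp only [Code.dout, val_add, val_mul, val_rei, val_amp, om]
    have h1 := mul_le_mul_of_nonneg_right ih (val_nonneg hX c')
    have h2 := mul_le_mul_of_nonneg_left ih' (val_nonneg hX c)
    push_cast
    linarith
  | add c c' ih ih' =>
    simp only [Code.dout, val_add, om]
    exact max_step (f := fun s => X * s) (fun s t _ h => mul_le_mul_of_nonneg_left h hX)
      (val_nonneg hX c) (val_nonneg hX c') ih ih'
  | sm c ih => simpa only [Code.dout, val_sm, om] using ih
  | amp c ih => simpa only [Code.dout, val_rei, val_amp, om] using ih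
  | rei c ih => simpa only [Code.dout, val_rei, om] using ih

theorem val_din (hX : 0 ≤ X) (c : Code) : val X c.din ≤ X * om c * val X c := by
  induction c with
  | gen u =>
    simp only [Code.din, val_gen, gX_cons, om]
    push_cast
    exact le_rfl
  | mul c c' ih ih' =>
    simp only [Code.din, val_add, val_mul, val_rei, val_amp, om]
    have h1 := mul_le_mul_of_nonneg_right ih (val_nonneg hX c')
    have h2 := mul_le_mul_of_nonneg_left ih' (val_nonneg hX c)
    push_cast
    linarith
  | add c c' ih ih' =>
    simp only [Code.din, val_add, om]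
    exact max_step (f := fun s => X * s) (fun s t _ h => mul_le_mul_of_nonneg_left h hX)
      (val_nonneg hX c) (val_nonneg hX c') ih ih'
  | sm c ih => simpa only [Code.din, val_sm, om] using ih
  | amp c ih => simpa only [Code.din, val_rei, val_amp, om] using ih
  | rei c ih => simpa only [Code.din, val_rei, om] using ih

theorem om_pcode (u : List Bool) : om (pcode u) ≤ u.length + 2 := by
  induction u with
  | nil => simp [pcode, om]
  | cons b u ih =>
    cases b with
    | true =>
      have := om_dout (pcode u)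
      simp only [pcode, om, List.length_cons, List.length_nil]; omega
    | false =>
      have := om_din (pcode u)
      simp only [pcode, om, List.length_cons, List.length_nil]; omega

theorem val_pcode (hX : 0 ≤ X) (u : List Bool) :
    val X (pcode u) ≤ ((u.length : ℝ) + 1) ^ 2 * gX X u := by
  induction u with
  | nil => simp [pcode, val_sm, val_mul, val_gen, gX_nil]
  | cons b u ih =>
    have h0 := gX_nonneg hX u
    have h1 : (om (pcode u) : ℝ) ≤ u.length + 2 := by exact_mod_cast om_pcode u
    have h2 : X * om (pcode u) * val X (pcode u) ≤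
        X * (u.length + 2) * (((u.length : ℝ) + 1) ^ 2 * gX X u) :=
      mul_le_mul (mul_le_mul_of_nonneg_left h1 hX) ih (val_nonneg hX _) (by positivity)
    have h3 : X * (u.length + 2) * (((u.length : ℝ) + 1) ^ 2 * gX X u) +
        X * (u.length + 1) * gX X u ≤
        ((u.length : ℝ) + 1 + 1) ^ 2 * (X * (u.length + 1) * gX X u) := by
      have h4 : 0 ≤ ((u.length : ℝ) + 1) * (X * (u.length + 1) * gX X u) := by positivity
      nlinarith
    cases b with
    | true =>
      have h5 := val_dout hX (pcode u)
      simp only [pcode, val_add, val_sm, val_mul, val_amp, val_gen, gX_nil, gX_cons,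
        List.length_cons]
      push_cast
      linarith
    | false =>
      have h5 := val_din hX (pcode u)
      simp only [pcode, val_add, val_sm, val_mul, val_amp, val_gen, gX_nil, gX_cons,
        List.length_cons]
      push_cast
      linarith

theorem om_pm (c : Code) : om (pm c) ≤ om c + 2 := by
  induction c with
  | gen u => have := om_pcode u; simp only [pm, om]; omega
  | mul c c' ih ih' =>
    have h1 := om_din c
    have h2 := om_dout c'
    simp only [pm, om]; omega
  | add c c' ih ih' => simp only [pm, om]; omega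
  | sm c ih => simpa only [pm, om] using ih
  | amp c ih => simpa only [pm, om] using ih
  | rei c ih => simpa only [pm, om] using ih

theorem val_pm (hX : 1 ≤ X) (c : Code) : val X (pm c) ≤ (X * om c) ^ 2 * val X c := by
  have hX0 : 0 ≤ X := by linarith
  induction c with
  | gen u =>
    refine (val_pcode hX0 u).trans ?_
    simp only [val_gen, om]
    push_cast
    refine mul_le_mul_of_nonneg_right (pow_le_pow_left₀ (by positivity) ?_ 2) (gX_nonneg hX0 u)
    exact le_mul_of_one_le_left (by positivity) hX
  | mul c c' ih ih' =>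
    simp only [pm, val_add, val_mul, om]
    have v := val_nonneg hX0 c
    have v' := val_nonneg hX0 c'
    have h1 := mul_le_mul_of_nonneg_right ih v'
    have h2 := mul_le_mul_of_nonneg_left ih' v
    have h3 : val X c.din * val X c'.dout ≤ (X * om c * val X c) * (X * om c' * val X c') :=
      mul_le_mul (val_din hX0 c) (val_dout hX0 c') (val_nonneg hX0 _) (by positivity)
    have h4 : 0 ≤ (X * om c * val X c) * (X * om c' * val X c') := by positivity
    push_cast
    nlinarith
  | add c c' ih ih' =>
    simp only [pm, val_add, om]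
    exact max_step (f := fun s => (X * s) ^ 2)
      (fun s t hs h => pow_le_pow_left₀ (by positivity) (mul_le_mul_of_nonneg_left h hX0) 2)
      (val_nonneg hX0 c) (val_nonneg hX0 c') ih ih'
  | sm c ih => simpa only [pm, val_sm, om] using ih
  | amp c ih => simpa only [pm, val_amp, om] using ih
  | rei c ih => simpa only [pm, val_rei, om] using ih

theorem le_of_om {N : ℕ} {c : Code} (h : om c ≤ N + 1) : c.le N := by
  induction c with
  | gen u => simp only [om] at h; show u.length ≤ N; omega
  | mul c c' ih ih' => simp only [om] at h; exact ⟨ih (by omega), ih' (by omega)⟩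
  | add c c' ih ih' => simp only [om] at h; exact ⟨ih (by omega), ih' (by omega)⟩
  | sm c ih => exact ih h
  | amp c ih => exact ih h
  | rei c ih => exact ih h

variable {d : ℕ} {κ : ℝ} {w : ℝ × Eu d → ℝ}

theorem alg_pm (hw : Heat κ w) (h0 : 0 < κ) (h1 : κ ≤ 1) {c : Code} {K I : Type} [Fintype K]
    [Fintype I] {B : MF d K I} (h : Alg κ w c B) : Alg κ w (pm c) (PM w B) := by
  induction h with
  | gen h => exact h.pm hw h0 h1
  | @mul c c' K L I _ _ _ B B' h h' ih ih' =>
    exact Alg.congr (Alg.add (Alg.add (Alg.mul ih h') (Alg.mul h ih'))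
      (Alg.mul (h.din hw) (h'.dout hw)))
      fun k i p hp => PM_mulM hw.cg (h.cg hw) (h'.cg hw) k i hp
  | @add c c' K I _ _ B B' h h' ih ih' =>
    exact Alg.congr (Alg.add ih ih') fun k i p hp => mlt_Pf_add (h.cg hw k i) (h'.cg hw k i) hp
  | @sm c K I _ _ B a ha h ih =>
    exact Alg.congr (Alg.sm a ha ih) fun k i p _ => congrFun (mlt_Pf_smul a (B k i)) p
  | @amp c K I _ _ B A _ _ h ih =>
    refine Alg.congr (Alg.amp A ih) fun k i p _ => ?_
    show Pf w (fun p => if k.2 = i.2 then B k.1 i.1 p else 0) p =
      if k.2 = i.2 then Pf w (B k.1 i.1) p else 0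
    split_ifs
    · rfl
    · exact congrFun (mlt_Pf_const 0) p
  | @rei c K I K' I' _ _ _ _ B e f he hf h ih => exact Alg.rei e f he hf ih
  | congr h hB ih => exact Alg.congr ih fun k i p hp => mlt_Pf_congr (hB k i) hp

theorem words (hw : Heat κ w) (h0 : 0 < κ) (h1 : κ ≤ 1) {N : ℕ} (hN : 1 ≤ N) (a : ℕ) (ha : a ≤ N) :
    ∀ u : List Bool, u.length ≤ a → ∀ {K I : Type} [Fintype K] [Fintype I] {B : MF d K I},
      IsW κ w u B → MBn w (Icc (1 / 4 + a * (1 / (2 * (N : ℝ))) ^ 2) 1) 0 (gX (2 * N + 1) u) B := by
  have hNr : (1 : ℝ) ≤ N := by exact_mod_cast hN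
  have hX : (0 : ℝ) ≤ 2 * N + 1 := by positivity
  induction a with
  | zero =>
    intro u hu K I _ _ B hB
    have hu' : u = [] := List.length_eq_zero_iff.1 (Nat.le_zero.1 hu)
    subst hu'
    cases hB with
    | nil =>
      have h2 := opB_smM (a := κ⁻¹) (F1_op hw h0.le
        (Icc (1 / 4 + (0 : ℕ) * (1 / (2 * (N : ℝ))) ^ 2) 1) fun x hx =>
          lt_of_lt_of_le (by simp) hx.1)
      have h3 : |κ⁻¹| * κ = 1 := by
        rw [abs_of_pos (inv_pos.2 h0), inv_mul_cancel₀ h0.ne']
      rw [h3] at h2
      rw [gX_nil]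
      exact h2
  | succ a ih =>
    have ih' := ih (by omega)
    have hl : (0 : ℝ) < 1 / 4 + a * (1 / (2 * (N : ℝ))) ^ 2 := by positivity
    have hδ : (0 : ℝ) < (1 / (2 * (N : ℝ))) ^ 2 := by positivity
    have hS : Icc (1 / 4 + a * (1 / (2 * (N : ℝ))) ^ 2) 1 ⊆ Ioi (0 : ℝ) :=
      fun x hx => hl.trans_le hx.1
    have e : (1 / 4 + ((a + 1 : ℕ) : ℝ) * (1 / (2 * (N : ℝ))) ^ 2) =
        1 / 4 + a * (1 / (2 * (N : ℝ))) ^ 2 + (1 / (2 * (N : ℝ))) ^ 2 := by push_cast; ring
    intro u hu K I _ _ B hB
    rw [e]
    cases u with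
    | nil => exact MBn.mono_S (ih' [] (Nat.zero_le _) hB) (Icc_subset_Icc (by linarith) le_rfl)
    | cons b u =>
      have hu' : u.length ≤ a := Nat.le_of_succ_le_succ hu
      have key : gX (2 * N + 1) u / √((1 / (2 * (N : ℝ))) ^ 2) +
          2 * √((1 / (2 * (N : ℝ))) ^ 2) * val (2 * N + 1) (pcode u) ≤ gX (2 * N + 1) (b :: u) := by
        rw [Real.sqrt_sq (by positivity), gX_cons]
        have g0 := gX_nonneg hX u
        have g1 := val_pcode hX u
        have g2 : (u.length : ℝ) + 1 ≤ N := by exact_mod_cast (by omega : u.length + 1 ≤ N)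
        have g3 : 2 * (1 / (2 * (N : ℝ))) * val (2 * N + 1) (pcode u) ≤
            (u.length + 1) * gX (2 * N + 1) u := by
          have g4 : 2 * (1 / (2 * (N : ℝ))) = 1 / N := by field_simp
          rw [g4, one_div_mul_eq_div, div_le_iff₀ (by positivity)]
          refine g1.trans ?_
          have g5 : ((u.length : ℝ) + 1) * ((u.length + 1) * gX (2 * N + 1) u) ≤
              N * ((u.length + 1) * gX (2 * N + 1) u) :=
            mul_le_mul_of_nonneg_right g2 (by positivity)
          nlinarith
        have g6 : gX (2 * N + 1) u / (1 / (2 * (N : ℝ))) = 2 * N * gX (2 * N + 1) u := by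
          field_simp
        rw [g6]
        have g7 : 0 ≤ (N : ℝ) * u.length * gX (2 * N + 1) u := by positivity
        nlinarith
      have hnn : 0 ≤ gX (2 * N + 1) u / √((1 / (2 * (N : ℝ))) ^ 2) +
          2 * √((1 / (2 * (N : ℝ))) ^ 2) * val (2 * N + 1) (pcode u) := by
        have := gX_nonneg hX u
        have := val_nonneg hX (pcode u)
        positivity
      cases hB with
      | dout hB =>
        exact (smoothing hw h0.le h1 (hB.cg hw) hl hδ (gX_nonneg hX u) (val_nonneg hX (pcode u))
          (ih' u hu' hB) (Alg.bound hw hS (gX_nonneg hX) ih' (Code.le_mono hu' (pcode_le u))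
            (hB.pm hw h0 h1))).1.mono hnn key
      | din hB =>
        exact (smoothing hw h0.le h1 (hB.cg hw) hl hδ (gX_nonneg hX u) (val_nonneg hX (pcode u))
          (ih' u hu' hB) (Alg.bound hw hS (gX_nonneg hX) ih' (Code.le_mono hu' (pcode_le u))
            (hB.pm hw h0 h1))).2.mono hnn key

/-- The operator norm of an element of the algebra. -/
theorem alg_op (hw : Heat κ w) (h0 : 0 < κ) (h1 : κ ≤ 1) {N : ℕ} (hN : 1 ≤ N) {c : Code}
    (hc : om c ≤ N + 1) {K I : Type} [Fintype K] [Fintype I] {B : MF d K I} (h : Alg κ w c B) :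
    opB Lev (val (2 * N + 1) c) B := by
  have hNr : (1 : ℝ) ≤ N := by exact_mod_cast hN
  have hl : (0 : ℝ) < 1 / 4 + N * (1 / (2 * (N : ℝ))) ^ 2 := by positivity
  have h2 : MBn w (Icc (1 / 4 + N * (1 / (2 * (N : ℝ))) ^ 2) 1) 0 (val (2 * N + 1) c) B :=
    Alg.bound hw (fun x hx => hl.trans_le hx.1) (gX_nonneg (by positivity))
      (words hw h0 h1 hN N le_rfl) (le_of_om hc) h
  refine MBn.mono_S h2 (Icc_subset_Icc ?_ le_rfl)
  have h3 : (N : ℝ) * (1 / (2 * (N : ℝ))) ^ 2 = 1 / (4 * N) := by field_simp; ring
  have h4 : 1 / (4 * (N : ℝ)) ≤ 1 / 4 := one_div_le_one_div_of_le (by norm_num) (by linarith)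
  linarith

end Vale.Agent.N347X
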