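import Vale.Agent.N347X.Rules

/-! P347, explicit constants: the collocation nets (proofs as in `Bdl/B5`, `Bdl/B7`, with the
constants made explicit and the order of the rules separated from the number of nodes). -/

open MeasureTheory Filter Module Set
open scoped ENNReal NNReal

set_option linter.unusedVariables false

namespace Vale.Agent.N347X

open Vale.Agent.P347 Vale.Agent.P347.Z

theorem bd_pow {K : ℝ} (hK : 15 ≤ K) {i j : ℕ} (h : i ≤ j) : K ^ i ≤ K ^ j :=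
  pow_le_pow_right₀ (by linarith) h

theorem bd_fin {K x c : ℝ} (hK : 15 ≤ K) {n : ℕ} (hc : c ≤ 15) (h : x ≤ c * K ^ n) :
    x ≤ K ^ (n + 1) := by
  rw [pow_succ']
  exact h.trans (mul_le_mul_of_nonneg_right (hc.trans hK) (by positivity))

theorem bd_good {q K : ℝ} (h0 : 0 ≤ q) (h : 15 * (q + 1) ≤ K) :
    1 + 2 * q * K + (q * (q + 1) * K ^ 2 + 2) + q ^ 3 * (q + 1) * K ^ 4 + q * (q + 1) * K ^ 2
      ≤ K ^ 9 := by
  have hK : 15 ≤ K := by linarith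
  have h1 : q ≤ K := by linarith
  have h2 : q + 1 ≤ K := by linarith
  refine bd_fin hK (c := 8) (by norm_num) ?_
  calc _ ≤ 1 + 2 * K * K + (K * K * K ^ 2 + 2) + K ^ 3 * K * K ^ 4 + K * K * K ^ 2 := by gcongr
    _ = 3 * K ^ 0 + 2 * K ^ 2 + 2 * K ^ 4 + K ^ 8 := by ring
    _ ≤ 3 * K ^ 8 + 2 * K ^ 8 + 2 * K ^ 8 + K ^ 8 := by
      gcongr ?_ * ?_ + ?_ * ?_ + ?_ * ?_ + _ <;> first | rfl | exact bd_pow hK (by norm_num)
    _ = _ := by ring

theorem bd_res {q K C : ℝ} (h0 : 0 ≤ q) (h : 15 * (q + 1) ≤ K) (hC : 0 ≤ C) (hC' : C ≤ K) :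
    (1 + 2 * (q * K)) + (1 + (C + 4 * (1 + q * K * (C * (1 + q * K) + q ^ 2 * K ^ 2)) + q * K))
      ≤ K ^ 7 := by
  have hK : 15 ≤ K := by linarith
  have h1 : q ≤ K := by linarith
  have h3 : 15 * K ^ 5 ≤ K ^ 6 := bd_fin hK le_rfl le_rfl
  have h4 := bd_pow hK (show 0 ≤ 5 by norm_num)
  have h5 := bd_pow hK (show 1 ≤ 5 by norm_num)
  have h6 := bd_pow hK (show 2 ≤ 5 by norm_num)
  have h7 := bd_pow hK (show 3 ≤ 5 by norm_num)
  refine bd_fin hK (c := 6) (by norm_num) ?_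
  calc _ ≤ (1 + 2 * (K * K)) +
        (1 + (K + 4 * (1 + K * K * (K * (1 + K * K) + K ^ 2 * K ^ 2)) + K * K)) := by gcongr
    _ = 6 * K ^ 0 + K ^ 1 + 3 * K ^ 2 + 4 * K ^ 3 + 4 * K ^ 5 + 4 * K ^ 6 := by ring
    _ ≤ _ := by linarith

theorem bd_card {q : ℝ} (h0 : 0 ≤ q) : q + q * ((2 * q + 1) * q) + 1 ≤ (15 * (q + 1)) ^ 3 := by
  nlinarith [pow_nonneg h0 2, pow_nonneg h0 3]

theorem bd_unit {q K C1 C2 C3 C4 : ℝ} (h0 : 0 ≤ q) (h : 15 * (q + 1) ≤ K) (u1 : C1 ≤ K ^ 9)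
    (h2 : 0 ≤ C2) (u2 : C2 ≤ K ^ 7) (h3 : 0 ≤ C3) (u3 : C3 ≤ 4 * K ^ 2) (h4 : 0 ≤ C4)
    (u4 : C4 ≤ 2 * K ^ 2) :
    2 * (C1 + 2 * C2 * (C3 + q * ((2 * q + 1) * C4) + q * 2)) ≤ K ^ 12 := by
  have hK : 15 ≤ K := by linarith
  have h1 : q ≤ K := by linarith
  have h2 : 2 * q + 1 ≤ K := by linarith
  have a1 : 15 * K ^ 9 ≤ K ^ 10 := bd_fin hK le_rfl le_rfl
  have a2 := bd_pow hK (show 8 ≤ 9 by norm_num)
  have a3 := bd_pow hK (show 10 ≤ 11 by norm_num)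
  have a4 : 0 ≤ K ^ 11 := by positivity
  refine bd_fin hK (c := 15) le_rfl ?_
  calc _ ≤ 2 * (K ^ 9 + 2 * K ^ 7 * (4 * K ^ 2 + K * (K * (2 * K ^ 2)) + K * 2)) := by gcongr
    _ = 8 * K ^ 8 + 18 * K ^ 9 + 8 * K ^ 11 := by ring
    _ ≤ _ := by linarith

theorem bd_K {q : ℝ} (h0 : 0 ≤ q) : 15 * (q + 1) ≤ 15 * (q + 1) ^ 3 :=
  mul_le_mul_of_nonneg_left (le_self_pow₀ (by linarith) (by norm_num)) (by norm_num)

theorem Rg_nonneg (r : ℕ) : 0 ≤ Rg r := by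
  unfold Rg
  positivity

theorem bd_ord {C C' Z T D : ℝ} {k e n : ℕ} (hC : 0 ≤ C) (hT : 0 ≤ T) (h : C' ≤ C * Z)
    (hZ : Z * T ^ e ≤ 1) (hn : n = k + e) : C' * T ^ n * √D ≤ C * T ^ k * √D :=
  calc C' * T ^ n * √D ≤ C * Z * T ^ n * √D := by gcongr
    _ = C * T ^ k * √D * (Z * T ^ e) := by rw [hn]; ring
    _ ≤ _ := mul_le_of_le_one_right (by positivity) hZ

theorem path_L1X (m : ℕ) {C : ℝ} (hC : 0 ≤ C) (hR : Rg m ≤ C) : ∀ (d : ℕ) (w : ℝ × Eu d → ℝ) (κ l0 : ℝ)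
    (A : ℝ → Eu d × Eu d → Eu d), Heat κ w → 0 < κ → κ ≤ 1 → 3 / 4 ≤ l0 → l0 ≤ 1 → PFl w l0 A →
    ∀ T, 0 < T → T ≤ 1 / 2 →
    Measurable (fun q : Eu d × Eu d => ∫ t in (0 : ℝ)..T, ‖vecD (Dat.mk w κ l0 0 q.1) (m + 1)
        (fun k => fF (Dat.mk w κ l0 0 q.1) (ek k)) (t, (A t q, 0))‖) ∧
      ∀ c, Integrable (fun v => ∫ t in (0 : ℝ)..T, ‖vecD (Dat.mk w κ l0 0 c) (m + 1)
        (fun k => fF (Dat.mk w κ l0 0 c) (ek k)) (t, (A t (c, v), 0))‖) (gam (Eu d)) ∧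
      ∫ v, (∫ t in (0 : ℝ)..T, ‖vecD (Dat.mk w κ l0 0 c) (m + 1)
        (fun k => fF (Dat.mk w κ l0 0 c) (ek k)) (t, (A t (c, v), 0))‖) ∂(gam (Eu d))
        ≤ C * κ * T * √d := by
  have hreg := regF m hR
  intro d w κ l0 A hw hκ0 hκ1 hl0 hl1 hA T hT hT1
  have hOk : ∀ c : Eu d, (Dat.mk w κ l0 0 c).Ok := fun c => ⟨hw, hκ0, hκ1, hl0, hl1, by simp⟩
  choose U hU1 hU2 using fun k : Fin d => pr_exists_U w hw.cg κ hl0 k (m + 1)
  obtain ⟨W, hW⟩ : ∃ W : Eu d → ZS d → Eu d, ∀ c p, W c p = vecD (Dat.mk w κ l0 0 c) (m + 1)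
      (fun k => fF (Dat.mk w κ l0 0 c) (ek k)) p := ⟨_, fun c p => rfl⟩
  simp only [← hW]
  have hf : ∀ (c : Eu d) (k : Fin d), CG JT (fF (Dat.mk w κ l0 0 c) (ek k)) :=
    fun c k => fF_cg d _ (hOk c) (ek k)
  have hWU : ∀ (c : Eu d) (p : ZS d), p.1 ∈ JT →
      W c p = WithLp.toLp 2 fun k => U k (pr_Ψ c p) := by
    intro c p hp
    rw [hW]
    simp only [vecD]
    congr 1
    funext k
    exact hU2 k c p hp
  have hWc : ∀ c, ContinuousOn (W c) (JT ×ˢ univ) := by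
    intro c
    have h1 : W c = vecD (Dat.mk w κ l0 0 c) (m + 1)
      (fun k => fF (Dat.mk w κ l0 0 c) (ek k)) := funext fun p => hW c p
    rw [h1]
    exact pr_vec_cont (hOk c) (hf c) (m + 1)
  have hnoG : ∀ c t, ∀ z : Eu d × Eu d, W c (t, z) = W c (t, (z.1, 0)) := by
    intro c t z
    rw [hW, hW]
    exact pr_vec_noG w κ l0 c (m + 1) t z.1 z.2
  have hb : ∀ c, ∀ t ∈ IT, Integrable (fun z => ‖W c (t, z)‖ ^ 2) ((Dat.mk w κ l0 0 c).mu t) ∧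
      ∫ z, ‖W c (t, z)‖ ^ 2 ∂((Dat.mk w κ l0 0 c).mu t) ≤ (C * κ * √d) ^ 2 := by
    intro c t ht
    simp only [hW]
    exact pr_sq_int (hOk c) (hf c) (m + 1) (C := C * κ) (by positivity) ht
      fun k => hreg d _ (hOk c) (ek k) (by simp) t ht
  have hmu : ∀ c, ∀ t ∈ IT, ((Dat.mk w κ l0 0 c).mu t).map Prod.fst =
      (gam (Eu d)).map (fun a => A t (c, a)) := by
    intro c t ht
    rw [hA.law c t ht, Dat.mu, Measure.map_fst_prod, measure_univ, one_smul]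
  have hUc : ContinuousOn (fun p : ZS d => (WithLp.toLp 2 fun k => U k p : Eu d)) (JT ×ˢ univ) :=
    (PiLp.continuous_toLp 2 _).comp_continuousOn
      (continuousOn_pi.2 fun k => (hU1 k 0).continuousOn)
  have hpath : ContinuousOn (fun p : ℝ × (Eu d × Eu d) => pr_Ψ p.2.1 (p.1, (A p.1 p.2, 0)))
      (IT ×ˢ univ) := by
    have h1 := hA.cA
    simp only [pr_Ψ]
    refine continuousOn_fst.prodMk (h1.prodMk ?_)
    exact (continuous_fst.comp continuous_snd).continuousOn.add (continuousOn_fst.smul h1)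
  have hv : ContinuousOn (fun p : ℝ × (Eu d × Eu d) => W p.2.1 (p.1, (A p.1 p.2, 0)))
      (Icc 0 T ×ˢ univ) := by
    have h1 := (hUc.comp hpath fun p hp => ⟨IT_subset_JT hp.1, trivial⟩).mono
      (prod_mono (pr_Icc hT1) (le_refl (univ : Set (Eu d × Eu d))))
    refine h1.congr fun p hp => ?_
    exact hWU p.2.1 (p.1, (A p.1 p.2, 0)) (IT_subset_JT (pr_Icc hT1 hp.1))
  have hB : 0 ≤ C * κ * √d := by positivity
  obtain ⟨h1, h2⟩ := pr_plain hT hT1 hB hv hA.cA (fun c t => (Dat.mk w κ l0 0 c).mu t) hmu hWc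
    hnoG hb
  refine ⟨h1, fun c => ⟨(h2 c).1, ((h2 c).2).trans (le_of_eq (by ring))⟩⟩

theorem lam_nodesY {p : ℕ} (hp : 2 ≤ p) {cA : Fin p → Fin p → ℝ} {α β : Fin (p + 1) → ℝ} {K : ℝ}
    {o : ℕ} (hI : Rules p o cA α β K) (ho : 1 ≤ o) {Z : ℝ} (hZ : 0 ≤ Z) (hR : Rg o ≤ Z) :
    ∃ C, (0 ≤ C ∧ C ≤ 4 * K * Z) ∧
    ∀ (d : ℕ) (w : ℝ × Eu d → ℝ) (κ lam : ℝ) (A Q : ℝ → Eu d × (Eu d × Eu d) → Eu d), Heat κ w →
      0 < κ → κ ≤ 1 → |lam| * κ ≤ 2 → LFl w κ 1 lam A Q → ∀ (Y : Eu d) (T : ℝ), 0 < T →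
      T ≤ 1 / 2 → ∃ R : Eu d × Eu d → ℝ, Measurable R ∧ (∀ z, 0 ≤ R z) ∧
        Integrable R ((gam (Eu d)).prod (gam (Eu d))) ∧
        ∫ z, R z ∂((gam (Eu d)).prod (gam (Eu d))) ≤ C * T ^ (o + 1) * √d ∧
        ∀ z : Eu d × Eu d, ∀ i : Fin p,
          ‖A (nt p T i) (Y, z) - (z.1
            - T • ∑ j, cA i j • Fv w (1 - nt p T j ^ 2, Y + nt p T j • A (nt p T j) (Y, z))
            + (lam * κ * T) • ∑ j, cA i j •
              B0L κ w (1 - nt p T j ^ 2, Y + nt p T j • A (nt p T j) (Y, z))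
                (Q (nt p T j) (Y, z)))‖ ≤ R z ∧
          ‖Q (nt p T i) (Y, z) - (z.2
            - lam • (Fv w (1 - nt p T i ^ 2, Y + nt p T i • A (nt p T i) (Y, z)) - Fv w (1, Y))
            + ((lam * κ) ^ 2 * T) • ∑ j, (cA i j * nt p T j) •
              B0L κ w (1 - nt p T j ^ 2, Y + nt p T j • A (nt p T j) (Y, z))
                (B0L κ w (1 - nt p T j ^ 2, Y + nt p T j • A (nt p T j) (Y, z))
                  (Q (nt p T j) (Y, z))))‖ ≤ (lam * κ) ^ 2 * R z := by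
  obtain ⟨n, hn⟩ : ∃ n, o = n + 1 := ⟨o - 1, by omega⟩
  have b1 := regF n ((Rg_mono (by omega)).trans hR)
  rw [← hn] at b1
  have b2 := regB o hR
  have b3 := regT o hR
  have hK := hI.K0
  have hC1 := hZ
  have hC2 := hZ
  have hC3 := hZ
  refine ⟨K * (Z + 2 * Z + Z), ⟨by positivity, le_of_eq (by ring)⟩, ?_⟩
  intro d w κ lam A Q hw h0 h1 hl hA Y T hT hT1
  set D : Dat d := Dat.mk w κ 1 lam Y with hDdef
  have hD : D.Ok := ln_Ok hw h0 h1 hl Y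
  set fFk : Fin d → ZS d → ℝ := fun k => fF D (ek k) with hfF
  set fBk : Fin d → ZS d → ℝ := fun k => fB D (ek k) with hfB
  set fTk : Fin d → ZS d → ℝ := fun k => fun q => q.1 * fBB D (ek k) q with hfT
  have cF : ∀ k, CG JT (fFk k) := fun k => fF_cg d D hD _
  have cB : ∀ k, CG JT (fBk k) := fun k => fB_cg d D hD _
  have cT : ∀ k, CG JT (fTk k) := fun k => ln_tau_cg hD _
  have hek : ∀ k : Fin d, ‖(ek k : Eu d)‖ ≤ 1 := fun k => by simp
  have pF := hA.path_L1 hD cF hT hT1 o (C := Z * κ) (by positivity)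
    (fun k τ hτ => b1 d D hD (ek k) (hek k) τ hτ)
  have pB := hA.path_L1 hD cB hT hT1 o (C := Z) hC2
    (fun k τ hτ => b2 d D hD (ek k) (hek k) τ hτ)
  have pT := hA.path_L1 hD cT hT hT1 o (C := Z) hC3
    (fun k τ hτ => b3 d D hD (ek k) (hek k) τ hτ)
  set I1 := lnI D A Q T o fFk with hI1
  set I2 := lnI D A Q T o fBk with hI2
  set I3 := lnI D A Q T o fTk with hI3
  have n1 : ∀ z, 0 ≤ I1 z := fun z => ln_I_nonneg D A Q hT.le o fFk z
  have n2 : ∀ z, 0 ≤ I2 z := fun z => ln_I_nonneg D A Q hT.le o fBk z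
  have n3 : ∀ z, 0 ≤ I3 z := fun z => ln_I_nonneg D A Q hT.le o fTk z
  have m1 : Measurable I1 := pF.1
  have m2 : Measurable I2 := pB.1
  have m3 : Measurable I3 := pT.1
  have j1 : Integrable I1 ((gam (Eu d)).prod (gam (Eu d))) := pF.2.1
  have j2 : Integrable I2 ((gam (Eu d)).prod (gam (Eu d))) := pB.2.1
  have j3 : Integrable I3 ((gam (Eu d)).prod (gam (Eu d))) := pT.2.1
  have v1 : ∫ z, I1 z ∂((gam (Eu d)).prod (gam (Eu d))) ≤ T * (Z * κ * √d) := pF.2.2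
  have v2 : ∫ z, I2 z ∂((gam (Eu d)).prod (gam (Eu d))) ≤ T * (Z * √d) := pB.2.2
  have v3 : ∫ z, I3 z ∂((gam (Eu d)).prod (gam (Eu d))) ≤ T * (Z * √d) := pT.2.2
  refine ⟨fun z => K * T ^ o * (I1 z + 2 * I2 z + I3 z), ?_, ?_, ?_, ?_, ?_⟩
  · exact ((m1.add (m2.const_mul 2)).add m3).const_mul _
  · intro z
    have := n1 z
    have := n2 z
    have := n3 z
    positivity
  · exact ((j1.add (j2.const_mul 2)).add j3).const_mul _
  · have hJ : ∫ z, (I1 z + 2 * I2 z + I3 z) ∂((gam (Eu d)).prod (gam (Eu d))) =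
        ∫ z, I1 z ∂((gam (Eu d)).prod (gam (Eu d))) +
          2 * ∫ z, I2 z ∂((gam (Eu d)).prod (gam (Eu d))) +
          ∫ z, I3 z ∂((gam (Eu d)).prod (gam (Eu d))) := by
      rw [integral_add (f := fun z => I1 z + 2 * I2 z) (j1.add (j2.const_mul 2)) j3,
        integral_add j1 (j2.const_mul 2), integral_const_mul]
    rw [integral_const_mul, hJ]
    have hd : (0 : ℝ) ≤ √d := Real.sqrt_nonneg _
    have v1' : ∫ z, I1 z ∂((gam (Eu d)).prod (gam (Eu d))) ≤ T * (Z * √d) := by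
      refine v1.trans ?_
      have : Z * κ * √d ≤ Z * √d := by
        have : Z * κ ≤ Z * 1 := mul_le_mul_of_nonneg_left h1 hC1
        (refine le_of_not_gt fun hng_ => ?_; linarith only [mul_nonneg (sub_nonneg.2 hT1) (le_of_lt (sub_pos.2 hng_)), mul_pos hT (sub_pos.2 hng_), mul_nonneg hd (sub_nonneg.2 this)])
      exact mul_le_mul_of_nonneg_left this hT.le
    calc K * T ^ o * (∫ z, I1 z ∂((gam (Eu d)).prod (gam (Eu d))) +
          2 * ∫ z, I2 z ∂((gam (Eu d)).prod (gam (Eu d))) +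
          ∫ z, I3 z ∂((gam (Eu d)).prod (gam (Eu d))))
        ≤ K * T ^ o * (T * (Z * √d) + 2 * (T * (Z * √d)) + T * (Z * √d)) := by
          gcongr
      _ = K * (Z + 2 * Z + Z) * T ^ (o + 1) * √d := by ring
  · intro z i
    have t1 := hA.tower hD cF hT hT1 o z
    have t2 := hA.tower hD cB hT hT1 o z
    have t3 := hA.tower hD cT hT hT1 o z
    have tU := hA.tower hD (f := fun k => lnU D (ek k)) (fun k => ln_U_cg hD _) hT hT1 1 z
    have e1 := hI.errA o ho le_rfl (Eu d) T hT _ t1 i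
    have e2 := hI.errA o ho le_rfl (Eu d) T hT _ t2 i
    have e3 := hI.errA o ho le_rfl (Eu d) T hT _ t3 i
    have hti := ln_nt_mem hT i
    have hsub : Icc 0 T ⊆ IT := Icc_subset_Icc_right hT1
    -- values of the towers
    have f1 : ∀ t : ℝ, vecD D 0 fFk (t, (A t (Y, z), Q t (Y, z))) =
        Fv w (1 - t ^ 2, Y + t • A t (Y, z)) := fun t => ln_vecF D t _ _
    have f2 : ∀ t : ℝ, vecD D 0 fBk (t, (A t (Y, z), Q t (Y, z))) =
        B0L κ w (1 - t ^ 2, Y + t • A t (Y, z)) (Q t (Y, z)) := fun t => ln_vecB D t _ _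
    have f3 : ∀ t : ℝ, vecD D 0 fTk (t, (A t (Y, z), Q t (Y, z))) =
        t • B0L κ w (1 - t ^ 2, Y + t • A t (Y, z))
          (B0L κ w (1 - t ^ 2, Y + t • A t (Y, z)) (Q t (Y, z))) := fun t => ln_vecT D t _ _
    have c1 : ContinuousOn (fun t => vecD D 0 fFk (t, (A t (Y, z), Q t (Y, z)))) (Icc 0 T) :=
      itp_cont t1 (Nat.zero_le _)
    have c2 : ContinuousOn (fun t => vecD D 0 fBk (t, (A t (Y, z), Q t (Y, z)))) (Icc 0 T) :=
      itp_cont t2 (Nat.zero_le _)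
    have c3 : ContinuousOn (fun t => vecD D 0 fTk (t, (A t (Y, z), Q t (Y, z)))) (Icc 0 T) :=
      itp_cont t3 (Nat.zero_le _)
    have c2' : ContinuousOn (fun t => (lam * κ) • vecD D 0 fBk (t, (A t (Y, z), Q t (Y, z))))
        (Icc 0 T) := c2.const_smul (lam * κ)
    have c3' : ContinuousOn (fun t => ((lam * κ) ^ 2) • vecD D 0 fTk
        (t, (A t (Y, z), Q t (Y, z)))) (Icc 0 T) := c3.const_smul ((lam * κ) ^ 2)
    have c1' : ContinuousOn (fun t => -(vecD D 0 fFk (t, (A t (Y, z), Q t (Y, z)))))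
        (Icc 0 T) := c1.neg
    constructor
    · -- the equation for `A`
      have hft : ∫ s in (0 : ℝ)..(nt p T i),
          (-(vecD D 0 fFk (s, (A s (Y, z), Q s (Y, z)))) +
            (lam * κ) • vecD D 0 fBk (s, (A s (Y, z), Q s (Y, z)))) =
          A (nt p T i) (Y, z) - A 0 (Y, z) := by
        apply ln_ftc (T := T) (f := fun t => A t (Y, z)) _ _ hti
        · intro t ht
          have h := (hA.dA Y z t (hsub ht)).mono hsub
          have hX : (Dat.mk w κ 1 lam Y).Xa (t, (A t (Y, z), Q t (Y, z))) =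
              -(vecD D 0 fFk (t, (A t (Y, z), Q t (Y, z)))) +
                (lam * κ) • vecD D 0 fBk (t, (A t (Y, z), Q t (Y, z))) := by
            rw [f1, f2]
            exact ln_Xa D t _ _ h0.ne'
          rwa [hX] at h
        · exact c1'.add c2'
      rw [intervalIntegral.integral_add (ln_int c1' hti) (ln_int c2' hti),
        intervalIntegral.integral_neg, intervalIntegral.integral_smul, hA.A0] at hft
      have key : A (nt p T i) (Y, z) - (z.1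
            - T • ∑ j, cA i j • Fv w (1 - nt p T j ^ 2, Y + nt p T j • A (nt p T j) (Y, z))
            + (lam * κ * T) • ∑ j, cA i j •
              B0L κ w (1 - nt p T j ^ 2, Y + nt p T j • A (nt p T j) (Y, z))
                (Q (nt p T j) (Y, z))) =
          -((∫ t in (0 : ℝ)..(nt p T i), vecD D 0 fFk (t, (A t (Y, z), Q t (Y, z)))) -
            T • ∑ j, cA i j • vecD D 0 fFk (nt p T j, (A (nt p T j) (Y, z), Q (nt p T j) (Y, z)))) +
          (lam * κ) • ((∫ t in (0 : ℝ)..(nt p T i), vecD D 0 fBk (t, (A t (Y, z), Q t (Y, z)))) -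
            T • ∑ j, cA i j • vecD D 0 fBk (nt p T j, (A (nt p T j) (Y, z), Q (nt p T j) (Y, z)))) := by
        have s1 : ∑ j, cA i j • Fv w (1 - nt p T j ^ 2, Y + nt p T j • A (nt p T j) (Y, z)) =
            ∑ j, cA i j • vecD D 0 fFk
              (nt p T j, (A (nt p T j) (Y, z), Q (nt p T j) (Y, z))) :=
          Finset.sum_congr rfl fun j _ => by rw [f1]
        have s2 : ∑ j, cA i j • B0L κ w (1 - nt p T j ^ 2, Y + nt p T j • A (nt p T j) (Y, z))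
                (Q (nt p T j) (Y, z)) =
            ∑ j, cA i j • vecD D 0 fBk
              (nt p T j, (A (nt p T j) (Y, z), Q (nt p T j) (Y, z))) :=
          Finset.sum_congr rfl fun j _ => by rw [f2]
        rw [s1, s2]
        linear_combination (norm := module) -hft
      rw [key]
      have g1 : ‖(∫ t in (0 : ℝ)..(nt p T i), vecD D 0 fFk (t, (A t (Y, z), Q t (Y, z)))) -
            T • ∑ j, cA i j • vecD D 0 fFk (nt p T j, (A (nt p T j) (Y, z), Q (nt p T j) (Y, z)))‖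
            ≤ K * T ^ o * I1 z := e1
      have g2 : ‖(∫ t in (0 : ℝ)..(nt p T i), vecD D 0 fBk (t, (A t (Y, z), Q t (Y, z)))) -
            T • ∑ j, cA i j • vecD D 0 fBk (nt p T j, (A (nt p T j) (Y, z), Q (nt p T j) (Y, z)))‖
            ≤ K * T ^ o * I2 z := e2
      refine (norm_add_le _ _).trans ?_
      rw [norm_neg, norm_smul]
      have hlk : ‖lam * κ‖ ≤ 2 := by
        rw [Real.norm_eq_abs, abs_mul, abs_of_pos h0]; exact hl
      have hTp : 0 ≤ K * T ^ o := by positivity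
      have g3 := n3 z
      have g4 := n2 z
      calc _ ≤ K * T ^ o * I1 z + 2 * (K * T ^ o * I2 z) := by
            gcongr
        _ ≤ K * T ^ o * (I1 z + 2 * I2 z + I3 z) := by
            have : 0 ≤ K * T ^ o * I3 z := mul_nonneg hTp g3
            (refine le_of_not_gt fun hng_ => ?_; linarith only [mul_pos (sub_pos.2 hng_) (sub_pos.2 hng_), mul_nonneg this (le_of_lt (sub_pos.2 hng_))])
    · -- the equation for `Q`
      have hft : ∫ s in (0 : ℝ)..(nt p T i),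
          ((lam * κ) ^ 2) • vecD D 0 fTk (s, (A s (Y, z), Q s (Y, z))) =
          vecD D 0 (fun k => lnU D (ek k)) (nt p T i, (A (nt p T i) (Y, z), Q (nt p T i) (Y, z))) -
          vecD D 0 (fun k => lnU D (ek k)) (0, (A 0 (Y, z), Q 0 (Y, z))) := by
        apply ln_ftc (T := T)
          (f := fun t => vecD D 0 (fun k => lnU D (ek k)) (t, (A t (Y, z), Q t (Y, z)))) _ _ hti
        · intro t ht
          have h := tU.deriv 0 one_pos t ht
          have hX := ln_vecU1 hD (IT_subset_JT (hsub ht)) (A t (Y, z)) (Q t (Y, z))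
          simp only [zero_add] at h
          rw [← hDdef] at h
          rw [hX] at h
          exact h
        · exact c3'
      rw [intervalIntegral.integral_smul, ln_vecU0, ln_vecU0, hA.A0, hA.Q0] at hft
      have hz : Fv D.w (D.l0 - 0 ^ 2, D.Y + (0 : ℝ) • z.1) = Fv w (1, Y) := by
        simp [hDdef]
      rw [hz] at hft
      change _ = lam • Fv w (1 - nt p T i ^ 2, Y + nt p T i • A (nt p T i) (Y, z)) +
        Q (nt p T i) (Y, z) - (lam • Fv w (1, Y) + z.2) at hft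
      have key : Q (nt p T i) (Y, z) - (z.2
            - lam • (Fv w (1 - nt p T i ^ 2, Y + nt p T i • A (nt p T i) (Y, z)) - Fv w (1, Y))
            + ((lam * κ) ^ 2 * T) • ∑ j, (cA i j * nt p T j) •
              B0L κ w (1 - nt p T j ^ 2, Y + nt p T j • A (nt p T j) (Y, z))
                (B0L κ w (1 - nt p T j ^ 2, Y + nt p T j • A (nt p T j) (Y, z))
                  (Q (nt p T j) (Y, z)))) =
          ((lam * κ) ^ 2) • ((∫ t in (0 : ℝ)..(nt p T i),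
            vecD D 0 fTk (t, (A t (Y, z), Q t (Y, z)))) -
            T • ∑ j, cA i j •
              vecD D 0 fTk (nt p T j, (A (nt p T j) (Y, z), Q (nt p T j) (Y, z)))) := by
        have s3 : ∑ j, (cA i j * nt p T j) •
              B0L κ w (1 - nt p T j ^ 2, Y + nt p T j • A (nt p T j) (Y, z))
                (B0L κ w (1 - nt p T j ^ 2, Y + nt p T j • A (nt p T j) (Y, z))
                  (Q (nt p T j) (Y, z))) =
            ∑ j, cA i j • vecD D 0 fTk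
              (nt p T j, (A (nt p T j) (Y, z), Q (nt p T j) (Y, z))) :=
          Finset.sum_congr rfl fun j _ => by rw [f3, mul_smul]
        rw [s3]
        linear_combination (norm := module) -hft
      rw [key, norm_smul]
      have g3 : ‖(∫ t in (0 : ℝ)..(nt p T i), vecD D 0 fTk (t, (A t (Y, z), Q t (Y, z)))) -
            T • ∑ j, cA i j • vecD D 0 fTk (nt p T j, (A (nt p T j) (Y, z), Q (nt p T j) (Y, z)))‖
            ≤ K * T ^ o * I3 z := e3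
      have hTp : 0 ≤ K * T ^ o := by positivity
      have g1 := n1 z
      have g2 := n2 z
      have g4 := n3 z
      rw [Real.norm_eq_abs, abs_of_nonneg (sq_nonneg _)]
      apply mul_le_mul_of_nonneg_left _ (sq_nonneg _)
      refine g3.trans ?_
      apply mul_le_mul_of_nonneg_left _ hTp
      linarith only [g2, g1]

theorem jvp_nodesY {p : ℕ} (hp : 2 ≤ p) {cA : Fin p → Fin p → ℝ} {α β : Fin (p + 1) → ℝ} {K : ℝ}
    {o : ℕ} (hI : Rules p o cA α β K) (ho : 1 ≤ o) {Z : ℝ} (hZ : 0 ≤ Z) (hR : Rg o ≤ Z) :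
    ∃ C, (0 ≤ C ∧ C ≤ 2 * K * Z) ∧
    ∀ (d : ℕ) (w : ℝ × Eu d → ℝ) (κ l0 : ℝ) (A : ℝ → Eu d × Eu d → Eu d), Heat κ w →
      0 < κ → κ ≤ 1 → 3 / 4 ≤ l0 → l0 ≤ 1 → PFl w l0 A → ∀ T : ℝ, 0 < T → T ≤ 1 / 2 →
      ∃ R : Eu d × Eu d → ℝ, Measurable R ∧ (∀ q, 0 ≤ R q) ∧
        (∀ c, Integrable (fun v => R (c, v)) (gam (Eu d)) ∧
          ∫ v, R (c, v) ∂(gam (Eu d)) ≤ C * T ^ o * √d) ∧
        ∀ c v : Eu d,
          ‖κ • B0L κ w (l0, c) v - T⁻¹ • (α 0 • Fv w (l0, c) + ∑ j : Fin p, α j.succ •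
            Fv w (l0 - nt p T j ^ 2, c + nt p T j • A (nt p T j) (c, v)))‖ ≤ κ * R (c, v) ∧
          ∀ i : Fin p, ‖A (nt p T i) (c, v) - (v - T • ∑ j : Fin p, cA i j •
            Fv w (l0 - nt p T j ^ 2, c + nt p T j • A (nt p T j) (c, v)))‖ ≤ κ * R (c, v) := by
  have hC1 := hZ
  have hC2 := hZ
  have H1 := path_L1X o hC1 hR
  have H2 := path_L1X (o - 1) hC2 ((Rg_mono (by omega)).trans hR)
  have hpp : o - 1 + 1 = o := by omega
  rw [hpp] at H2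
  have hK := hI.K0
  refine ⟨K * (Z + Z), ⟨by positivity, le_of_eq (by ring)⟩, ?_⟩
  intro d w κ l0 A hw hκ hκ1 hl hl1 hA T hT hT1
  obtain ⟨m1, b1⟩ := H1 d w κ l0 A hw hκ hκ1 hl hl1 hA T hT hT1
  obtain ⟨m2, b2⟩ := H2 d w κ l0 A hw hκ hκ1 hl hl1 hA T hT hT1
  clear H1 H2
  let I1 : Eu d × Eu d → ℝ := fun q => ∫ t in (0 : ℝ)..T, ‖vecD (Dat.mk w κ l0 0 q.1) (o + 1)
        (fun k => fF (Dat.mk w κ l0 0 q.1) (ek k)) (t, (A t q, 0))‖
  let I2 : Eu d × Eu d → ℝ := fun q => ∫ t in (0 : ℝ)..T, ‖vecD (Dat.mk w κ l0 0 q.1) o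
        (fun k => fF (Dat.mk w κ l0 0 q.1) (ek k)) (t, (A t q, 0))‖
  have hI1 : ∀ q, 0 ≤ I1 q := fun q =>
    intervalIntegral.integral_nonneg hT.le fun _ _ => norm_nonneg _
  have hI2 : ∀ q, 0 ≤ I2 q := fun q =>
    intervalIntegral.integral_nonneg hT.le fun _ _ => norm_nonneg _
  have m1' : Measurable I1 := m1
  have m2' : Measurable I2 := m2
  have hκi : 0 < κ⁻¹ := inv_pos.2 hκ
  refine ⟨fun q => κ⁻¹ * (K * T ^ (o - 1) * I1 q) + κ⁻¹ * (K * T ^ o * I2 q), ?_, ?_, ?_, ?_⟩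
  · exact ((m1'.const_mul _).const_mul _).add ((m2'.const_mul _).const_mul _)
  · intro q
    have := hI1 q
    have := hI2 q
    positivity
  · intro c
    obtain ⟨i1, e1⟩ := b1 c
    obtain ⟨i2, e2⟩ := b2 c
    have i1' : Integrable (fun v => I1 (c, v)) (gam (Eu d)) := i1
    have i2' : Integrable (fun v => I2 (c, v)) (gam (Eu d)) := i2
    have e1' : ∫ v, I1 (c, v) ∂(gam (Eu d)) ≤ Z * κ * T * √d := e1
    have e2' : ∫ v, I2 (c, v) ∂(gam (Eu d)) ≤ Z * κ * T * √d := e2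
    refine ⟨((i1'.const_mul _).const_mul _).add ((i2'.const_mul _).const_mul _), ?_⟩
    rw [integral_add ((i1'.const_mul _).const_mul _) ((i2'.const_mul _).const_mul _)]
    simp only [integral_const_mul]
    have hTp : T ^ o = T ^ (o - 1) * T := by rw [← pow_succ, hpp]
    have hd : 0 ≤ √(d : ℝ) := Real.sqrt_nonneg _
    have a1 : κ⁻¹ * (K * T ^ (o - 1) * ∫ v, I1 (c, v) ∂(gam (Eu d)))
        ≤ κ⁻¹ * (K * T ^ (o - 1) * (Z * κ * T * √d)) := by gcongr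
    have a2 : κ⁻¹ * (K * T ^ o * ∫ v, I2 (c, v) ∂(gam (Eu d)))
        ≤ κ⁻¹ * (K * T ^ o * (Z * κ * T * √d)) := by (clear * - e2 hK hT hκ; gcongr)
    have a3 : κ⁻¹ * (K * T ^ (o - 1) * (Z * κ * T * √d)) = K * Z * T ^ o * √d := by
      rw [hTp]; (clear * - hκ hT; field_simp)
    have a4 : κ⁻¹ * (K * T ^ o * (Z * κ * T * √d)) = K * Z * T ^ o * √d * T := by
      (clear * - hκ hT; field_simp)
    have a5 : K * Z * T ^ o * √d * T ≤ K * Z * T ^ o * √d * 1 :=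
      mul_le_mul_of_nonneg_left (by linarith only [hT1]) (by (clear * - hK hC2 hT; positivity))
    calc _ ≤ K * Z * T ^ o * √d + K * Z * T ^ o * √d * 1 := by linarith only [a3, a1, a2, a4, a5]
      _ = K * (Z + Z) * T ^ o * √d := by ring
  · intro c v
    have hD := jvp_ok hw hκ hκ1 hl hl1 c
    obtain ⟨t1, t2, t3⟩ := hA.tower hD hT hT1 (o + 1) v
    obtain ⟨t1', -, -⟩ := hA.tower hD hT hT1 o v
    set h : ℕ → ℝ → Eu d := fun j t => vecD (Dat.mk w κ l0 0 c) j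
      (fun k => fF (Dat.mk w κ l0 0 c) (ek k)) (t, (A t (c, v), 0)) with hh
    have hh0 : ∀ t ∈ Icc 0 T, h 0 t = Fv w (l0 - t ^ 2, c + t • A t (c, v)) := t2
    have hnode : ∀ j : Fin p, h 0 (((j : ℝ) + 1) / p * T)
        = Fv w (l0 - nt p T j ^ 2, c + nt p T j • A (nt p T j) (c, v)) := by
      intro j
      exact hh0 _ (jvp_nt_mem hp hT j)
    have hκR : κ * (κ⁻¹ * (K * T ^ (o - 1) * I1 (c, v)) + κ⁻¹ * (K * T ^ o * I2 (c, v)))
        = K * T ^ (o - 1) * I1 (c, v) + K * T ^ o * I2 (c, v) := by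
      (clear * - hκ; field_simp)
    have p1 : 0 ≤ K * T ^ (o - 1) * I1 (c, v) := by
      have := hI1 (c, v)
      (clear * - hK hT this; positivity)
    have p2 : 0 ≤ K * T ^ o * I2 (c, v) := by
      have := hI2 (c, v)
      (clear * - hK hT this; positivity)
    refine ⟨?_, ?_⟩
    · have e1 := hI.errα o ho le_rfl (Eu d) T hT h t1
      have e2 : h 1 0 = κ • B0L κ w (l0, c) v := by
        rw [← t3, hh]
        simp only [hA.A0]
      have e3 : ∑ e : Fin (p + 1), α e • h 0 ((e : ℝ) / p * T)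
          = α 0 • Fv w (l0, c) + ∑ j : Fin p, α j.succ •
            Fv w (l0 - nt p T j ^ 2, c + nt p T j • A (nt p T j) (c, v)) := by
        rw [Fin.sum_univ_succ]
        congr 1
        · rw [hh0 _ (by simp only [Fin.coe_ofNat_eq_mod, Nat.zero_mod, CharP.cast_eq_zero, zero_div, zero_mul, mem_Icc, Std.le_refl, hT.le, and_self])]
          simp
        · apply Finset.sum_congr rfl
          intro j _
          rw [← hnode j]
          simp only [Fin.val_succ, Nat.cast_add, Nat.cast_one]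
      rw [e2, e3] at e1
      refine e1.trans ?_
      show K * T ^ (o - 1) * I1 (c, v) ≤ _
      dsimp only
      rw [hκR]
      linarith only [p2]
    · intro i
      have e1 := hI.errA o ho le_rfl (Eu d) T hT h t1' i
      simp only [hnode] at e1
      have hc0 : ContinuousOn (h 0) (Icc 0 T) :=
        fun t ht => (t1.deriv 0 (by omega) t ht).continuousWithinAt
      have e2 := jvp_int hA hT1 c v hc0 hh0 (jvp_nt_mem hp hT i).1 (jvp_nt_mem hp hT i).2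
      have e3 : A (nt p T i) (c, v) - (v - T • ∑ j : Fin p, cA i j •
            Fv w (l0 - nt p T j ^ 2, c + nt p T j • A (nt p T j) (c, v)))
          = -((∫ t in (0 : ℝ)..(((i : ℝ) + 1) / p * T), h 0 t) - T • ∑ j : Fin p, cA i j •
            Fv w (l0 - nt p T j ^ 2, c + nt p T j • A (nt p T j) (c, v))) := by
        have e4 : A (nt p T i) (c, v) = v - ∫ t in (0 : ℝ)..(((i : ℝ) + 1) / p * T), h 0 t := e2
        generalize (∑ j : Fin p, cA i j •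
            Fv w (l0 - nt p T j ^ 2, c + nt p T j • A (nt p T j) (c, v))) = S
        rw [e4]
        abel
      rw [e3, norm_neg]
      refine e1.trans ?_
      show K * T ^ o * I2 (c, v) ≤ _
      dsimp only
      rw [hκR]
      linarith only [p1]

theorem carrier_nodesY {p : ℕ} (hp : 2 ≤ p) {cA : Fin p → Fin p → ℝ} {α β : Fin (p + 1) → ℝ}
    {K : ℝ} {r o : ℕ} (hI : Rules p r cA α β K) (ho : 2 ≤ o) (hor : o ≤ r) :
    ∃ C, (0 ≤ C ∧ C ≤ K) ∧ ∀ (d : ℕ)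
      (Cg CP : ℝ → (Eu d →L[ℝ] Eu d) → Eu d × Eu d → Eu d), Carrier d Cg CP →
      ∀ B : Eu d →L[ℝ] Eu d, (∀ u v, inner ℝ (B u) v = inner ℝ u (B v)) → ‖B‖ ≤ 1 →
      ∀ b : ℝ, 0 < b → b ≤ 1 → ∀ z : Eu d × Eu d,
        (∀ i : Fin p, ‖Cg (((i : ℝ) + 1) / p * b) B z - (z.1
          - b • ∑ j : Fin p, cA i j • B (CP (((j : ℝ) + 1) / p * b) B z))‖
            ≤ C * b ^ (o + 1) * (‖z.1‖ + ‖z.2‖)) ∧
        (∀ i : Fin p, ‖CP (((i : ℝ) + 1) / p * b) B z - (z.2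
          + b • ∑ j : Fin p, cA i j • B (Cg (((j : ℝ) + 1) / p * b) B z))‖
            ≤ C * b ^ (o + 1) * (‖z.1‖ + ‖z.2‖)) ∧
        ‖B (B z.1) + (b⁻¹) ^ 2 • (β 0 • z.1 + ∑ e : Fin p, β e.succ •
          Cg (((e : ℝ) + 1) / p * b) B z)‖ ≤ C * b ^ (o - 1) * (‖z.1‖ + ‖z.2‖) := by
  refine ⟨K, ⟨hI.K0, le_rfl⟩, fun d Cg CP hC B hB hB1 b hb hb1 z => ?_⟩
  have hBle : ∀ v, ‖B v‖ ≤ ‖v‖ := fun v => by
    have := B.le_of_opNorm_le hB1 v
    rwa [one_mul] at this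
  have hd := carT_deriv hC B z
  have hd1 : ∀ j x, HasDerivAt (fun x => (carT Cg CP B z j x).1) (carT Cg CP B z (j + 1) x).1 x :=
    fun j x => (ContinuousLinearMap.fst ℝ (Eu d) (Eu d)).hasFDerivAt.comp_hasDerivAt x (hd j x)
  have hd2 : ∀ j x, HasDerivAt (fun x => (carT Cg CP B z j x).2) (carT Cg CP B z (j + 1) x).2 x :=
    fun j x => (ContinuousLinearMap.snd ℝ (Eu d) (Eu d)).hasFDerivAt.comp_hasDerivAt x (hd j x)
  have hdB1 : ∀ j x, HasDerivAt (fun x => B (carT Cg CP B z j x).1)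
      (B (carT Cg CP B z (j + 1) x).1) x := fun j x => B.hasFDerivAt.comp_hasDerivAt x (hd1 j x)
  have hdB2 : ∀ j x, HasDerivAt (fun x => B (carT Cg CP B z j x).2)
      (B (carT Cg CP B z (j + 1) x).2) x := fun j x => B.hasFDerivAt.comp_hasDerivAt x (hd2 j x)
  have hcg : Continuous (fun x => B (Cg x B z)) := continuous_iff_continuousAt.2
    fun x => (hdB1 0 x).continuousAt
  have hcP : Continuous (fun x => B (CP x B z)) := continuous_iff_continuousAt.2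
    fun x => (hdB2 0 x).continuousAt
  have hbp : b ^ o * (b * (‖z.1‖ + ‖z.2‖)) = b ^ (o + 1) * (‖z.1‖ + ‖z.2‖) := by ring
  refine ⟨fun i => ?_, fun i => ?_, ?_⟩
  · have ht : Tower b o (fun j x => B (carT Cg CP B z j x).2) :=
      ⟨fun j _ t _ => (hdB2 j t).hasDerivWithinAt,
        fun t _ => (hdB2 o t).continuousAt.continuousWithinAt⟩
    have h1 := hI.errA o (by omega) hor (Eu d) b hb _ ht i
    have h2 : ∫ t in (0 : ℝ)..(((i : ℝ) + 1) / p * b), B (carT Cg CP B z 0 t).2 =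
        z.1 - Cg (((i : ℝ) + 1) / p * b) B z := by
      have h3 := intervalIntegral.integral_eq_sub_of_hasDerivAt
        (a := 0) (b := ((i : ℝ) + 1) / p * b)
        (fun x _ => (hC.dg B z x).neg) ((by simpa only [neg_neg] using hcP : Continuous
          (fun x => - -B (CP x B z))).intervalIntegrable _ _)
      simp only [neg_neg, Pi.neg_apply] at h3
      change ∫ t in (0 : ℝ)..(((i : ℝ) + 1) / p * b), B (CP t B z) = _
      rw [h3, hC.g0]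
      abel
    rw [h2] at h1
    have h4 : Cg (((i : ℝ) + 1) / p * b) B z - (z.1
          - b • ∑ j : Fin p, cA i j • B (CP (((j : ℝ) + 1) / p * b) B z)) =
        -(z.1 - Cg (((i : ℝ) + 1) / p * b) B z
          - b • ∑ j : Fin p, cA i j • B (CP (((j : ℝ) + 1) / p * b) B z)) := by abel
    rw [h4, norm_neg]
    refine h1.trans ?_
    have h5 := car_int_le (f := fun t => B (carT Cg CP B z o t).2)
      (continuous_iff_continuousAt.2 fun x => (hdB2 o x).continuousAt) hb.le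
      (R := ‖z.1‖ + ‖z.2‖) (fun t => (hBle _).trans (carT_snd_le hC B hB hB1 z o t))
    calc K * b ^ o * _ ≤ K * b ^ o * (b * (‖z.1‖ + ‖z.2‖)) :=
          mul_le_mul_of_nonneg_left h5 (mul_nonneg hI.K0 (by positivity))
      _ = _ := by ring
  · have ht : Tower b o (fun j x => B (carT Cg CP B z j x).1) :=
      ⟨fun j _ t _ => (hdB1 j t).hasDerivWithinAt,
        fun t _ => (hdB1 o t).continuousAt.continuousWithinAt⟩
    have h1 := hI.errA o (by omega) hor (Eu d) b hb _ ht i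
    have h2 : ∫ t in (0 : ℝ)..(((i : ℝ) + 1) / p * b), B (carT Cg CP B z 0 t).1 =
        CP (((i : ℝ) + 1) / p * b) B z - z.2 := by
      have h3 := intervalIntegral.integral_eq_sub_of_hasDerivAt
        (a := 0) (b := ((i : ℝ) + 1) / p * b)
        (fun x _ => (hC.dP B z x)) (hcg.intervalIntegrable _ _)
      change ∫ t in (0 : ℝ)..(((i : ℝ) + 1) / p * b), B (Cg t B z) = _
      rw [h3, hC.P0]
    rw [h2] at h1
    have h4 : CP (((i : ℝ) + 1) / p * b) B z - (z.2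
          + b • ∑ j : Fin p, cA i j • B (Cg (((j : ℝ) + 1) / p * b) B z)) =
        (CP (((i : ℝ) + 1) / p * b) B z - z.2)
          - b • ∑ j : Fin p, cA i j • B (Cg (((j : ℝ) + 1) / p * b) B z) := by abel
    rw [h4]
    refine h1.trans ?_
    have h5 := car_int_le (f := fun t => B (carT Cg CP B z o t).1)
      (continuous_iff_continuousAt.2 fun x => (hdB1 o x).continuousAt) hb.le
      (R := ‖z.1‖ + ‖z.2‖) (fun t => (hBle _).trans (carT_fst_le hC B hB hB1 z o t))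
    calc K * b ^ o * _ ≤ K * b ^ o * (b * (‖z.1‖ + ‖z.2‖)) :=
          mul_le_mul_of_nonneg_left h5 (mul_nonneg hI.K0 (by positivity))
      _ = _ := by ring
  · have ht : Tower b (o + 1) (fun j x => (carT Cg CP B z j x).1) :=
      ⟨fun j _ t _ => (hd1 j t).hasDerivWithinAt,
        fun t _ => (hd1 (o + 1) t).continuousAt.continuousWithinAt⟩
    have h1 := hI.errβ o ho hor (Eu d) b hb _ ht
    have h2 : (carT Cg CP B z 2 0).1 = -B (B z.1) := by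
      change -B (B (Cg 0 B z)) = _
      rw [hC.g0]
    rw [h2, Fin.sum_univ_succ] at h1
    have h3 : (carT Cg CP B z 0 (((0 : Fin (p + 1)) : ℝ) / p * b)).1 = z.1 := by
      change Cg (((0 : Fin (p + 1)) : ℝ) / p * b) B z = _
      rw [Fin.val_zero, Nat.cast_zero, zero_div, zero_mul, hC.g0]
    rw [h3] at h1
    have h4 : B (B z.1) + (b⁻¹) ^ 2 • (β 0 • z.1 + ∑ e : Fin p, β e.succ •
          Cg (((e : ℝ) + 1) / p * b) B z) =
        -(-B (B z.1) - (b⁻¹) ^ 2 • (β 0 • z.1 + ∑ e : Fin p, β e.succ •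
          (carT Cg CP B z 0 (((e.succ : Fin (p + 1)) : ℝ) / p * b)).1)) := by
      have h5 : ∀ e : Fin p, (carT Cg CP B z 0 (((e.succ : Fin (p + 1)) : ℝ) / p * b)).1 =
          Cg (((e : ℝ) + 1) / p * b) B z := by
        intro e
        change Cg (((e.succ : Fin (p + 1)) : ℝ) / p * b) B z = _
        rw [Fin.val_succ, Nat.cast_add, Nat.cast_one]
      simp_rw [h5]
      abel
    rw [h4, norm_neg]
    refine h1.trans ?_
    have h5 := car_int_le (f := fun t => (carT Cg CP B z (o + 1) t).1)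
      (continuous_iff_continuousAt.2 fun x => (hd1 (o + 1) x).continuousAt) hb.le
      (R := ‖z.1‖ + ‖z.2‖) (fun t => carT_fst_le hC B hB hB1 z (o + 1) t)
    calc K * b ^ (o - 2) * _ ≤ K * b ^ (o - 2) * (b * (‖z.1‖ + ‖z.2‖)) :=
          mul_le_mul_of_nonneg_left h5 (mul_nonneg hI.K0 (by positivity))
      _ = _ := by
        obtain ⟨q, rfl⟩ : ∃ q, o = q + 2 := ⟨o - 2, by omega⟩
        rw [show q + 2 - 2 = q by omega, show q + 2 - 1 = q + 1 by omega]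
        ring

theorem net_goodY {p0 : ℕ} (hp0 : 1 ≤ p0) {cA : Fin (p0 + 1) → Fin (p0 + 1) → ℝ}
    {α β : Fin (p0 + 2) → ℝ} {K : ℝ} {r : ℕ} (hI : Rules (p0 + 1) r cA α β K)
    (hq : 15 * (((p0 + 1 : ℕ) : ℝ) + 1) ≤ K) :
    ∃ C, (1 ≤ C ∧ C ≤ K ^ 9) ∧ ∀ θ b κ lam : ℝ, 0 < θ → θ ≤ 1 / (8 * p0) → 0 < b → b ≤ 1 / 8 → 0 < κ → κ ≤ 1 →
      |lam| * κ ≤ 2 →
      ((Par.mk cA α β (√θ) b κ lam).net (Fin.last p0)).Good 1 θ
        (C * (θ + |lam| * √θ + lam ^ 2 * κ * θ / b + b / κ)) (C * (lam ^ 2 * κ * √θ / b))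
        (1 / (2 * p0)) := by
  have hK := hI.K0
  set c1 : ℝ := 2 * (p0 + 1 : ℕ) * K with hc1
  set c2 : ℝ := (p0 + 1 : ℕ) * ((p0 + 1 : ℕ) + 1) * K ^ 2 + 2 with hc2
  set c3 : ℝ := (p0 + 1 : ℕ) ^ 3 * ((p0 + 1 : ℕ) + 1) * K ^ 4 with hc3
  set c4 : ℝ := (p0 + 1 : ℕ) * ((p0 + 1 : ℕ) + 1) * K ^ 2 with hc4
  have hc1' : 0 ≤ c1 := by (clear * - hp0 hK; positivity)
  have hc2' : 0 ≤ c2 := by (clear * - hp0; positivity)
  have hc3' : 0 ≤ c3 := by positivity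
  have hc4' : 0 ≤ c4 := by positivity
  refine ⟨1 + c1 + c2 + c3 + c4, ⟨by linarith only [hc3', hc1', hc4'],
    bd_good (Nat.cast_nonneg _) hq⟩, ?_⟩
  intro θ b κ lam hθ hθ1 hb hb1 hκ hκ1 hl
  set P := Par.mk cA α β (√θ) b κ lam with hP
  have hT : 0 < √θ := Real.sqrt_pos.mpr hθ
  have hT2 : √θ ^ 2 = θ := Real.sq_sqrt hθ.le
  have hp0' : (1 : ℝ) ≤ p0 := by exact_mod_cast hp0
  have hpp : ((p0 + 1 : ℕ) : ℝ) = p0 + 1 := by push_cast; ring
  have hsT : √(θ * 1) = √θ := by rw [mul_one]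
  have hθ8 : θ ≤ 1 / 8 := hθ1.trans (by
    rw [div_le_div_iff₀ (by positivity) (by norm_num)]
    linarith only [hp0'])
  have hnt0 : ∀ i : Fin (p0 + 1), 0 ≤ nt (p0 + 1) (√θ) i := ug_nt_nonneg hT.le
  have hnt1 : ∀ i : Fin (p0 + 1), nt (p0 + 1) (√θ) i ≤ √θ := ug_nt_le hT.le
  have hntlo : ∀ i : Fin (p0 + 1), √θ / ((p0 + 1 : ℕ) : ℝ) ≤ nt (p0 + 1) (√θ) i := by
    intro i
    rw [nt, div_mul_eq_mul_div]
    have : (0 : ℝ) ≤ ((i : ℕ) : ℝ) := by (clear * -; positivity)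
    apply div_le_div_of_nonneg_right _ (by positivity)
    nlinarith only [hT]
  have hlevlo : ∀ n : Nd (p0 + 1), 1 - 2 * θ ≤ Par.lv P n := by
    intro n
    rcases n with _ | i | ⟨i, v, f⟩
    · simp only [Par.lv]
      linarith only [hθ]
    · simp only [Par.lv]
      have h1 : nt (p0 + 1) (√θ) i ^ 2 ≤ √θ ^ 2 := pow_le_pow_left₀ (hnt0 i) (hnt1 i) 2
      rw [hT2] at h1
      show 1 - 2 * θ ≤ 1 - nt (p0 + 1) (√θ) i ^ 2
      linarith only [h1, hθ]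
    · simp only [Par.lv]
      have h1 : nt (p0 + 1) (√θ) i ^ 2 ≤ √θ ^ 2 := pow_le_pow_left₀ (hnt0 i) (hnt1 i) 2
      have h2 : nt (p0 + 1) (√θ) f ^ 2 ≤ √θ ^ 2 := pow_le_pow_left₀ (hnt0 f) (hnt1 f) 2
      rw [hT2] at h1 h2
      show 1 - 2 * θ ≤ 1 - nt (p0 + 1) (√θ) i ^ 2 - nt (p0 + 1) (√θ) f ^ 2
      linarith only [h2, h1]
  have hlevhi : ∀ n : Nd (p0 + 1), Par.lv P n ≤ 1 := by
    intro n
    rcases n with _ | i | ⟨i, v, f⟩
    · simp only [Par.lv]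
      exact le_rfl
    · simp only [Par.lv]
      have := sq_nonneg (nt (p0 + 1) P.T i)
      linarith only [this]
    · simp only [Par.lv]
      have := sq_nonneg (nt (p0 + 1) P.T i)
      have := sq_nonneg (nt (p0 + 1) P.T f)
      (clear hq hp0 K hI hK c1 hc1 c2 c3 hc3 c4 hc2 hc4 hc1' hc2' hc3' hc4' hθ hθ1 hb hb1 hκ hκ1 hl hP hT hT2 hp0' hpp hsT hθ8 hnt0 hnt1 hntlo hlevlo v; linarith)
  have hmar : ∀ i : Fin (p0 + 1), ∀ L : ℝ, 1 - 2 * θ ≤ L →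
      (1 - nt (p0 + 1) (√θ) i / √θ) ^ 2 * 1 ≤ (1 - 1 / (2 * (p0 : ℝ))) * L := by
    intro i L hL
    have h1 : 1 / ((p0 + 1 : ℕ) : ℝ) ≤ nt (p0 + 1) (√θ) i / √θ := by
      rw [le_div_iff₀ hT]
      calc 1 / ((p0 + 1 : ℕ) : ℝ) * √θ = √θ / ((p0 + 1 : ℕ) : ℝ) := by ring
        _ ≤ _ := hntlo i
    have h2 : nt (p0 + 1) (√θ) i / √θ ≤ 1 := (div_le_one hT).mpr (hnt1 i)
    have h3 : (1 - nt (p0 + 1) (√θ) i / √θ) ^ 2 ≤ (1 - 1 / ((p0 + 1 : ℕ) : ℝ)) ^ 2 :=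
      pow_le_pow_left₀ (by linarith only [h2]) (by linarith only [h1]) 2
    have h4 : 0 ≤ 1 - 1 / (2 * (p0 : ℝ)) := by
      have : 1 / (2 * (p0 : ℝ)) ≤ 1 := by
        rw [div_le_one (by positivity)]
        linarith only [hp0']
      linarith only [this]
    have h5 : 1 - 1 / (4 * (p0 : ℝ)) ≤ L := by
      have : 2 * (1 / (8 * (p0 : ℝ))) = 1 / (4 * p0) := by field_simp; norm_num
      linarith only [hL, hθ1, this]
    have h6 : (1 - 1 / ((p0 + 1 : ℕ) : ℝ)) ^ 2 ≤ (1 - 1 / (2 * (p0 : ℝ))) * (1 - 1 / (4 * (p0 : ℝ))) := by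
      rw [hpp]
      have hx : (0 : ℝ) < p0 := by linarith only [hp0']
      have e1 : (1 - 1 / ((p0 : ℝ) + 1)) ^ 2 = p0 ^ 2 / (p0 + 1) ^ 2 := by
        field_simp
        ring
      have e2 : (1 - 1 / (2 * (p0 : ℝ))) * (1 - 1 / (4 * (p0 : ℝ)))
          = ((2 * p0 - 1) * (4 * p0 - 1)) / (8 * p0 ^ 2) := by
        field_simp
        ring
      rw [e1, e2, div_le_div_iff₀ (by positivity) (by positivity)]
      nlinarith only [(mul_nonneg (mul_nonneg (sub_nonneg.mpr hp0') hx.le) hx.le)]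
    calc (1 - nt (p0 + 1) (√θ) i / √θ) ^ 2 * 1 ≤ (1 - 1 / (2 * (p0 : ℝ))) * (1 - 1 / (4 * (p0 : ℝ))) := by
          rw [mul_one]
          exact h3.trans h6
      _ ≤ (1 - 1 / (2 * (p0 : ℝ))) * L := mul_le_mul_of_nonneg_left h5 h4
  refine
    { root_t := ?_, root_g := ?_, root_P := ?_, root_w := ?_, root_lev := ?_, top_t := ?_,
      top_g := ?_, top_P := ?_, top_lev := ?_, t_nonneg := ?_, t_le := ?_, margin := ?_,
      lev_lo := ?_, lev_hi := ?_, w_le := ?_, q_le := ?_ }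
  · simp only [Par.net, Par.Ln, Equiv.symm_apply_apply, ug_ef_inl_inl]
    simp only [Fin.isValue, one_ne_zero, ↓reduceIte]
  · simp only [Par.net, Equiv.symm_apply_apply, Par.Ln, ug_ef_inl_inl]
    simp
  · simp only [Par.net, Equiv.symm_apply_apply, Par.Ln, ug_ef_inl_inl]
    simp
  · intro j
    simp only [Par.net, Par.Ln, Equiv.symm_apply_apply, ug_ef_inl_inr]
  · simp only [Par.net, Equiv.symm_apply_apply, Par.lv]
  · simp only [Par.net, Equiv.symm_apply_apply, Par.nc, ug_Ln_a]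
    rw [hsT]
    show nt (p0 + 1) (√θ) (Fin.last p0) = √θ
    rw [nt, Fin.val_last, hpp, div_self (by positivity), one_mul]
  · simp only [Par.net, Equiv.symm_apply_apply, Par.nc]
    rw [ug_Ln_c, ug_La_inl, ug_ef_inl_inl]
    simp
  · simp only [Par.net, Equiv.symm_apply_apply, Par.nc]
    rw [ug_Ln_c, ug_La_inl, ug_ef_inl_inl]
    simp
  · simp only [Par.net, Par.lv, Par.nc, Equiv.symm_apply_apply]
    show 1 - nt (p0 + 1) (√θ) (Fin.last p0) ^ 2 = (1 - θ) * 1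
    rw [nt, Fin.val_last, hpp, div_self (by positivity), one_mul, hT2, mul_one]
  · intro k
    show 0 ≤ P.Ln ((Par.num (p0 + 1)).symm k) (Sum.inl 1)
    rw [ug_Ln_a]
    rcases (Par.num (p0 + 1)).symm k with _ | i | ⟨i, v, f⟩
    · exact le_rfl
    · exact hnt0 i
    · exact hnt0 i
  · intro k
    show P.Ln ((Par.num (p0 + 1)).symm k) (Sum.inl 1) ≤ √(θ * 1)
    rw [ug_Ln_a, hsT]
    rcases (Par.num (p0 + 1)).symm k with _ | i | ⟨i, v, f⟩
    · exact hT.le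
    · exact hnt1 i
    · exact hnt1 i
  · intro k hk
    show (1 - P.Ln ((Par.num (p0 + 1)).symm k) (Sum.inl 1) / √(θ * 1)) ^ 2 * 1
      ≤ (1 - 1 / (2 * (p0 : ℝ))) * P.lv ((Par.num (p0 + 1)).symm k)
    have hne : (Par.num (p0 + 1)).symm k ≠ none := by
      intro h
      apply hk
      show k = Par.num (p0 + 1) none
      rw [← h, Equiv.apply_symm_apply]
    rw [ug_Ln_a, hsT]
    have hL := hlevlo ((Par.num (p0 + 1)).symm k)
    rcases h : (Par.num (p0 + 1)).symm k with _ | i | ⟨i, v, f⟩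
    · exact absurd h hne
    · rw [h] at hL
      exact hmar i _ hL
    · rw [h] at hL
      exact hmar i _ hL
  · intro k
    show (1 - 2 * θ) * 1 ≤ P.lv ((Par.num (p0 + 1)).symm k)
    rw [mul_one]
    exact hlevlo _
  · intro k
    exact hlevhi _
  · intro k m
    show |P.Ln ((Par.num (p0 + 1)).symm k) (Sum.inr ((Par.num (p0 + 1)).symm m))| ≤ _
    have h := ug_Ln_le P hK hI.A_le hI.α_le hI.β_le hT hb hκ ((Par.num (p0 + 1)).symm k) ((Par.num (p0 + 1)).symm m)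
    refine h.trans ?_
    show 2 * ((p0 + 1 : ℕ) : ℝ) * K * √θ ^ 2 + ((p0 + 1 : ℕ) * ((p0 + 1 : ℕ) + 1) * K ^ 2 + 2) * (|lam| * √θ)
      + (p0 + 1 : ℕ) ^ 3 * ((p0 + 1 : ℕ) + 1) * K ^ 4 * (lam ^ 2 * κ * √θ ^ 2 / b)
      + (p0 + 1 : ℕ) * ((p0 + 1 : ℕ) + 1) * K ^ 2 * (b / κ)
      ≤ (1 + c1 + c2 + c3 + c4) * (θ + |lam| * √θ + lam ^ 2 * κ * θ / b + b / κ)
    rw [hT2, ← hc1, ← hc2, ← hc3, ← hc4]
    have f1 : 0 ≤ |lam| * √θ := by (clear * - hθ; positivity)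
    have f2 : 0 ≤ lam ^ 2 * κ * θ / b := by (clear * - hκ hθ hb; positivity)
    have f3 : 0 ≤ b / κ := by positivity
    have g1 := mul_nonneg hc1' f1
    have g2 := mul_nonneg hc1' f2
    have g3 := mul_nonneg hc1' f3
    have g4 := mul_nonneg hc2' hθ.le
    have g5 := mul_nonneg hc2' f2
    have g6 := mul_nonneg hc2' f3
    have g7 := mul_nonneg hc3' hθ.le
    have g8 := mul_nonneg hc3' f1
    have g9 := mul_nonneg hc3' f3
    have g10 := mul_nonneg hc4' hθ.le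
    have g11 := mul_nonneg hc4' f1
    have g12 := mul_nonneg hc4' f2
    linarith only [f1, f3, g1, g2, g3, g4, g5, g6, g7, g8, g9, g10, g11, g12]
  · intro m
    show |P.Lq (Fin.last p0) (Sum.inr ((Par.num (p0 + 1)).symm m))| ≤ _
    have h := ug_corr_le P hK hI.A_le hI.α_le hI.β_le hT hb hκ (Fin.last p0)
      (Sum.inr ((Par.num (p0 + 1)).symm m))
    have he : P.Lq (Fin.last p0) (Sum.inr ((Par.num (p0 + 1)).symm m)) = ((P.lam * P.κ) ^ 2 * P.T)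
        * ∑ j, (P.cA (Fin.last p0) j * nt (p0 + 1) P.T j) * P.LBB j (Sum.inr ((Par.num (p0 + 1)).symm m)) := by
      simp only [Par.Lq, Pi.smul_apply, Finset.sum_apply, smul_eq_mul]
    rw [he]
    refine h.trans ?_
    show ((p0 + 1 : ℕ) : ℝ) ^ 3 * ((p0 + 1 : ℕ) + 1) * K ^ 4 * (lam ^ 2 * κ * √θ / b)
      ≤ (1 + c1 + c2 + c3 + c4) * (lam ^ 2 * κ * √θ / b)
    rw [← hc3]
    apply mul_le_mul_of_nonneg_right _ (by (clear * - hκ hθ hb; positivity))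
    linarith only [hc1', hc4']

variable {d : ℕ}

/-- Total residual for the order `o`. -/
noncomputable def RtotY {p : ℕ} (S : Fam d p) (o : ℕ) (R2 : Eu d × Eu d → ℝ)
    (R3 : Fin p → Eu d × Eu d → ℝ) (ω : Eu d × Eu d × Eu d) : ℝ :=
  R2 (ω.1, ω.2.1) + S.b⁻¹ * ∑ i, ∑ v : Vv p, R3 i (S.cp i ω, S.vx i v ω)
    + S.b ^ (o - 1) * ∑ i, (‖S.gp i ω‖ + ‖ω.2.2‖)

/-- The pathwise hypotheses for the order `o`. -/
structure HypY {p : ℕ} (S : Fam d p) (o : ℕ) (cA : Fin p → Fin p → ℝ) (α β : Fin (p + 1) → ℝ)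
    (K C1 R : ℝ) (ω : Eu d × Eu d × Eu d) : Prop where
  K0 : 0 ≤ K
  C0 : 0 ≤ C1
  R0 : 0 ≤ R
  βs : ∑ e, β e = 0
  βK : ∀ e, |β e| ≤ K
  AK : ∀ i j, |cA i j| ≤ K
  nt0 : ∀ i, 0 < nt p S.T i
  nt1 : ∀ i, nt p S.T i ≤ 1
  a : ∀ i, ‖S.A (nt p S.T i) (S.Y, (ω.1, ω.2.1)) - (ω.1 - S.T • ∑ j, cA i j • S.fc j ω
    + (S.lam * S.κ * S.T) • ∑ j, cA i j • S.bb j ω (S.vx j none ω))‖ ≤ R
  g : ∃ r, r ≤ R ∧ ∀ i, ‖S.gp i ω - (ω.2.1 - S.lam • (S.fc i ω - Fv S.w (1, S.Y))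
    + ((S.lam * S.κ) ^ 2 * S.T) • ∑ j, (cA i j * nt p S.T j) • S.bb j ω (S.bb j ω (S.gp j ω)))‖
      ≤ (S.lam * S.κ) ^ 2 * r
  j : ∀ i v, ‖S.κ • S.bb i ω (S.vx i v ω) - S.T⁻¹ • (α 0 • S.fc i ω +
    ∑ j : Fin p, α j.succ • S.fj i v j ω)‖ ≤ S.κ * (S.b * R)
  n : ∀ i v f, ‖S.Ap i (nt p S.T f) (S.cp i ω, S.vx i v ω) - (S.vx i v ω -
    S.T • ∑ j : Fin p, cA f j • S.fj i v j ω)‖ ≤ R
  cf : ∀ i (e : Fin p), ‖S.vx i (some (false, e)) ω - (S.gp i ω - S.b • ∑ j : Fin p, cA e j •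
    S.bb i ω (S.vx i (some (true, j)) ω))‖ ≤
      C1 * S.b ^ 2 * (S.b ^ (o - 1) * (‖S.gp i ω‖ + ‖ω.2.2‖))
  ct : ∀ i (e : Fin p), ‖S.vx i (some (true, e)) ω - (ω.2.2 + S.b • ∑ j : Fin p, cA e j •
    S.bb i ω (S.vx i (some (false, j)) ω))‖ ≤
      C1 * S.b ^ 2 * (S.b ^ (o - 1) * (‖S.gp i ω‖ + ‖ω.2.2‖))
  cb : ∀ i, ‖S.bb i ω (S.bb i ω (S.gp i ω)) + (S.b⁻¹) ^ 2 •
    (β 0 • S.gp i ω + ∑ e : Fin p, β e.succ • S.vx i (some (false, e)) ω)‖ ≤
      C1 * (S.b ^ (o - 1) * (‖S.gp i ω‖ + ‖ω.2.2‖))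
  M : ∀ i, S.b ^ (o - 1) * (‖S.gp i ω‖ + ‖ω.2.2‖) ≤ R

section asm

variable {p o : ℕ} {S : Fam d p} {cA : Fin p → Fin p → ℝ} {α β : Fin (p + 1) → ℝ}
  {K C1 R : ℝ} {ω : Eu d × Eu d × Eu d}

theorem ur_eJY (H : HypY S o cA α β K C1 R ω) (i : Fin p) (v : Vv p) :
    ‖S.κ • S.bb i ω (S.vx i v ω) - ev ((Par.mk cA α β S.T S.b S.κ S.lam).JV i v)
      (S.xe (Par.mk cA α β S.T S.b S.κ S.lam) ω)‖ ≤ S.κ * (S.b * R) := by
  rw [ur_ev_JV, ur_xc]
  simp only [ur_xj]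
  exact H.j i v

theorem ur_eBY (hS : S.Ok) (H : HypY S o cA α β K C1 R ω) (i : Fin p) (v : Vv p) :
    ‖S.bb i ω (S.vx i v ω) - S.κ⁻¹ • ev ((Par.mk cA α β S.T S.b S.κ S.lam).JV i v)
      (S.xe (Par.mk cA α β S.T S.b S.κ S.lam) ω)‖ ≤ R :=
  (ur_abs_B hS.κ0 (ur_eJY H i v)).trans
    (mul_le_of_le_one_left H.R0 (hS.b1.trans (by norm_num)))

theorem ur_eLY (hS : S.Ok) (H : HypY S o cA α β K C1 R ω) (i : Fin p) :
    ‖S.bb i ω (S.bb i ω (S.gp i ω)) - ev ((Par.mk cA α β S.T S.b S.κ S.lam).LBB i)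
      (S.xe (Par.mk cA α β S.T S.b S.κ S.lam) ω)‖ ≤
      (C1 * (1 + p * K) + p ^ 2 * K ^ 2) * R := by
  rw [ur_ev_LBB]
  exact ur_lbb hS.b0 hS.κ0 H.K0 H.C0 H.βs H.βK H.AK (H.cb i) (H.cf i)
      (fun j => ur_eJY H i (some (true, j))) (H.M i)

theorem ur_eaY (hS : S.Ok) (H : HypY S o cA α β K C1 R ω) (hT1 : S.T ≤ 1) (i : Fin p) :
    ‖S.A (nt p S.T i) (S.Y, (ω.1, ω.2.1)) - ev ((Par.mk cA α β S.T S.b S.κ S.lam).La i)
      (S.xe (Par.mk cA α β S.T S.b S.κ S.lam) ω)‖ ≤ (1 + 2 * (p * K)) * R := by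
  rw [ur_ev_La, ur_x1]
  simp only [ur_xc]
  have h7 : |S.lam * S.κ * S.T| ≤ 2 := by
    rw [abs_mul, abs_mul, abs_of_pos hS.κ0, abs_of_pos hS.T0]
    have := hS.hlam
    have h8 : 0 ≤ |S.lam| * S.κ := mul_nonneg (abs_nonneg _) hS.κ0.le
    (refine le_of_not_gt fun hng_ => ?_; linarith only [mul_nonneg (sub_nonneg.2 hT1) (le_of_lt (sub_pos.2 hng_)), mul_pos (sub_pos.2 hng_) hS.T0, mul_nonneg (sub_nonneg.2 hT1) h8, mul_nonneg (sub_nonneg.2 this) (sub_nonneg.2 this), mul_nonneg (sub_nonneg.2 this) h8])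
  exact ur_abs_a (H.a i) le_rfl (fun j => ur_eBY hS H j none) hS.κ0 h7 H.K0 (H.AK i)

theorem ur_egY (hS : S.Ok) (H : HypY S o cA α β K C1 R ω) (hT1 : S.T ≤ 1) (i : Fin p) :
    ‖S.gp i ω - (ω.2.1 - S.lam • (S.fc i ω - Fv S.w (1, S.Y))
      + ev ((Par.mk cA α β S.T S.b S.κ S.lam).Lq i)
      (S.xe (Par.mk cA α β S.T S.b S.κ S.lam) ω))‖ ≤
      (S.lam * S.κ) ^ 2 * (1 + p * K * (C1 * (1 + p * K) + p ^ 2 * K ^ 2)) * R := by
  rw [ur_ev_Lq]
  obtain ⟨r, hr, hg⟩ := H.g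
  exact ur_abs_g (hg i) hr (fun j => ur_eLY hS H j) (sq_nonneg _) hS.T0.le hT1 H.K0 (fun j => by
    rw [abs_mul, abs_of_pos (H.nt0 j)]
    exact (mul_le_of_le_one_right (abs_nonneg _) (H.nt1 j)).trans (H.AK i j))

theorem ur_C2Y (H : HypY S o cA α β K C1 R ω) :
    0 ≤ 1 + p * K * (C1 * (1 + p * K) + p ^ 2 * K ^ 2) := by
  have := H.K0
  have := H.C0
  positivity

theorem ur_egY' (hS : S.Ok) (H : HypY S o cA α β K C1 R ω) (hT1 : S.T ≤ 1) (i : Fin p) :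
    ‖S.gp i ω - ev ((Par.mk cA α β S.T S.b S.κ S.lam).Lg i)
      (S.xe (Par.mk cA α β S.T S.b S.κ S.lam) ω)‖ ≤
      4 * (1 + p * K * (C1 * (1 + p * K) + p ^ 2 * K ^ 2)) * R := by
  rw [ur_ev_Lg, ur_x2, ur_xc, ur_xn]
  refine (ur_egY hS H hT1 i).trans ?_
  have hlk : (S.lam * S.κ) ^ 2 ≤ 4 := by
    have h1 := hS.hlam
    have h2 : 0 ≤ |S.lam| * S.κ := mul_nonneg (abs_nonneg _) hS.κ0.le
    have h3 : (S.lam * S.κ) ^ 2 = (|S.lam| * S.κ) ^ 2 := by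
      rw [mul_pow, mul_pow, sq_abs]
    rw [h3]
    linarith only [mul_nonneg (sub_nonneg.2 h1) h2, mul_nonneg (sub_nonneg.2 h1) (sub_nonneg.2 h1)]
  exact mul_le_mul_of_nonneg_right (mul_le_mul_of_nonneg_right hlk (ur_C2Y H)) H.R0

theorem ur_csY (hS : S.Ok) (H : HypY S o cA α β K C1 R ω) (i : Fin p) :
    C1 * S.b ^ 2 * (S.b ^ (o - 1) * (‖S.gp i ω‖ + ‖ω.2.2‖)) ≤ C1 * R := by
  have hb := hS.b0
  have hb1 : S.b ≤ 1 := hS.b1.trans (by norm_num)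
  have h1 : S.b ^ 2 ≤ 1 := pow_le_one₀ hb.le hb1
  have h2 := H.M i
  have h3 : 0 ≤ S.b ^ (o - 1) * (‖S.gp i ω‖ + ‖ω.2.2‖) := by (clear * - hb; positivity)
  rw [mul_assoc]
  exact mul_le_mul_of_nonneg_left ((mul_le_of_le_one_left h3 h1).trans h2) H.C0

theorem ur_eVY (hS : S.Ok) (H : HypY S o cA α β K C1 R ω) (hT1 : S.T ≤ 1) (i : Fin p) (v : Vv p) :
    ‖S.vx i v ω - ev ((Par.mk cA α β S.T S.b S.κ S.lam).Lv i v)
      (S.xe (Par.mk cA α β S.T S.b S.κ S.lam) ω)‖ ≤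
      (C1 + 4 * (1 + p * K * (C1 * (1 + p * K) + p ^ 2 * K ^ 2)) + p * K) * R := by
  have hC5R : (C1 + 4 * (1 + p * K * (C1 * (1 + p * K) + p ^ 2 * K ^ 2)) + p * K) * R =
      C1 * R + 4 * (1 + p * K * (C1 * (1 + p * K) + p ^ 2 * K ^ 2)) * R + p * (K * R) := by ring
  have hK := H.K0
  have hC0 := H.C0
  have hR0 := H.R0
  have n1 : 0 ≤ C1 * R := by positivity
  have n2 : 0 ≤ 4 * (1 + p * K * (C1 * (1 + p * K) + p ^ 2 * K ^ 2)) * R := by
    have := ur_C2Y H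
    (clear * - hK hC0 hR0; positivity)
  have n3 : 0 ≤ p * (K * R) := by (clear * - hK hR0; positivity)
  have hb := hS.b0
  have hb1 : S.b ≤ 1 := hS.b1.trans (by norm_num)
  rw [hC5R]
  rcases v with _ | ⟨_ | _, e⟩
  · have h2 : ‖S.vx i none ω - ev ((Par.mk cA α β S.T S.b S.κ S.lam).Lv i none)
      (S.xe (Par.mk cA α β S.T S.b S.κ S.lam) ω)‖ ≤
      4 * (1 + p * K * (C1 * (1 + p * K) + p ^ 2 * K ^ 2)) * R := ur_egY' hS H hT1 i
    linarith only [n3, n1, h2]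
  · rw [ur_ev_Lvf]
    have h := H.cf i e
    rw [sub_eq_add_neg (S.gp i ω), ← neg_smul] at h
    exact ur_abs_v (h.trans (ur_csY hS H i)) (ur_egY' hS H hT1 i)
      (fun j => ur_eBY hS H i (some (true, j))) (by rw [abs_neg, abs_of_pos hb]; exact hb1) H.K0
      (H.AK e)
  · rw [ur_ev_Lvt, ur_x3]
    have h8 := ur_abs_v (g' := ω.2.2) (e2 := 0) ((H.ct i e).trans (ur_csY hS H i)) (by simp)
      (fun j => ur_eBY hS H i (some (false, j))) (by rw [abs_of_pos hb]; exact hb1) H.K0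
      (H.AK e)
    refine h8.trans ?_
    linarith only [n2]

theorem ur_ecY (hS : S.Ok) (H : HypY S o cA α β K C1 R ω) (hT1 : S.T ≤ 1) (i : Fin p) :
    ‖S.cp i ω - (S.Y + nt p S.T i • ev ((Par.mk cA α β S.T S.b S.κ S.lam).La i)
      (S.xe (Par.mk cA α β S.T S.b S.κ S.lam) ω))‖ ≤ (1 + 2 * (p * K)) * R := by
  unfold Fam.cp
  rw [add_sub_add_left_eq_sub, ← smul_sub, norm_smul, Real.norm_eq_abs, abs_of_pos (H.nt0 i)]
  exact (mul_le_of_le_one_left (norm_nonneg _) (H.nt1 i)).trans (ur_eaY hS H hT1 i)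

theorem ur_enY (hS : S.Ok) (H : HypY S o cA α β K C1 R ω) (hT1 : S.T ≤ 1) (n : Nd p) :
    ‖S.Xn n ω - ev ((Par.mk cA α β S.T S.b S.κ S.lam).Ln n)
      (S.xe (Par.mk cA α β S.T S.b S.κ S.lam) ω)‖ ≤
      (1 + 2 * (p * K)) * R + (R +
      (C1 + 4 * (1 + p * K * (C1 * (1 + p * K) + p ^ 2 * K ^ 2)) + p * K) * R) := by
  have hK := H.K0
  have hC0 := H.C0
  have hR0 := H.R0
  have h1 := ur_C2Y H
  have n1 : 0 ≤ (1 + 2 * (p * K)) * R := by (clear * - hK hR0; positivity)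
  have n2 : 0 ≤ (C1 + 4 * (1 + p * K * (C1 * (1 + p * K) + p ^ 2 * K ^ 2)) + p * K) * R := by
    (clear * - hC0 hK hR0; positivity)
  rcases n with _ | (i | ⟨i, v, f⟩)
  · have h1 : ev ((Par.mk cA α β S.T S.b S.κ S.lam).Ln none)
        (S.xe (Par.mk cA α β S.T S.b S.κ S.lam) ω) = S.Y := by
      have h0 : (Par.mk cA α β S.T S.b S.κ S.lam).Ln none = ef (Sum.inl 0) := rfl
      rw [h0, ur_ev_ef, ur_x0]
    have h2 : S.Xn none ω = S.Y := rfl
    rw [h1, h2, sub_self, norm_zero]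
    linarith only [n1, hR0, n2]
  · rw [ur_ev_Ln1, ur_x0]
    have h5 : ‖S.Xn (some (Sum.inl i)) ω - (S.Y + nt p S.T i •
      ev ((Par.mk cA α β S.T S.b S.κ S.lam).La i)
        (S.xe (Par.mk cA α β S.T S.b S.κ S.lam) ω))‖ ≤ (1 + 2 * (p * K)) * R :=
      ur_ecY hS H hT1 i
    refine h5.trans ?_
    linarith only [n2, hR0]
  · rw [ur_ev_Ln2, ur_x0]
    simp only [ur_xj]
    exact ur_abs_n (ur_ecY hS H hT1 i) (H.n i v f) (ur_eVY hS H hT1 i v) (H.nt0 f).le (H.nt1 f)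

end asm

theorem ur_RY {p : ℕ} (o : ℕ) (S : Fam d p) (hb : 0 < S.b) (R2 : Eu d × Eu d → ℝ)
    (R3 : Fin p → Eu d × Eu d → ℝ) (hR2 : ∀ z, 0 ≤ R2 z) (hR3 : ∀ i q, 0 ≤ R3 i q)
    (ω : Eu d × Eu d × Eu d) :
    R2 (ω.1, ω.2.1) ≤ RtotY S o R2 R3 ω ∧
    (∀ i v, R3 i (S.cp i ω, S.vx i v ω) ≤ S.b * RtotY S o R2 R3 ω) ∧
    ∀ i, S.b ^ (o - 1) * (‖S.gp i ω‖ + ‖ω.2.2‖) ≤ RtotY S o R2 R3 ω := by
  have hsum1 : 0 ≤ ∑ i, ∑ v : Vv p, R3 i (S.cp i ω, S.vx i v ω) :=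
    Finset.sum_nonneg fun i _ => Finset.sum_nonneg fun v _ => hR3 _ _
  have hsum2 : 0 ≤ ∑ i : Fin p, (‖S.gp i ω‖ + ‖ω.2.2‖) :=
    Finset.sum_nonneg fun i _ => by (clear * -; positivity)
  have ht1 : 0 ≤ S.b⁻¹ * ∑ i, ∑ v : Vv p, R3 i (S.cp i ω, S.vx i v ω) :=
    mul_nonneg (inv_pos.2 hb).le hsum1
  have ht2 : 0 ≤ S.b ^ (o - 1) * ∑ i : Fin p, (‖S.gp i ω‖ + ‖ω.2.2‖) :=
    mul_nonneg (pow_pos hb _).le hsum2
  have h0 := hR2 (ω.1, ω.2.1)
  unfold RtotY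
  refine ⟨by linarith only [ht2, ht1], ?_, ?_⟩
  · intro i v
    have h1 : R3 i (S.cp i ω, S.vx i v ω) ≤ ∑ v : Vv p, R3 i (S.cp i ω, S.vx i v ω) :=
      Finset.single_le_sum (f := fun v : Vv p => R3 i (S.cp i ω, S.vx i v ω))
        (fun v _ => hR3 _ _) (Finset.mem_univ v)
    have h2 : ∑ v : Vv p, R3 i (S.cp i ω, S.vx i v ω) ≤
        ∑ i, ∑ v : Vv p, R3 i (S.cp i ω, S.vx i v ω) :=
      Finset.single_le_sum (f := fun i => ∑ v : Vv p, R3 i (S.cp i ω, S.vx i v ω))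
        (fun i _ => Finset.sum_nonneg fun v _ => hR3 _ _) (Finset.mem_univ i)
    refine (h1.trans h2).trans ?_
    rw [← inv_mul_le_iff₀ hb]
    linarith only [h0, ht2]
  · intro i
    have h1 : ‖S.gp i ω‖ + ‖ω.2.2‖ ≤ ∑ i : Fin p, (‖S.gp i ω‖ + ‖ω.2.2‖) :=
      Finset.single_le_sum (f := fun i : Fin p => ‖S.gp i ω‖ + ‖ω.2.2‖)
        (fun i _ => by (clear * -; positivity)) (Finset.mem_univ i)
    have h2 : S.b ^ (o - 1) * (‖S.gp i ω‖ + ‖ω.2.2‖) ≤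
        S.b ^ (o - 1) * ∑ i : Fin p, (‖S.gp i ω‖ + ‖ω.2.2‖) :=
      mul_le_mul_of_nonneg_left h1 (pow_pos hb _).le
    linarith only [h0, ht1, h2]

theorem unit_resY {p : ℕ} (hp : 2 ≤ p) {cA : Fin p → Fin p → ℝ} {α β : Fin (p + 1) → ℝ} {K : ℝ}
    {r o : ℕ} (hI : Rules p r cA α β K) (ho : 2 ≤ o) (hor : o ≤ r)
    (hq : 15 * ((p : ℝ) + 1) ≤ K) :
    ∃ C, (1 ≤ C ∧ C ≤ K ^ 7) ∧ ∀ (d : ℕ) (S : Fam d p), S.Ok →
      Carrier d S.Cg S.CP → ∀ (R2 : Eu d × Eu d → ℝ) (R3 : Fin p → Eu d × Eu d → ℝ),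
      (∀ z, 0 ≤ R2 z) → (∀ i q, 0 ≤ R3 i q) →
      -- conclusion of `lam_nodes`
      (∀ z : Eu d × Eu d, ∀ i : Fin p,
          ‖S.A (nt p S.T i) (S.Y, z) - (z.1
            - S.T • ∑ j, cA i j • Fv S.w (1 - nt p S.T j ^ 2,
                S.Y + nt p S.T j • S.A (nt p S.T j) (S.Y, z))
            + (S.lam * S.κ * S.T) • ∑ j, cA i j •
              B0L S.κ S.w (1 - nt p S.T j ^ 2, S.Y + nt p S.T j • S.A (nt p S.T j) (S.Y, z))
                (S.Q (nt p S.T j) (S.Y, z)))‖ ≤ R2 z ∧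
          ‖S.Q (nt p S.T i) (S.Y, z) - (z.2
            - S.lam • (Fv S.w (1 - nt p S.T i ^ 2,
                S.Y + nt p S.T i • S.A (nt p S.T i) (S.Y, z)) - Fv S.w (1, S.Y))
            + ((S.lam * S.κ) ^ 2 * S.T) • ∑ j, (cA i j * nt p S.T j) •
              B0L S.κ S.w (1 - nt p S.T j ^ 2, S.Y + nt p S.T j • S.A (nt p S.T j) (S.Y, z))
                (B0L S.κ S.w (1 - nt p S.T j ^ 2, S.Y + nt p S.T j • S.A (nt p S.T j) (S.Y, z))
                  (S.Q (nt p S.T j) (S.Y, z))))‖ ≤ (S.lam * S.κ) ^ 2 * R2 z) →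
      -- conclusion of `jvp_nodes`
      (∀ i, ∀ c v : Eu d,
          ‖S.κ • B0L S.κ S.w (1 - nt p S.T i ^ 2, c) v
            - S.T⁻¹ • (α 0 • Fv S.w (1 - nt p S.T i ^ 2, c) + ∑ j : Fin p, α j.succ •
            Fv S.w (1 - nt p S.T i ^ 2 - nt p S.T j ^ 2,
              c + nt p S.T j • S.Ap i (nt p S.T j) (c, v)))‖ ≤ S.κ * R3 i (c, v) ∧
          ∀ f : Fin p, ‖S.Ap i (nt p S.T f) (c, v) - (v - S.T • ∑ j : Fin p, cA f j •
            Fv S.w (1 - nt p S.T i ^ 2 - nt p S.T j ^ 2,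
              c + nt p S.T j • S.Ap i (nt p S.T j) (c, v)))‖ ≤ S.κ * R3 i (c, v)) →
      ∀ ω : Eu d × Eu d × Eu d,
        (∀ n, ‖S.Xn n ω - ev ((Par.mk cA α β S.T S.b S.κ S.lam).Ln n)
            (S.xe (Par.mk cA α β S.T S.b S.κ S.lam) ω)‖ ≤ C * RtotY S o R2 R3 ω) ∧
        ∀ i, ‖S.gp i ω - (ω.2.1
            - S.lam • (Fv S.w (1 - nt p S.T i ^ 2, S.cp i ω) - Fv S.w (1, S.Y))
            + ev ((Par.mk cA α β S.T S.b S.κ S.lam).Lq i)
              (S.xe (Par.mk cA α β S.T S.b S.κ S.lam) ω))‖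
          ≤ (S.lam * S.κ) ^ 2 * C * RtotY S o R2 R3 ω := by
  obtain ⟨C1, ⟨hC1, hC1'⟩, hcar⟩ := carrier_nodesY hp hI ho hor
  have hK := hI.K0
  have hC2 : 0 ≤ 1 + p * K * (C1 * (1 + p * K) + p ^ 2 * K ^ 2) := by (clear * - hp hK hC1; positivity)
  refine ⟨(1 + 2 * (p * K)) + (1 +
    (C1 + 4 * (1 + p * K * (C1 * (1 + p * K) + p ^ 2 * K ^ 2)) + p * K)),
    ⟨?_, bd_res (Nat.cast_nonneg _) hq hC1 hC1'⟩, ?_⟩
  · have h1 : 0 ≤ p * K := by (clear * - hp hK; positivity)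
    linarith only [hC2, hC1, h1]
  intro d S hS hC R2 R3 hR2 hR3 hlam hjvp ω
  have hκ := hS.κ0
  have hκ1 := hS.κ1
  have hT := hS.T0
  have hT1 : S.T ≤ 1 := by (refine le_of_not_gt fun hng_ => ?_; linarith only [mul_pos (sub_pos.2 hng_) hS.T0, mul_pos hκ (sub_pos.2 hng_), mul_nonneg (sub_nonneg.2 hκ1) (le_of_lt (sub_pos.2 hng_)), mul_nonneg (le_of_lt hκ) (sub_nonneg.2 hS.T1), mul_nonneg (sub_nonneg.2 hκ1) (sub_nonneg.2 hS.T1)])
  have hb := hS.b0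
  have hb1 : S.b ≤ 1 := hS.b1.trans (by norm_num)
  have hlev : ∀ i, 0 < 1 - nt p S.T i ^ 2 := by
    intro i
    have h1 := (ur_nt hp hT i).1
    have h2 := (ur_nt hp hT i).2
    (refine lt_of_not_ge fun hng_ => ?_; linarith only [mul_nonneg (sub_nonneg.2 hb1) (sub_nonneg.2 hng_), mul_nonneg (le_of_lt hb) (sub_nonneg.2 hng_), mul_nonneg (sub_nonneg.2 h2) (sub_nonneg.2 h2), mul_nonneg (le_of_lt hb) (sub_nonneg.2 hS.T1), mul_nonneg (sub_nonneg.2 hb1) (sub_nonneg.2 hS.T1), mul_nonneg (le_of_lt h1) (sub_nonneg.2 h2)])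
  obtain ⟨hA, hB, hD⟩ := ur_RY o S hb R2 R3 hR2 hR3 ω
  have hR0 : 0 ≤ RtotY S o R2 R3 ω := (hR2 _).trans hA
  have hbp : S.b ^ (o + 1) = S.b ^ 2 * S.b ^ (o - 1) := by
    rw [← pow_add]
    congr 1
    omega
  have hc := fun i => hcar d S.Cg S.CP hC (S.bb i ω)
    (ur_B0L_symm hS.heat (p := (1 - nt p S.T i ^ 2, S.cp i ω)) (hlev i))
    (ur_B0L_norm hS.heat hκ (p := (1 - nt p S.T i ^ 2, S.cp i ω)) (hlev i))
    S.b hb hb1 (S.gp i ω, ω.2.2)
  have H : HypY S o cA α β K C1 (RtotY S o R2 R3 ω) ω :=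
    { K0 := hK
      C0 := hC1
      R0 := hR0
      βs := hI.β_sum
      βK := hI.β_le
      AK := hI.A_le
      nt0 := fun i => (ur_nt hp hT i).1
      nt1 := fun i => (ur_nt hp hT i).2.trans hT1
      a := fun i => ((hlam (ω.1, ω.2.1) i).1).trans hA
      g := ⟨R2 (ω.1, ω.2.1), hA, fun i => (hlam (ω.1, ω.2.1) i).2⟩
      j := fun i v => ((hjvp i (S.cp i ω) (S.vx i v ω)).1).trans
        (mul_le_mul_of_nonneg_left (hB i v) hκ.le)
      n := fun i v f => ((hjvp i (S.cp i ω) (S.vx i v ω)).2 f).trans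
        ((mul_le_of_le_one_left (hR3 _ _) hκ1).trans ((hB i v).trans
          (mul_le_of_le_one_left hR0 hb1)))
      cf := fun i e => ((hc i).1 e).trans (le_of_eq (by rw [hbp]; ring))
      ct := fun i e => ((hc i).2.1 e).trans (le_of_eq (by rw [hbp]; ring))
      cb := fun i => ((hc i).2.2).trans (le_of_eq (by ring))
      M := hD }
  refine ⟨fun n => (ur_enY hS H hT1 n).trans (le_of_eq (by ring)), fun i => ?_⟩
  refine (ur_egY hS H hT1 i).trans ?_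
  have h1 : 0 ≤ p * K := by (clear * - hp hK; positivity)
  have h3 : 1 + p * K * (C1 * (1 + p * K) + p ^ 2 * K ^ 2) ≤ (1 + 2 * (p * K)) + (1 +
    (C1 + 4 * (1 + p * K * (C1 * (1 + p * K) + p ^ 2 * K ^ 2)) + p * K)) := by linarith only [hC2, hC1, h1]
  exact mul_le_mul_of_nonneg_right (mul_le_mul_of_nonneg_left h3 (sq_nonneg _)) hR0

open Fam in
theorem uc_RtotY {p o : ℕ} {S : Fam d p} (hS : S.Ok) (hp : 2 ≤ p) (hC : Carrier d S.Cg S.CP) {C3 C4 : ℝ}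
    {R2 : Eu d × Eu d → ℝ} (hm2 : Measurable R2) (h20 : ∀ z, 0 ≤ R2 z)
    (hi2 : Integrable R2 ((gam (Eu d)).prod (gam (Eu d))))
    (he2 : ∫ z, R2 z ∂((gam (Eu d)).prod (gam (Eu d))) ≤ C3 * S.T ^ (o + 1) * √d)
    {R3 : Fin p → Eu d × Eu d → ℝ} (hm3 : ∀ i, Measurable (R3 i)) (h30 : ∀ i q, 0 ≤ R3 i q)
    (he3 : ∀ i c, Integrable (fun v => R3 i (c, v)) (gam (Eu d)) ∧
      ∫ v, R3 i (c, v) ∂(gam (Eu d)) ≤ C4 * S.T ^ o * √d) :
    Measurable (RtotY S o R2 R3) ∧ (∀ ω, 0 ≤ RtotY S o R2 R3 ω) ∧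
      Integrable (RtotY S o R2 R3) (gam3 (Eu d)) ∧
      ∫ ω, RtotY S o R2 R3 ω ∂(gam3 (Eu d)) ≤ C3 * S.T ^ (o + 1) * √d
        + S.b⁻¹ * (p * (Fintype.card (Vv p) * (C4 * S.T ^ o * √d)))
        + S.b ^ (o - 1) * (p * (√d + √d)) := by
  have hP : IsProbabilityMeasure (gam (Eu d)) := uc_gam_prob
  have hb := hS.b0
  have hpair := fun i v => uc_pair hS hp hC i v
  have hmg := fun i => uc_gp_law hS hp i
  have hmP := uc_P_law (d := d)
  have hmag := uc_ag_law (d := d)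
  -- the three parts
  obtain ⟨i1, e1⟩ := uc_comp hmag hm2 hi2
  have hR3 : ∀ i v, Integrable (fun ω => R3 i (S.cp i ω, S.vx i v ω)) (gam3 (Eu d)) ∧
      ∫ ω, R3 i (S.cp i ω, S.vx i v ω) ∂(gam3 (Eu d)) ≤ C4 * S.T ^ o * √d := by
    intro i v
    have hR := uc_rho_prob hS hp i
    obtain ⟨k1, k2⟩ := uc_prod (ρ := S.rho i) (γ := gam (Eu d)) (hm3 i) (h30 i)
      (B := fun _ => C4 * S.T ^ o * √d) (integrable_const _) (he3 i)
    obtain ⟨j1, j2⟩ := uc_comp (hpair i v) (hm3 i) k1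
    refine ⟨j1, j2.trans_le (k2.trans ?_)⟩
    simp
  obtain ⟨g1, g2⟩ := uc_gam_norm (d := d)
  have hG : ∀ i, Integrable (fun ω => ‖S.gp i ω‖ + ‖ω.2.2‖) (gam3 (Eu d)) ∧
      ∫ ω, (‖S.gp i ω‖ + ‖ω.2.2‖) ∂(gam3 (Eu d)) ≤ √d + √d := by
    intro i
    obtain ⟨a1, a2⟩ := uc_comp (hmg i) (f := fun c : Eu d => ‖c‖) measurable_norm g1
    obtain ⟨b1, b2⟩ := uc_comp hmP (f := fun c : Eu d => ‖c‖) measurable_norm g1
    refine ⟨a1.add b1, ?_⟩
    rw [integral_add a1 b1, a2, b2]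
    exact add_le_add g2 g2
  have s1 : Integrable (fun ω => ∑ i, ∑ v : Vv p, R3 i (S.cp i ω, S.vx i v ω)) (gam3 (Eu d)) :=
    integrable_finsetSum _ fun i _ => integrable_finsetSum _ fun v _ => (hR3 i v).1
  have s2 : Integrable (fun ω => ∑ i, (‖S.gp i ω‖ + ‖ω.2.2‖)) (gam3 (Eu d)) :=
    integrable_finsetSum _ fun i _ => (hG i).1
  refine ⟨?_, ?_, ?_, ?_⟩
  · unfold RtotY
    refine Measurable.add (Measurable.add (hm2.comp hmag.measurable) ?_) ?_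
    · refine Measurable.const_mul ?_ _
      exact Finset.measurable_sum _ fun i _ => Finset.measurable_sum _ fun v _ =>
        (hm3 i).comp (hpair i v).measurable
    · refine Measurable.const_mul ?_ _
      exact Finset.measurable_sum _ fun i _ => (hmg i).measurable.norm.add hmP.measurable.norm
  · intro ω
    unfold RtotY
    have a1 := h20 (ω.1, ω.2.1)
    have a2 : 0 ≤ ∑ i, ∑ v : Vv p, R3 i (S.cp i ω, S.vx i v ω) :=
      Finset.sum_nonneg fun i _ => Finset.sum_nonneg fun v _ => h30 _ _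
    have a3 : 0 ≤ ∑ i, (‖S.gp i ω‖ + ‖ω.2.2‖) :=
      Finset.sum_nonneg fun i _ => by (clear * -; positivity)
    (clear * - a1 hb a2; positivity)
  · exact (i1.add (s1.const_mul _)).add (s2.const_mul _)
  · have e0 : ∫ ω, RtotY S o R2 R3 ω ∂(gam3 (Eu d)) = ∫ ω, R2 (ω.1, ω.2.1) ∂(gam3 (Eu d))
        + S.b⁻¹ * ∑ i, ∑ v : Vv p, ∫ ω, R3 i (S.cp i ω, S.vx i v ω) ∂(gam3 (Eu d))
        + S.b ^ (o - 1) * ∑ i, ∫ ω, (‖S.gp i ω‖ + ‖ω.2.2‖) ∂(gam3 (Eu d)) := by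
      unfold RtotY
      have i12 : Integrable (fun ω : Eu d × Eu d × Eu d => R2 (ω.1, ω.2.1)
          + S.b⁻¹ * ∑ i, ∑ v : Vv p, R3 i (S.cp i ω, S.vx i v ω)) (gam3 (Eu d)) :=
        i1.add (s1.const_mul _)
      rw [integral_add i12 (s2.const_mul _),
        integral_add i1 (s1.const_mul _), integral_const_mul, integral_const_mul,
        integral_finsetSum _ fun i _ => (hG i).1,
        integral_finsetSum _ fun i _ => integrable_finsetSum _ fun v _ => (hR3 i v).1]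
      congr 2
      congr 1
      refine Finset.sum_congr rfl fun i _ => ?_
      rw [integral_finsetSum _ fun v _ => (hR3 i v).1]
    rw [e0, e1]
    have t2 : ∑ i, ∑ v : Vv p, ∫ ω, R3 i (S.cp i ω, S.vx i v ω) ∂(gam3 (Eu d))
        ≤ p * (Fintype.card (Vv p) * (C4 * S.T ^ o * √d)) := by
      calc _ ≤ ∑ _i : Fin p, ∑ _v : Vv p, (C4 * S.T ^ o * √d) :=
            Finset.sum_le_sum fun i _ => Finset.sum_le_sum fun v _ => (hR3 i v).2
        _ = _ := by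
            rw [Finset.sum_const, Finset.sum_const, nsmul_eq_mul, nsmul_eq_mul, Finset.card_univ,
              Finset.card_univ, Fintype.card_fin]
    have t3 : ∑ i : Fin p, ∫ ω, (‖S.gp i ω‖ + ‖ω.2.2‖) ∂(gam3 (Eu d)) ≤ p * (√d + √d) := by
      calc _ ≤ ∑ _i : Fin p, (√(d : ℝ) + √d) := Finset.sum_le_sum fun i _ => (hG i).2
        _ = _ := by rw [Finset.sum_const, nsmul_eq_mul, Finset.card_univ, Fintype.card_fin]
    have hbi : 0 ≤ S.b⁻¹ := by positivity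
    have hbp : 0 ≤ S.b ^ (o - 1) := by positivity
    have := mul_le_mul_of_nonneg_left t2 hbi
    have := mul_le_mul_of_nonneg_left t3 hbp
    linarith

theorem uc_certY {p o : ℕ} (hp : 2 ≤ p) {cA : Fin p → Fin p → ℝ} {α β : Fin (p + 1) → ℝ}
    {S : Fam d p} (hS : S.Ok) (hC : Carrier d S.Cg S.CP) {θ : ℝ} (hθ : S.T ^ 2 = θ)
    (hθ' : S.T = √θ) {l : Fin p} (hl : nt p S.T l = S.T) {C2 C3 C4 C err : ℝ} (hC2 : 1 ≤ C2)
    (hC1 : 1 ≤ C)
    {R2 : Eu d × Eu d → ℝ} (hm2 : Measurable R2) (h20 : ∀ z, 0 ≤ R2 z)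
    (hi2 : Integrable R2 ((gam (Eu d)).prod (gam (Eu d))))
    (he2 : ∫ z, R2 z ∂((gam (Eu d)).prod (gam (Eu d))) ≤ C3 * S.T ^ (o + 1) * √d)
    {R3 : Fin p → Eu d × Eu d → ℝ} (hm3 : ∀ i, Measurable (R3 i)) (h30 : ∀ i q, 0 ≤ R3 i q)
    (he3 : ∀ i c, Integrable (fun v => R3 i (c, v)) (gam (Eu d)) ∧
      ∫ v, R3 i (c, v) ∂(gam (Eu d)) ≤ C4 * S.T ^ o * √d)
    (herr : 2 * C2 * (C3 * S.T ^ (o + 1) * √d
        + S.b⁻¹ * (p * (Fintype.card (Vv p) * (C4 * S.T ^ o * √d)))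
        + S.b ^ (o - 1) * (p * (√d + √d))) ≤ err)
    (hres : ∀ ω : Eu d × Eu d × Eu d,
        (∀ n, ‖S.Xn n ω - ev ((Par.mk cA α β S.T S.b S.κ S.lam).Ln n)
            (S.xe (Par.mk cA α β S.T S.b S.κ S.lam) ω)‖ ≤ C2 * RtotY S o R2 R3 ω) ∧
        ∀ i, ‖S.gp i ω - (ω.2.1
            - S.lam • (Fv S.w (1 - nt p S.T i ^ 2, S.cp i ω) - Fv S.w (1, S.Y))
            + ev ((Par.mk cA α β S.T S.b S.κ S.lam).Lq i)
              (S.xe (Par.mk cA α β S.T S.b S.κ S.lam) ω))‖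
          ≤ (S.lam * S.κ) ^ 2 * C2 * RtotY S o R2 R3 ω) :
    ((Par.mk cA α β S.T S.b S.κ S.lam).net l).CertU (fun l x => Fv S.w (l, x)) θ S.κ S.lam err C
      S.Y (fun k => S.Xn ((Par.num p).symm k)) (fun ω => S.gp l ω - S.lam • Fv S.w (1, S.Y))
      (fun ω => 2 * C2 * RtotY S o R2 R3 ω) := by
  have hP : IsProbabilityMeasure (gam (Eu d)) := uc_gam_prob
  set P : Par p := Par.mk cA α β S.T S.b S.κ S.lam with hPdef
  obtain ⟨r1, r2, r3, r4⟩ := uc_RtotY (o := o) hS hp hC hm2 h20 hi2 he2 hm3 h30 he3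
  have hgl := Fam.uc_gp_law hS hp l
  have htop : (Par.num p).symm (P.net l).top = Par.nc l := by
    show (Par.num p).symm (Par.num p (Par.nc l)) = _
    rw [Equiv.symm_apply_apply]
  have hroot : (Par.num p).symm (P.net l).root = none := by
    show (Par.num p).symm (Par.num p none) = _
    rw [Equiv.symm_apply_apply]
  have hT0 := hS.T0
  refine ⟨fun i => Fam.uc_Xn_meas hS hp hC _, hgl.measurable.sub_const _, r1.const_mul _, ?_, ?_,
    ?_, ?_, ?_, r3.const_mul _, ?_, fun i => (Fam.uc_Xn_mom hS hp hC _).1,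
    fun i => (Fam.uc_Xn_mom hS hp hC _).2, ?_⟩
  · intro ω
    have := r2 ω
    (clear * - hC2 this; positivity)
  · intro ω
    show S.Xn ((Par.num p).symm (P.net l).root) ω = S.Y
    rw [hroot]
    rfl
  · intro i ω
    have h1 := (hres ω).1 ((Par.num p).symm i)
    rw [uc_ev, Ln_Y, one_smul] at h1
    have h2 := r2 ω
    refine le_trans h1 ?_
    linarith only [mul_nonneg (sub_nonneg.2 hC2) h2, h2]
  · have h1 : (fun ω => S.gp l ω - S.lam • Fv S.w (1, S.Y) + S.lam • Fv S.w (1, S.Y)) = S.gp l := by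
      funext ω
      exact sub_add_cancel _ _
    show (gam3 (Eu d)).map (fun ω => S.gp l ω - S.lam • Fv S.w (1, S.Y)
      + S.lam • Fv S.w (1, S.Y)) = gam (Eu d)
    rw [h1]
    exact hgl.map_eq
  · intro ω
    have h1 := (hres ω).2 l
    rw [uc_ev, Lq_coef, Lq_coef, Lq_coef, Lq_coef, zero_smul, zero_smul, zero_smul, zero_smul,
      zero_add, zero_add, zero_add, zero_add, hl, hθ] at h1
    show ‖ω.2.1 - S.lam • Fv S.w (1 - θ, S.Xn ((Par.num p).symm (P.net l).top) ω)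
      + ∑ j, P.Lq l (Sum.inr ((Par.num p).symm j)) • Fv S.w (P.lv ((Par.num p).symm j),
        S.Xn ((Par.num p).symm j) ω) - (S.gp l ω - S.lam • Fv S.w (1, S.Y))‖
      ≤ |S.lam| * S.κ * (2 * C2 * RtotY S o R2 R3 ω)
    rw [htop]
    have h2 : ω.2.1 - S.lam • Fv S.w (1 - θ, S.Xn (Par.nc l) ω)
      + ∑ j, P.Lq l (Sum.inr ((Par.num p).symm j)) • Fv S.w (P.lv ((Par.num p).symm j),
        S.Xn ((Par.num p).symm j) ω) - (S.gp l ω - S.lam • Fv S.w (1, S.Y))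
      = -(S.gp l ω - (ω.2.1
            - S.lam • (Fv S.w (1 - θ, S.cp l ω) - Fv S.w (1, S.Y))
            + ∑ j, P.Lq l (Sum.inr ((Par.num p).symm j)) •
              S.xe P ω (Sum.inr ((Par.num p).symm j)))) := by
      have e1 : S.Xn (Par.nc l) ω = S.cp l ω := rfl
      have e2 : ∑ j, P.Lq l (Sum.inr ((Par.num p).symm j)) • Fv S.w (P.lv ((Par.num p).symm j),
          S.Xn ((Par.num p).symm j) ω) = ∑ j, P.Lq l (Sum.inr ((Par.num p).symm j)) •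
              S.xe P ω (Sum.inr ((Par.num p).symm j)) := rfl
      rw [smul_sub, e1, e2]
      abel
    rw [h2, norm_neg]
    refine h1.trans ?_
    have h3 := r2 ω
    have h4 := hS.hlam
    have h5 : (S.lam * S.κ) ^ 2 ≤ |S.lam| * S.κ * 2 := by
      have h6 : (S.lam * S.κ) ^ 2 = (|S.lam| * S.κ) * (|S.lam| * S.κ) := by
        rw [mul_pow, ← sq_abs S.lam]; ring
      rw [h6]
      have : 0 ≤ |S.lam| * S.κ := mul_nonneg (abs_nonneg _) hS.κ0.le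
      exact mul_le_mul_of_nonneg_left h4 this
    calc (S.lam * S.κ) ^ 2 * C2 * RtotY S o R2 R3 ω = (S.lam * S.κ) ^ 2 * (C2 * RtotY S o R2 R3 ω) := by
          ring
      _ ≤ |S.lam| * S.κ * 2 * (C2 * RtotY S o R2 R3 ω) :=
          mul_le_mul_of_nonneg_right h5 (by (clear * - hC2 h3; positivity))
      _ = _ := by ring
  · rw [integral_const_mul]
    refine le_trans ?_ herr
    exact mul_le_mul_of_nonneg_left r4 (by positivity)
  · show ∫ ω, ‖S.Xn ((Par.num p).symm (P.net l).top) ω‖ ∂(gam3 (Eu d)) ≤ _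
    rw [htop]
    obtain ⟨-, h2⟩ := Fam.uc_cp_norm hS hp l
    rw [hl, hθ] at h2
    refine le_trans h2 ?_
    rw [hθ']
    have hd : 0 ≤ √(d : ℝ) := Real.sqrt_nonneg _
    have hY := norm_nonneg S.Y
    have hκ := hS.κ0
    have hθ0 : 0 < θ := by rw [← hθ]; (clear * - hT0; positivity)
    have a1 : 0 ≤ √θ * √d := by (clear * - hθ0; positivity)
    have a2 : 0 ≤ θ * S.κ * (‖S.Y‖ + √d) := by (clear * - hθ0 hκ; positivity)
    linarith only [mul_nonneg (sub_nonneg.2 hC1) a2, mul_nonneg (sub_nonneg.2 hC1) a1]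

theorem unit_nodesY {p0 r g e : ℕ} (hg : 1 ≤ g) (hr : r = g + 1 + e) (hp0r' : p0 + 1 = 2 * r ^ 2) :
    ∃ (N : ℕ) (C : ℝ), (1 ≤ C ∧ p0 + 1 ≤ N ∧ (N : ℝ) ≤ (15 * (((p0 + 1 : ℕ) : ℝ) + 1)) ^ 3 ∧
      2 * C ≤ (15 * (((p0 + 1 : ℕ) : ℝ) + 1) ^ 3) ^ 12) ∧
    ∀ θ b κ lam : ℝ, 0 < θ → θ ≤ 1 / (8 * p0) → Rg r * √θ ^ e ≤ 1 → 0 < b → b ≤ 1 / 8 → 0 < κ → κ ≤ 1 →
      |lam| * κ ≤ 2 → ∃ net : Net N,
        net.Good 1 θ (C * (θ + |lam| * √θ + lam ^ 2 * κ * θ / b + b / κ))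
          (C * (lam ^ 2 * κ * √θ / b)) (1 / (2 * p0)) ∧
        ∀ (d : ℕ) (w : ℝ × Eu d → ℝ), Heat κ w → 1 ≤ d → ∀ y : Eu d, ∃ X Z R,
          net.CertU (fun l x => Fv w (l, x)) θ κ lam (C * ((√θ) ^ g / b + b ^ (g - 1)) * √d)
            C y X Z R := by
  have hr2 : 2 ^ 2 ≤ r ^ 2 := Nat.pow_le_pow_left (by omega) 2
  have hp0 : 1 ≤ p0 := by omega
  have hp : 2 ≤ p0 + 1 := by omega
  obtain ⟨cA, α, β, hI⟩ := exists_rules (by omega) hp0r'
  have hKq := bd_K (Nat.cast_nonneg (p0 + 1))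
  generalize 15 * (((p0 + 1 : ℕ) : ℝ) + 1) ^ 3 = K at hI hKq ⊢
  have hK := hI.K0
  have hK1 : K ≤ K ^ 2 :=
    le_self_pow₀ (by linarith only [hKq, Nat.cast_nonneg (α := ℝ) (p0 + 1)]) two_ne_zero
  obtain ⟨C1, ⟨hC1, u1⟩, H1⟩ := net_goodY hp0 hI hKq
  obtain ⟨C2, ⟨hC2, u2⟩, H2⟩ := unit_resY (o := g + 1) hp hI (by omega) (by omega) hKq
  obtain ⟨C3', ⟨-, u3'⟩, H3⟩ := lam_nodesY hp hI (by omega) (Rg_nonneg r) le_rfl
  obtain ⟨C4', ⟨-, u4'⟩, H4⟩ := jvp_nodesY hp hI (by omega) (Rg_nonneg r) le_rfl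
  obtain ⟨C3, hC3e⟩ : ∃ C3, C3 = 4 * K := ⟨_, rfl⟩
  obtain ⟨C4, hC4e⟩ : ∃ C4, C4 = 2 * K := ⟨_, rfl⟩
  rw [← hC3e] at u3'
  rw [← hC4e] at u4'
  have hC3 : 0 ≤ C3 := by linarith only [hC3e, hK]
  have hC4 : 0 ≤ C4 := by linarith only [hC4e, hK]
  have u3 : C3 ≤ 4 * K ^ 2 := by linarith only [hC3e, hK1]
  have u4 : C4 ≤ 2 * K ^ 2 := by linarith only [hC4e, hK1]
  set V : ℝ := ((Fintype.card (Vv (p0 + 1)) : ℕ) : ℝ) with hV
  have hV0 : 0 ≤ V := Nat.cast_nonneg _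
  set q : ℝ := ((p0 + 1 : ℕ) : ℝ) with hq
  have hq0 : 0 ≤ q := Nat.cast_nonneg _
  set D : ℝ := 2 * C2 * (C3 + q * (V * C4) + q * 2) with hD
  have hD0 : 0 ≤ D := by (clear * - hC2 hC3 hp0 hC4; positivity)
  have hV2 : V = 2 * q + 1 := by
    rw [hV, hq]
    simp only [Vv, Fintype.card_option, Fintype.card_prod, Fintype.card_bool, Fintype.card_fin]
    push_cast
    ring
  have hN2 : ((Fintype.card (Nd (p0 + 1)) : ℕ) : ℝ) = q + q * (V * q) + 1 := by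
    rw [hV, hq]
    simp only [Nd, Fintype.card_option, Fintype.card_prod, Fintype.card_sum, Fintype.card_fin]
    push_cast
    ring
  have hN3 : p0 + 1 ≤ Fintype.card (Nd (p0 + 1)) := by
    simp only [Nd, Fintype.card_option, Fintype.card_sum, Fintype.card_fin]
    omega
  refine ⟨Fintype.card (Nd (p0 + 1)), C1 + D, ⟨by linarith only [hD0, hC1], hN3,
    by rw [hN2, hV2]; exact bd_card hq0,
    by rw [hD, hV2]; exact bd_unit hq0 hKq u1 (by linarith only [hC2]) u2 hC3 u3 hC4 u4⟩, ?_⟩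
  intro θ b κ lam hθ hθ1 hZ hb hb1 hκ hκ1 hlam
  refine ⟨(Par.mk cA α β (√θ) b κ lam).net (Fin.last p0), ?_, ?_⟩
  · refine uc_good_mono (H1 θ b κ lam hθ hθ1 hb hb1 hκ hκ1 hlam) ?_ ?_
    · exact mul_le_mul_of_nonneg_right (by linarith only [hD0]) (by (clear * - hθ hκ hb; positivity))
    · exact mul_le_mul_of_nonneg_right (by linarith only [hD0]) (by (clear * - hκ hθ hb; positivity))
  · intro d w hw hd y
    have hT0 : 0 < √θ := Real.sqrt_pos.2 hθ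
    have hTs : √θ ^ 2 = θ := Real.sq_sqrt hθ.le
    have hp0r : (1 : ℝ) ≤ p0 := by exact_mod_cast hp0
    have hθ8 : θ ≤ 1 / 8 := hθ1.trans (one_div_le_one_div_of_le (by norm_num) (by linarith only [hp0r]))
    have hT2 : √θ ^ 2 ≤ 1 / 8 := hTs.trans_le hθ8
    have hTh : √θ ≤ 1 / 2 := by (refine le_of_not_gt fun hng_ => ?_; linarith only [mul_pos hκ (sub_pos.2 hng_), mul_pos hT0 (sub_pos.2 hng_), mul_nonneg (sub_nonneg.2 hκ1) (le_of_lt (sub_pos.2 hng_)), mul_nonneg (le_of_lt hκ) (sub_nonneg.2 hT2), mul_nonneg (sub_nonneg.2 hκ1) (sub_nonneg.2 hT2)])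
    have hnt : ∀ i : Fin (p0 + 1), nt (p0 + 1) (√θ) i ^ 2 ≤ 1 / 8 := fun i =>
      (pow_le_pow_left₀ (jvp_nt_mem hp hT0 i).1 (jvp_nt_mem hp hT0 i).2 2).trans hT2
    obtain ⟨A, Q, hLF⟩ := exists_LFl (w := w) (κ := κ) (l0 := 1) (lam := lam)
      fun Y => ⟨hw, hκ, hκ1, by norm_num, le_rfl, hlam⟩
    have hAp : ∀ i : Fin (p0 + 1), ∃ A, PFl w (1 - nt (p0 + 1) (√θ) i ^ 2) A := fun i =>
      exists_PFl hw hκ hκ1 (by have := hnt i; linarith only [this]) (by (refine le_of_not_gt fun hng_ => ?_; linarith only [mul_nonneg (le_of_lt (sub_pos.2 hng_)) (sq_nonneg (nt (p0 + 1) (√θ) i)), mul_pos (sub_pos.2 hng_) (sub_pos.2 hng_)]))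
    choose Ap hAp using hAp
    obtain ⟨Cg, CP, hC⟩ := exists_carrier d
    set S : Fam d (p0 + 1) := ⟨w, κ, lam, √θ, b, y, A, Q, Ap, Cg, CP⟩ with hS
    have hSok : S.Ok := ⟨hw, hκ, hκ1, hlam, hT0, hT2, hb, hb1, hLF, hAp⟩
    obtain ⟨R2, m2, n2, i2, e2, h2⟩ := H3 d w κ lam A Q hw hκ hκ1 hlam hLF y (√θ) hT0 hTh
    have hR3 := fun i : Fin (p0 + 1) => H4 d w κ (1 - nt (p0 + 1) (√θ) i ^ 2) (Ap i) hw hκ hκ1
      (by have := hnt i; linarith only [this]) (by (refine le_of_not_gt fun hng_ => ?_; linarith only [mul_nonneg (le_of_lt (sub_pos.2 hng_)) (sq_nonneg (nt (p0 + 1) (√θ) i)), mul_pos (sub_pos.2 hng_) (sub_pos.2 hng_)])) (hAp i) (√θ)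
      hT0 hTh
    choose R3 m3 n3 e3 h3 using hR3
    replace e2 := e2.trans (bd_ord (k := g + 1 + 1) hC3 hT0.le u3' hZ (by omega))
    replace e3 := fun i c => And.intro (e3 i c).1
      ((e3 i c).2.trans (bd_ord (k := g + 1) hC4 hT0.le u4' hZ hr))
    have hres := H2 d S hSok hC R2 R3 n2 n3 h2 h3
    refine ⟨_, _, _, uc_certY (C := C1 + D) hp hSok hC hTs rfl (l := Fin.last p0) ?_ hC2
      (by linarith only [hD0, hC1]) m2 n2 i2 e2 m3 n3 e3 ?_ hres⟩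
    · show ((((Fin.last p0 : Fin (p0 + 1)) : ℕ) : ℝ) + 1) / ((p0 + 1 : ℕ) : ℝ) * √θ = √θ
      have : ((Fin.last p0 : Fin (p0 + 1)) : ℕ) = p0 := rfl
      rw [this]
      push_cast
      rw [div_self (by positivity), one_mul]
    · have hd0 : 0 ≤ √(d : ℝ) := Real.sqrt_nonneg _
      have hT1 : √θ ≤ 1 := hTh.trans (by norm_num)
      have hTp : 0 ≤ √θ ^ g := by positivity
      have c1 : √θ ^ (g + 1 + 1) ≤ √θ ^ g / b := by
        have h4 : √θ ^ (g + 1 + 1) ≤ √θ ^ g :=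
          pow_le_pow_of_le_one hT0.le hT1 (by omega)
        refine h4.trans ?_
        rw [le_div_iff₀ hb]
        (refine le_of_not_gt fun hng_ => ?_; linarith only [mul_nonneg (sub_nonneg.2 hTh) (le_of_lt (sub_pos.2 hng_)), mul_pos hT0 (sub_pos.2 hng_), mul_nonneg (sub_nonneg.2 hT1) hTp, mul_nonneg (sub_nonneg.2 hb1) hTp, mul_nonneg (le_of_lt hT0) hTp])
      have c2 : b⁻¹ * √θ ^ (g + 1) ≤ √θ ^ g / b := by
        have h4 : √θ ^ (g + 1) ≤ √θ ^ g := pow_le_pow_of_le_one hT0.le hT1 (by omega)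
        rw [div_eq_inv_mul]
        exact mul_le_mul_of_nonneg_left h4 (by positivity)
      have c3 : b ^ (g + 1 - 1) ≤ b ^ (g - 1) :=
        pow_le_pow_of_le_one hb.le (by linarith only [hb1]) (by omega)
      set E := √θ ^ g / b + b ^ (g - 1) with hE
      have hE1 : √θ ^ g / b ≤ E := by
        have : 0 ≤ b ^ (g - 1) := by positivity
        linarith only [this]
      have hE2 : b ^ (g - 1) ≤ E := by
        have : 0 ≤ √θ ^ g / b := by positivity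
        linarith only [this]
      have hE0 : 0 ≤ E := by positivity
      show 2 * C2 * (C3 * √θ ^ (g + 1 + 1) * √d + b⁻¹ * (q * (V * (C4 * √θ ^ (g + 1) * √d)))
        + b ^ (g + 1 - 1) * (q * (√d + √d))) ≤ (C1 + D) * E * √d
      have d1 : C3 * √θ ^ (g + 1 + 1) * √d ≤ C3 * E * √d :=
        mul_le_mul_of_nonneg_right (mul_le_mul_of_nonneg_left (c1.trans hE1) hC3) hd0
      have d2 : b⁻¹ * (q * (V * (C4 * √θ ^ (g + 1) * √d))) ≤ q * (V * C4) * E * √d := by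
        have : b⁻¹ * (q * (V * (C4 * √θ ^ (g + 1) * √d)))
            = q * (V * C4) * (b⁻¹ * √θ ^ (g + 1)) * √d := by ring
        rw [this]
        exact mul_le_mul_of_nonneg_right (mul_le_mul_of_nonneg_left (c2.trans hE1)
          (by (clear * - hp0 hC4; positivity))) hd0
      have d3 : b ^ (g + 1 - 1) * (q * (√d + √d)) ≤ q * 2 * E * √d := by
        have : b ^ (g + 1 - 1) * (q * (√d + √d)) = q * 2 * b ^ (g + 1 - 1) * √d := by ring
        rw [this]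
        exact mul_le_mul_of_nonneg_right (mul_le_mul_of_nonneg_left (c3.trans hE2)
          (by positivity)) hd0
      have d4 : 0 ≤ C1 * E * √d := by positivity
      calc _ ≤ 2 * C2 * (C3 * E * √d + q * (V * C4) * E * √d + q * 2 * E * √d) := by
            refine mul_le_mul_of_nonneg_left ?_ (by positivity)
            linarith only [d2, d1, d3]
        _ = D * E * √d := by rw [hD]; ring
        _ ≤ _ := by linarith only [d4]

/-- `NodesAt` for one step `θ`, with the margin `1 / (2 p)` and an error of order `g`. -/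
def NodesY (p g N : ℕ) (C θ : ℝ) : Prop :=
  ∀ s b κ : ℝ, 0 < s → s ≤ 1 / 4 → 0 < b → b ≤ 1 / 8 → |κ| * √s ≤ 1 →
    ∃ net : Net N,
      net.Good s θ (C * (θ * s + |κ| * √(θ * s) + κ ^ 2 * (θ * s) / b + b))
        (C * (κ ^ 2 * √(θ * s) / b)) (1 / (2 * p)) ∧
      ∀ (d : ℕ) (V : Eu d → ℝ) (G : Eu d → Eu d) (H : Eu d → Eu d →L[ℝ] Eu d), Pot V G H →
        1 ≤ d → ∀ y : Eu d, ∃ X Z R,
          net.Cert G (Fp V G) s θ κ (C * ((√θ) ^ g / b + b ^ (g - 1)) * √d) C y X Z R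

theorem nodesY {p r g e : ℕ} (hg1 : 1 ≤ g) (hr : r = g + 1 + e) (hpr : p + 1 = 2 * r ^ 2) :
    ∃ (N : ℕ) (C : ℝ), (1 ≤ C ∧ p + 1 ≤ N ∧ (N : ℝ) ≤ (15 * (((p + 1 : ℕ) : ℝ) + 1)) ^ 3 ∧
      C ≤ (15 * (((p + 1 : ℕ) : ℝ) + 1) ^ 3) ^ 12) ∧
      ∀ θ : ℝ, 0 < θ → θ ≤ 1 / (8 * p) → Rg r * √θ ^ e ≤ 1 → NodesY p g N C θ := by
  have hr2 : 2 ^ 2 ≤ r ^ 2 := Nat.pow_le_pow_left (by omega) 2
  have hp : 2 ≤ p := by omega
  obtain ⟨N, C0, ⟨hC0, u0, u1, u2⟩, h⟩ := unit_nodesY hg1 hr hpr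
  refine ⟨N, 2 * C0, ⟨by linarith only [hC0], u0, u1, u2⟩, ?_⟩
  intro θ hθ hθp hZ s b κ hs hs4 hb hb8 hκ
  have h1 : 0 < √s := Real.sqrt_pos.2 hs
  have h2 : √s * √s = s := Real.mul_self_sqrt hs.le
  have hp2 : (2 : ℝ) ≤ p := by exact_mod_cast hp
  have hθ8 : θ ≤ 1 / 8 := by
    refine hθp.trans ?_
    rw [div_le_div_iff₀ (by positivity) (by norm_num)]
    linarith only [hp2]
  have hlam : |κ / √s| * (2 * s) ≤ 2 := by
    rw [abs_div, abs_of_pos h1]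
    have h6 : |κ| / √s * (2 * s) = 2 * (|κ| * √s) := by
      rw [div_mul_eq_mul_div, div_eq_iff h1.ne', mul_assoc 2, mul_assoc |κ|, h2]
      ring
    rw [h6]
    linarith only [hκ]
  obtain ⟨net, hg, hc⟩ := h θ b (2 * s) (κ / √s) hθ hθp hZ hb hb8 (by positivity) (by linarith only [hs4]) hlam
  refine ⟨nfNet net s, nf_good hC0 hs hθ hb hg, ?_⟩
  intro d V G H hV hd y
  obtain ⟨X, Z, R, hX⟩ := hc d (wS V s) (heat_wS hV hs) hd ((√s)⁻¹ • y)
  have h3 := nf_cert hC0 hs hs4 hθ hθ8 hg hV y hX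
  refine ⟨fun i ω => √s • X i ω, Z, fun ω => 2 * R ω, ?_⟩
  have h4 : 2 * C0 * ((√θ) ^ g / b + b ^ (g - 1)) * √(d : ℝ) =
      2 * (C0 * ((√θ) ^ g / b + b ^ (g - 1)) * √(d : ℝ)) := by ring
  rw [h4]
  exact h3

theorem df_nodeY {d p : ℕ} {w : ℝ × Eu d → ℝ} {κ l0 : ℝ} {A : ℝ → Eu d × Eu d → Eu d}
    (hA : PFl w l0 A) {Y : Eu d} (hD : (Dat.mk w κ l0 0 Y).Ok) {cA : Fin p → Fin p → ℝ}
    {α β : Fin (p + 1) → ℝ} {K : ℝ} {o : ℕ} (hI : Rules p o cA α β K) (ho : 1 ≤ o) {T : ℝ} (hT : 0 < T)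
    (hT1 : T ≤ 1 / 2) (a : Eu d) (i : Fin p) :
    ‖A (df_nt p T i) (Y, a) - (a - T • ∑ j, cA i j • Fv w (l0 - df_nt p T j ^ 2,
        Y + df_nt p T j • A (df_nt p T j) (Y, a)))‖ ≤ K * T ^ o * df_I o w κ l0 T A (Y, a) := by
  obtain ⟨hTow, h0, -⟩ := hA.tower (κ := κ) hD hT hT1 o a
  set h : ℕ → ℝ → Eu d := fun j t => vecD (Dat.mk w κ l0 0 Y) j
    (fun k => fF (Dat.mk w κ l0 0 Y) (ek k)) (t, (A t (Y, a), 0)) with hh
  have hmem : ∀ j : Fin p, df_nt p T j ∈ Icc 0 T := fun j => ⟨df_nt_nonneg hT.le j, df_nt_le hT.le j⟩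
  have hsub : Icc 0 T ⊆ IT := Icc_subset_Icc_right hT1
  have herr := hI.errA o ho le_rfl (Eu d) T hT h hTow i
  have hc0 : ContinuousOn (h 0) (Icc 0 T) := itp_cont hTow (Nat.zero_le _)
  have hi : (df_nt p T i) ∈ Icc 0 T := hmem i
  have hftc : ∫ t in (0 : ℝ)..(df_nt p T i), h 0 t = a - A (df_nt p T i) (Y, a) := by
    have h1 : ∫ t in (0 : ℝ)..(df_nt p T i), -h 0 t
        = A (df_nt p T i) (Y, a) - A 0 (Y, a) := by
      apply intervalIntegral.integral_eq_sub_of_hasDerivAt_of_le (f := fun t => A t (Y, a))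
        (f' := fun t => -h 0 t) hi.1
      · intro t ht
        exact ((hA.dA Y a t (hsub ⟨ht.1, ht.2.trans hi.2⟩)).continuousWithinAt).mono
          ((Icc_subset_Icc_right hi.2).trans hsub)
      · intro t ht
        have ht' : t ∈ Icc 0 T := ⟨ht.1.le, ht.2.le.trans hi.2⟩
        have h2 := (hA.dA Y a t (hsub ht')).hasDerivAt
          (Icc_mem_nhds ht.1 (ht.2.trans_le (hi.2.trans hT1)))
        rw [← h0 t ht'] at h2
        exact h2
      · apply ContinuousOn.intervalIntegrable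
        rw [uIcc_of_le hi.1]
        exact (hc0.mono (Icc_subset_Icc_right hi.2)).neg
    rw [intervalIntegral.integral_neg, hA.A0] at h1
    rw [← neg_sub (A (df_nt p T i) (Y, a)) a, ← h1, neg_neg]
  have e1 : ∀ j : Fin p, h 0 (((j : ℝ) + 1) / p * T) = Fv w (l0 - df_nt p T j ^ 2,
      Y + df_nt p T j • A (df_nt p T j) (Y, a)) := fun j => h0 _ (hmem j)
  have e2 : (∫ t in (0 : ℝ)..(((i : ℝ) + 1) / p * T), h 0 t)
      = a - A (df_nt p T i) (Y, a) := hftc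
  rw [e2] at herr
  simp only [e1] at herr
  rw [← norm_neg]
  refine le_trans (le_of_eq ?_) herr
  congr 1
  abel

theorem df_resY {V : Eu d → ℝ} {G : Eu d → Eu d} {H : Eu d → Eu d →L[ℝ] Eu d} (hV : Pot V G H) {s θ : ℝ} (hs : 0 < s) (hs1 : s ≤ 1 / 4) (hθ : 0 < θ)
    (hθ1 : θ ≤ 1 / 16) {A : ℝ → Eu d × Eu d → Eu d} (hA : PFl (wS V s) 1 A) {p : ℕ}
    {cA : Fin p → Fin p → ℝ} {α β : Fin (p + 1) → ℝ} {K : ℝ} {o : ℕ} (hI : Rules p o cA α β K)
    (ho : 1 ≤ o)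
    (y a : Eu d) (i : Fin p) :
    ‖df_c s (df_nt p (√θ) i) A y a - (y + (√s * df_nt p (√θ) i) • a
        + ∑ j, (-(s * df_nt p (√θ) i * √θ * cA i j)) •
          Fp V G (s * (1 - df_nt p (√θ) j ^ 2)) (df_c s (df_nt p (√θ) j) A y a))‖
      ≤ √s * √θ * (K * √θ ^ o * df_I o (wS V s) (2 * s) 1 (√θ) A ((√s)⁻¹ • y, a)) := by
  have hT : 0 < √θ := Real.sqrt_pos.2 hθ
  have hs0 : 0 < √s := Real.sqrt_pos.2 hs
  have hT1 : √θ ≤ 1 / 4 := by
    rw [Real.sqrt_le_left (by norm_num)]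
    linarith only [hθ1]
  set Y := (√s)⁻¹ • y with hY
  have h1 := df_nodeY hA (df_ok hV hs hs1 Y) hI ho hT (by linarith only [hT1]) a i
  have hn0 := df_nt_nonneg (p := p) hT.le
  have hnT := df_nt_le (p := p) hT.le
  have e1 : ∀ j : Fin p, Fv (wS V s) (1 - df_nt p (√θ) j ^ 2,
      Y + df_nt p (√θ) j • A (df_nt p (√θ) j) (Y, a))
      = √s • Fp V G (s * (1 - df_nt p (√θ) j ^ 2)) (df_c s (df_nt p (√θ) j) A y a) := fun j => by
    rw [Fv_wS hV hs]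
    · rfl
    · show 0 < 1 - df_nt p (√θ) j ^ 2
      (refine lt_of_not_ge fun hng_ => ?_; linarith only [mul_nonneg (sub_nonneg.2 hng_) (hn0 j), mul_nonneg (sub_nonneg.2 hT1) (sub_nonneg.2 hng_), mul_nonneg (sub_nonneg.2 hng_) (sub_nonneg.2 (hnT j)), mul_nonneg (sub_nonneg.2 (hnT j)) (sub_nonneg.2 (hnT j)), mul_nonneg (sub_nonneg.2 hT1) (sub_nonneg.2 (hnT j)), mul_nonneg (sub_nonneg.2 hT1) (sub_nonneg.2 hT1), mul_nonneg (sub_nonneg.2 hT1) (hn0 j), mul_nonneg (hn0 j) (sub_nonneg.2 (hnT j))])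
  simp only [e1] at h1
  have e2 : df_c s (df_nt p (√θ) i) A y a - (y + (√s * df_nt p (√θ) i) • a
        + ∑ j, (-(s * df_nt p (√θ) i * √θ * cA i j)) •
          Fp V G (s * (1 - df_nt p (√θ) j ^ 2)) (df_c s (df_nt p (√θ) j) A y a))
      = (√s * df_nt p (√θ) i) • (A (df_nt p (√θ) i) (Y, a) - (a - √θ • ∑ j, cA i j •
          √s • Fp V G (s * (1 - df_nt p (√θ) j ^ 2)) (df_c s (df_nt p (√θ) j) A y a))) := by
    have e3 : ∑ j, (-(s * df_nt p (√θ) i * √θ * cA i j)) •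
          Fp V G (s * (1 - df_nt p (√θ) j ^ 2)) (df_c s (df_nt p (√θ) j) A y a)
        = -((√s * df_nt p (√θ) i) • √θ • ∑ j, cA i j •
          √s • Fp V G (s * (1 - df_nt p (√θ) j ^ 2)) (df_c s (df_nt p (√θ) j) A y a)) := by
      rw [Finset.smul_sum, Finset.smul_sum, ← Finset.sum_neg_distrib]
      refine Finset.sum_congr rfl fun j _ => ?_
      rw [smul_smul, smul_smul, smul_smul, ← neg_smul]
      congr 1
      nth_rewrite 1 [← Real.mul_self_sqrt hs.le]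
      ring
    rw [e3, df_c_eq hs (df_nt p (√θ) i) A y a, ← hY, smul_sub, smul_sub]
    abel
  rw [e2, norm_smul, Real.norm_of_nonneg (mul_nonneg hs0.le (hn0 i))]
  exact mul_le_mul (mul_le_mul_of_nonneg_left (hnT i) hs0.le) h1 (norm_nonneg _)
    (by positivity)

/-- `DownAt` with an error of order `g`. -/
def DownY (p g : ℕ) (C s θ : ℝ) : Prop :=
  ∃ net : DNet p, net.Good s θ (C * (θ * s)) ∧
    ∀ (d : ℕ) (V : Eu d → ℝ) (G : Eu d → Eu d) (H : Eu d → Eu d →L[ℝ] Eu d), Pot V G H →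
      1 ≤ d → ∃ c : Eu d → Eu d → Eu d, Continuous (fun z : Eu d × Eu d => c z.1 z.2) ∧
        (∀ y y' a, ‖c y a - c y' a‖ ≤ (1 - θ * s / 4) * ‖y - y'‖) ∧
        ((gibbs (Wp V s)).prod (gam (Eu d))).map (fun z => c z.1 z.2)
          = gibbs (Wp V ((1 - θ) * s)) ∧
        ∀ y, ∃ (X : Fin p → Eu d → Eu d) (R : Eu d → ℝ),
          (∀ i, Measurable (X i)) ∧ Measurable R ∧ (∀ a, 0 ≤ R a) ∧
          (∀ i a, ‖X i a - (y + net.t i • a
            + ∑ j, net.w i j • Fp V G (net.lev j) (X j a))‖ ≤ R a) ∧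
          (∀ a, ‖c y a - (y + √(θ * s) • a
            + ∑ j, net.wo j • Fp V G (net.lev j) (X j a))‖ ≤ R a) ∧
          Integrable R (gam (Eu d)) ∧ ∫ a, R a ∂(gam (Eu d)) ≤ C * (√θ) ^ g * √d ∧
          (∀ i, Integrable (fun a => ‖X i a‖) (gam (Eu d))) ∧
          (∀ i, ∫ a, ‖X i a‖ ∂(gam (Eu d)) ≤ 2 * (‖y‖ + √d))

theorem downY {p r g e : ℕ} (hr2 : 2 ≤ r) (hr : r = g + e) (hpr : p = 2 * r ^ 2) :
    ∃ C : ℝ, (1 ≤ C ∧ C ≤ 2 * (15 * ((p : ℝ) + 1) ^ 3)) ∧ ∀ s θ : ℝ, 0 < s → s ≤ 1 / 4 → 0 < θ →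
      θ ≤ 1 / (8 * p) → Rg r * √θ ^ e ≤ 1 → DownY p g C s θ := by
  have hr3 : 2 ^ 2 ≤ r ^ 2 := Nat.pow_le_pow_left hr2 2
  have hp : 2 ≤ p := by omega
  obtain ⟨cA, α, β, hI⟩ := exists_rules hr2 hpr
  have hK1 : 1 ≤ 15 * ((p : ℝ) + 1) ^ 3 :=
    le_trans (by linarith only [Nat.cast_nonneg (α := ℝ) p]) (bd_K (Nat.cast_nonneg p))
  generalize 15 * ((p : ℝ) + 1) ^ 3 = K at hI hK1 ⊢
  clear hpr hr3
  obtain ⟨q, rfl⟩ : ∃ q, p = q + 1 := ⟨p - 1, by omega⟩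
  obtain ⟨o, rfl⟩ : ∃ o, r = o + 1 := ⟨r - 1, by omega⟩
  have hK := hI.K0
  have hC1 := Rg_nonneg (o + 1)
  have hL1 := path_L1X o hC1 (Rg_mono (Nat.le_succ o))
  generalize Rg (o + 1) = C1 at *
  refine ⟨1 + K, ⟨by linarith only [hK], by linarith only [hK1]⟩,
    fun s θ hs hs1 hθ hθp hZ => ?_⟩
  have hp0 : 0 < q + 1 := Nat.succ_pos q
  have hθ1 : θ ≤ 1 / 16 := by
    refine hθp.trans ?_
    have h2 : (2 : ℝ) ≤ ((q + 1 : ℕ) : ℝ) := by exact_mod_cast hp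
    rw [div_le_div_iff₀ (by positivity) (by norm_num)]
    linarith only [h2]
  have hT : 0 < √θ := Real.sqrt_pos.2 hθ
  have hs0 : 0 < √s := Real.sqrt_pos.2 hs
  have hs2 := df_sqrt_s hs1
  have hT2 : √θ ^ 2 = θ := Real.sq_sqrt hθ.le
  have hT1 : √θ ≤ 1 / 4 := by
    rw [Real.sqrt_le_left (by norm_num)]
    linarith only [hθ1]
  have hTI : √θ ∈ IT := ⟨hT.le, by linarith only [hT1]⟩
  have hnI : ∀ i : Fin (q + 1), df_nt (q + 1) (√θ) i ∈ IT := fun i =>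
    ⟨df_nt_nonneg hT.le i, (df_nt_le hT.le i).trans (by linarith only [hT1])⟩
  refine ⟨df_net (q + 1) hp0 cA s θ, df_good hp0 hI.A_le
    (by linarith only []) hs hθ, fun d V G H hV hd => ?_⟩
  have hw := heat_wS hV hs
  have hκ0 : 0 < 2 * s := by positivity
  have hκ1 : 2 * s ≤ 1 := by linarith only [hs1]
  obtain ⟨A, hA⟩ := exists_PFl hw hκ0 hκ1 (l0 := 1) (by norm_num) le_rfl
  obtain ⟨hmeas, hint⟩ := hL1 d (wS V s) (2 * s) 1 A hw hκ0 hκ1 (by norm_num) le_rfl hA (√θ) hT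
    (by linarith only [hT1])
  have hcc : Continuous (fun z : Eu d × Eu d => df_c s (√θ) A z.1 z.2) := df_c_cont hA hTI
  refine ⟨df_c s (√θ) A, hcc, fun y y' a => ?_, ?_, fun y => ?_⟩
  · -- contraction
    have hF : ∀ l ∈ Lev, ∀ x y, (3 / 4 * s) * ‖x - y‖ ^ 2
        ≤ inner ℝ (Fv (wS V s) (l, x) - Fv (wS V s) (l, y)) (x - y) := by
      intro l hl x y
      have hl0 : 0 < l := lt_of_lt_of_le (by norm_num) hl.1
      have h1 := Fp_strong hV (s := s * l) (by positivity)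
        (by (refine le_of_not_gt fun hng_ => ?_; linarith only [mul_pos hθ (sub_pos.2 hng_), mul_nonneg (sub_nonneg.2 hθ1) (le_of_lt (sub_pos.2 hng_)), mul_nonneg (sub_nonneg.2 hl.2) (sub_nonneg.2 hl.2), mul_nonneg (sub_nonneg.2 hs1) (le_of_lt hl0), mul_nonneg (le_of_lt hl0) (sub_nonneg.2 hl.2)])) (√s • x) (√s • y)
      rw [Fv_wS hV hs (p := (l, x)) hl0, Fv_wS hV hs (p := (l, y)) hl0]
      simp only
      rw [← smul_sub, norm_smul, mul_pow, Real.norm_of_nonneg hs0.le, Real.sq_sqrt hs.le,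
        inner_smul_right] at h1
      rw [← smul_sub, real_inner_smul_left]
      linarith only [h1]
    have h2 := PFl.contract hw hκ0 hκ1 (by norm_num) le_rfl hA (m := 3 / 4 * s)
      (by linarith only []) hF hTI (by rw [hT2]; (refine le_of_not_gt fun hng_ => ?_; linarith only [mul_pos hT (sub_pos.2 hng_), mul_nonneg (sub_nonneg.2 hT1) (le_of_lt (sub_pos.2 hng_)), mul_nonneg (sub_nonneg.2 hκ1) (sub_nonneg.2 hκ1), mul_nonneg (sub_nonneg.2 hθ1) (le_of_lt hκ0), mul_nonneg (le_of_lt hκ0) (sub_nonneg.2 hκ1)])) ((√s)⁻¹ • y) ((√s)⁻¹ • y') a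
    rw [hT2] at h2
    have h3 : df_c s (√θ) A y a - df_c s (√θ) A y' a
        = √s • (((√s)⁻¹ • y + √θ • A (√θ) ((√s)⁻¹ • y, a))
          - ((√s)⁻¹ • y' + √θ • A (√θ) ((√s)⁻¹ • y', a))) := by
      unfold df_c
      rw [smul_sub]
    rw [h3, norm_smul, Real.norm_of_nonneg hs0.le]
    have h4 : ‖(√s)⁻¹ • y - (√s)⁻¹ • y'‖ = (√s)⁻¹ * ‖y - y'‖ := by
      rw [← smul_sub, norm_smul, norm_inv, Real.norm_of_nonneg hs0.le]
    rw [h4] at h2
    calc √s * ‖((√s)⁻¹ • y + √θ • A (√θ) ((√s)⁻¹ • y, a))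
          - ((√s)⁻¹ • y' + √θ • A (√θ) ((√s)⁻¹ • y', a))‖
        ≤ √s * ((1 - 3 / 4 * s * θ / 2) * ((√s)⁻¹ * ‖y - y'‖)) :=
          mul_le_mul_of_nonneg_left h2 hs0.le
      _ = (1 - 3 / 4 * s * θ / 2) * ‖y - y'‖ := by
          field_simp
      _ ≤ (1 - θ * s / 4) * ‖y - y'‖ := by
          refine mul_le_mul_of_nonneg_right ?_ (norm_nonneg _)
          (refine le_of_not_gt fun hng_ => ?_; linarith only [mul_pos (sub_pos.2 hng_) (mul_pos hs hθ), mul_pos (mul_pos hs hθ) (mul_pos hs hθ)])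
  · -- law
    have hWs := Wp_adm hV hs
    have hs' : 0 < (1 - θ) * s := by
      have : 0 < 1 - θ := by linarith only [hθ1]
      positivity
    have hlt : (1 - θ) * s < s := by (refine lt_of_not_ge fun hng_ => ?_; linarith only [mul_nonneg (sub_nonneg.2 hκ1) (sub_nonneg.2 hng_), mul_nonneg (sub_nonneg.2 hθ1) (sub_nonneg.2 hng_), mul_nonneg (le_of_lt hκ0) (sub_nonneg.2 hng_), mul_pos hθ hs'])
    have hWs' := Wp_adm hV hs'
    have i1 := hWs.isProb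
    have i2 := hWs'.isProb
    have i3 : IsProbabilityMeasure (((gibbs (Wp V s)).prod (gam (Eu d))).map
        (fun z => df_c s (√θ) A z.1 z.2)) :=
      Measure.isProbabilityMeasure_map hcc.measurable.aemeasurable
    refine Measure.ext fun B hB => ?_
    rw [← measureReal_eq_measureReal_iff]
    have hmB : Measurable (B.indicator fun _ : Eu d => (1 : ℝ)) := measurable_const.indicator hB
    have hbB : ∀ x : Eu d, |B.indicator (fun _ : Eu d => (1 : ℝ)) x| ≤ 1 := fun x => by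
      by_cases hx : x ∈ B
      · rw [indicator_of_mem hx]; simp
      · rw [indicator_of_notMem hx]; simp
    have e1 : ((((gibbs (Wp V s)).prod (gam (Eu d))).map
        (fun z => df_c s (√θ) A z.1 z.2))).real B
        = ∫ y, ∫ a, B.indicator (fun _ : Eu d => (1 : ℝ)) (df_c s (√θ) A y a) ∂(gam (Eu d))
          ∂(gibbs (Wp V s)) := by
      have h5 := integral_indicator_const (μ := (((gibbs (Wp V s)).prod (gam (Eu d))).map
        (fun z => df_c s (√θ) A z.1 z.2))) (1 : ℝ) hB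
      rw [smul_eq_mul, mul_one] at h5
      rw [← h5, integral_map hcc.measurable.aemeasurable hmB.aestronglyMeasurable]
      exact integral_prod _ (Integrable.of_bound (hmB.comp hcc.measurable).aestronglyMeasurable 1
        (Eventually.of_forall fun z => hbB _))
    have e2 : (gibbs (Wp V ((1 - θ) * s))).real B
        = ∫ x, B.indicator (fun _ : Eu d => (1 : ℝ)) x ∂(gibbs (Wp V ((1 - θ) * s))) := by
      rw [integral_indicator_const _ hB, smul_eq_mul, mul_one]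
    rw [e1, e2, ← mix_law hV hs' hlt hmB ⟨1, hbB⟩]
    congr 1
    funext y
    exact df_law hs hθ hθ1 hA y hmB
  · -- nodes
    set Y := (√s)⁻¹ • y with hY
    obtain ⟨hi1, hi2⟩ := hint Y
    have hmI : Measurable (fun a : Eu d => df_I (o + 1) (wS V s) (2 * s) 1 (√θ) A (Y, a)) :=
      hmeas.comp (by fun_prop : Measurable fun a : Eu d => (Y, a))
    have hlast := df_nt_last hp0 (√θ)
    refine ⟨fun i a => df_c s (df_nt (q + 1) (√θ) i) A y a,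
      fun a => √s * √θ * (K * √θ ^ (o + 1) * df_I (o + 1) (wS V s) (2 * s) 1 (√θ) A (Y, a)),
      fun i => ?_, ?_, fun a => ?_, fun i a => ?_, fun a => ?_, ?_, ?_, fun i => ?_, fun i => ?_⟩
    · exact ((df_c_cont (s := s) hA (hnI i)).comp
        (by fun_prop : Continuous fun a : Eu d => (y, a))).measurable
    · exact (hmI.const_mul _).const_mul _
    · have := df_I_nonneg (o + 1) (wS V s) (2 * s) 1 hT.le A (Y, a)
      positivity
    · exact df_resY hV hs hs1 hθ hθ1 hA hI (Nat.succ_pos o) y a i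
    · have h1 := df_resY hV hs hs1 hθ hθ1 hA hI (Nat.succ_pos o) y a ⟨q + 1 - 1, Nat.sub_lt hp0 one_pos⟩
      rw [hlast] at h1
      rw [Real.sqrt_mul hθ.le, mul_comm (√θ) (√s)]
      exact h1
    · exact (hi1.const_mul _).const_mul _
    · rw [integral_const_mul, integral_const_mul]
      have hi2' : ∫ a, df_I (o + 1) (wS V s) (2 * s) 1 (√θ) A (Y, a) ∂(gam (Eu d))
          ≤ C1 * (2 * s) * √θ * √d := hi2
      calc √s * √θ * (K * √θ ^ (o + 1) *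
            ∫ a, df_I (o + 1) (wS V s) (2 * s) 1 (√θ) A (Y, a) ∂(gam (Eu d)))
          ≤ 1 * 1 * (K * √θ ^ (o + 1) * (C1 * 1 * 1 * √d)) := by
            refine mul_le_mul (mul_le_mul (by linarith only [hs2]) (by linarith only [hT1]) hT.le zero_le_one) ?_ ?_
              (by norm_num)
            · refine mul_le_mul_of_nonneg_left (hi2'.trans ?_) (by positivity)
              refine mul_le_mul_of_nonneg_right ?_ (Real.sqrt_nonneg _)
              exact mul_le_mul (mul_le_mul_of_nonneg_left hκ1 hC1) (by linarith only [hT1]) hT.le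
                (by linarith only [hC1])
            · refine mul_nonneg (by positivity) (integral_nonneg fun a => ?_)
              exact df_I_nonneg (o + 1) (wS V s) (2 * s) 1 hT.le A (Y, a)
        _ = K * C1 * √θ ^ (o + 1) * √d := by ring
        _ ≤ (1 + K) * √θ ^ g * √d :=
            bd_ord (by linarith only [hK]) hT.le (by nlinarith only [hC1]) hZ hr
    · exact (df_mom hV hs hs1 hA (hnI i) y).1
    · exact (df_mom hV hs hs1 hA (hnI i) y).2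

end Vale.Agent.N347X
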