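import Vale.Agent.N347X.TE

/-! P347, explicit constants: `L²` norms of the total derivatives along the flows. -/

open MeasureTheory Filter Module Set

namespace Vale.Agent.N347X

open Vale.Agent.P347 Vale.Agent.P347.Z Vale.Agent.P347.Z.MBz

variable {d : ℕ} {D : Dat d} {X : ℝ}

theorem te_fB (hD : D.Ok) {e : Eu d} (he : ‖e‖ ≤ 1) :
    TE D X 1 2 1 (fun _ : Unit => fB D e) :=
  (TE.tm (opM_mJ Unit) (TE.tm (opM_mE Unit) ((TE.const e he).amp (alg_B0 D)))).div.congr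
    fun i _ hp => rg_fB hD e i hp

theorem te_fBB (hD : D.Ok) {e : Eu d} (he : ‖e‖ ≤ 1) :
    TE D X 1 3 1 (fun _ : Unit => fBB D e) :=
  (TE.tm (opM_mJ Unit) (TE.tm (opM_mE Unit)
    (((TE.const e he).amp (alg_B0 D)).amp (alg_B0 D)))).div.congr fun i _ hp => rg_fBB hD e i hp

theorem te_G (hD : D.Ok) {e : Eu d} (he : ‖e‖ ≤ 1) : TE D X 1 4 3 (rgG D e) := by
  have t1 : TE D X 1 2 1 _ := (TE.tm (opM_mE Unit) ((TE.const e he).amp (alg_B0 D))).div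
  have t2 := ((te_fBB (X := X) hD he).mul).sm (D.lam * D.κ)
  have hlk : |D.lam * D.κ| ≤ 2 := by
    rw [abs_mul, abs_of_pos hD.κ0]
    exact hD.hlam
  exact (t1.add' t2 (r := 1) (o := 4) (by omega)).mono le_rfl le_rfl (by linarith)

/-- The explicit regularity constant. -/
noncomputable def Rg (j : ℕ) : ℝ := (15 * ((j : ℝ) + 1)) ^ (6 * (j + 1))

theorem Rg_mono {j p : ℕ} (h : j ≤ p) : Rg j ≤ Rg p := by
  have h1 : (j : ℝ) ≤ p := by exact_mod_cast h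
  have h2 : (0 : ℝ) ≤ j := Nat.cast_nonneg j
  calc Rg j ≤ (15 * ((p : ℝ) + 1)) ^ (6 * (j + 1)) := by unfold Rg; gcongr
    _ ≤ Rg p := pow_le_pow_right₀ (by linarith) (by omega)

theorem te_L2 (hD : D.Ok) {u : ZS d → ℝ} (h : ∀ X, TE D X 1 4 3 (fun _ : Unit => u)) (j : ℕ)
    {τ : ℝ} (hτ : τ ∈ IT) {Z : ℝ} (hZ : Rg j ≤ Z) :
    ∫ z, ((D.Dtot)^[j] u (τ, z)) ^ 2 ∂(D.mu τ) ≤ Z ^ 2 := by
  have hj : (0 : ℝ) ≤ j := Nat.cast_nonneg j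
  have t1 := (h (2 * ((6 * j + 6 : ℕ) : ℝ) + 1)).iter hD (by push_cast; linarith) j
  have t2 := TE.l2 hD hτ (W := 6 * j + 6) (by omega) (j + 1) t1 (by omega) (by omega)
  have t3 : L2B D τ Z ((DtotT D)^[j] (fun _ : Unit => u)) := by
    refine sb_L2B_mono t2 (by positivity) (le_trans ?_ hZ)
    obtain ⟨m, hm⟩ : ∃ m : ℝ, m = j + 1 := ⟨_, rfl⟩
    have hm1 : 1 ≤ m := by linarith
    have a1 : 4 * (2 * ((6 * j + 6 : ℕ) : ℝ) + 1) * ((6 * j + 6 : ℕ) : ℝ) ≤ 312 * m ^ 2 := by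
      push_cast
      nlinarith
    have a2 : (2 * ((6 * j + 6 : ℕ) : ℝ) + 1) * (((4 : ℕ) : ℝ) + 4 * j) ≤ 52 * m ^ 2 := by
      push_cast
      nlinarith
    have a3 : (3 : ℝ) ≤ 11 * (52 * m ^ 2) ^ 2 := by nlinarith [one_le_pow₀ (n := 4) hm1]
    calc _ ≤ (312 * m ^ 2) ^ (j + 1) * ((11 * (52 * m ^ 2) ^ 2) ^ j * (11 * (52 * m ^ 2) ^ 2)) := by
          gcongr
      _ = (312 * 11 * 52 ^ 2 * m ^ 6) ^ (j + 1) := by
          rw [← pow_succ, ← mul_pow]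
          congr 1
          ring
      _ ≤ ((15 * m) ^ 6) ^ (j + 1) := by
          gcongr
          rw [mul_pow]
          gcongr
          norm_num
      _ = Rg j := by rw [Rg, ← pow_mul, hm]
  rw [rg_DtotT_iter] at t3
  unfold L2B at t3
  simpa only [ge_iff_le, Finset.univ_unique, PUnit.default_eq_unit, Finset.sum_const,
    Finset.card_singleton, one_smul] using t3

theorem regB (j : ℕ) {Z : ℝ} (hZ : Rg j ≤ Z) (d : ℕ) (D : Dat d) (hD : D.Ok) (e : Eu d)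
    (he : ‖e‖ ≤ 1) (τ : ℝ) (hτ : τ ∈ IT) :
    ∫ z, ((D.Dtot)^[j] (fB D e) (τ, z)) ^ 2 ∂(D.mu τ) ≤ Z ^ 2 :=
  te_L2 hD (fun _ => (te_fB hD he).mono le_rfl (by omega) (by norm_num)) j hτ hZ

theorem regT (j : ℕ) {Z : ℝ} (hZ : Rg j ≤ Z) (d : ℕ) (D : Dat d) (hD : D.Ok) (e : Eu d)
    (he : ‖e‖ ≤ 1) (τ : ℝ) (hτ : τ ∈ IT) :
    ∫ z, ((D.Dtot)^[j] (fun q => q.1 * fBB D e q) (τ, z)) ^ 2 ∂(D.mu τ) ≤ Z ^ 2 :=
  te_L2 hD (fun _ => (te_fBB hD he).mul.mono le_rfl le_rfl (by norm_num)) j hτ hZ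

theorem regF (j : ℕ) {Z : ℝ} (hZ : Rg j ≤ Z) (d : ℕ) (D : Dat d) (hD : D.Ok) (e : Eu d)
    (he : ‖e‖ ≤ 1) (τ : ℝ) (hτ : τ ∈ IT) :
    ∫ z, ((D.Dtot)^[j + 1] (fF D e) (τ, z)) ^ 2 ∂(D.mu τ) ≤ (Z * D.κ) ^ 2 := by
  have h3 := te_L2 (u := rgG D e ()) hD (fun _ => te_G hD he) j hτ hZ
  have h4 : ∀ z, (D.Dtot)^[j + 1] (fF D e) (τ, z) = D.κ * (D.Dtot)^[j] (rgG D e ()) (τ, z) := by
    intro z
    rw [Function.iterate_succ_apply]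
    exact rg_Dtot_iter_smul hD D.κ j ((te_G (X := 1) hD he).cg hD ())
      (fun q hq => rg_Dtot_fF_eq hD e hq) (τ, z) (IT_subset_JT hτ)
  simp only [h4, mul_pow]
  rw [integral_const_mul, mul_comm]
  exact mul_le_mul_of_nonneg_right h3 (by positivity)

end Vale.Agent.N347X
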