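import Vale.Agent.N347X.Reg

/-! P347, explicit constants: quadrature and differentiation rules of order `r` on `2 r²`
equidistant nodes, with weights of polynomial size. -/

open MeasureTheory Filter Module Set

namespace Vale.Agent.N347X

open Vale.Agent.P347 Vale.Agent.P347.Z

section err

variable {E : Type} [NormedAddCommGroup E] [NormedSpace ℝ E]

theorem itp_derivY [CompleteSpace E] {ι : Type} [Fintype ι] {x : ι → ℝ}
    (hx : ∀ e, x e ∈ Icc (0 : ℝ) 1) {p m : ℕ} (hm : m ≤ p) (α : ι → ℝ)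
    (hα : ∀ k < p + 1, ∑ e, α e * x e ^ k = if k = m then (m.factorial : ℝ) else 0)
    {T : ℝ} (hT : 0 < T) {h : ℕ → ℝ → E} (hh : Tower T (p + 1) h) :
    ‖h m 0 - (T⁻¹) ^ m • ∑ e, α e • h 0 (x e * T)‖
      ≤ (∑ e, |α e|) * ((T⁻¹) ^ m * T ^ p) * ∫ t in (0 : ℝ)..T, ‖h (p + 1) t‖ := by
  set I : ℝ := ∫ s in (0 : ℝ)..T, ‖h (p + 1) s‖ with hI
  have hI0 : 0 ≤ I := intervalIntegral.integral_nonneg hT.le fun s _ => norm_nonneg _
  have hnode : ∀ e, x e * T ∈ Icc 0 T := fun e =>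
    ⟨mul_nonneg (hx e).1 hT.le, mul_le_of_le_one_left hT.le (hx e).2⟩
  set P : ℝ → E := fun t => ∑ j ∈ Finset.range (p + 1), (t ^ j / (j.factorial : ℝ)) • h j 0 with hP
  have htay : ∀ t ∈ Icc 0 T, ‖h 0 t - P t‖ ≤ T ^ p * I := itp_taylor hT p h hh
  have hexact : (T⁻¹) ^ m • ∑ e, α e • P (x e * T) = h m 0 := by
    have h1 : ∑ e, α e • P (x e * T)
        = ∑ j ∈ Finset.range (p + 1), (T ^ j / (j.factorial : ℝ)
            * (∑ e, α e * x e ^ j)) • h j 0 := by
      simp only [hP, Finset.smul_sum]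
      rw [Finset.sum_comm]
      apply Finset.sum_congr rfl
      intro j _
      rw [Finset.mul_sum, Finset.sum_smul]
      apply Finset.sum_congr rfl
      intro e _
      rw [smul_smul]
      congr 1
      rw [mul_pow]
      ring
    rw [h1, Finset.sum_eq_single m]
    · rw [hα m (by omega), if_pos rfl, smul_smul]
      have h4 : (m.factorial : ℝ) ≠ 0 := by positivity
      have h5 : (T⁻¹) ^ m * (T ^ m / (m.factorial : ℝ) * (m.factorial : ℝ)) = 1 := by
        rw [div_mul_cancel₀ _ h4, ← mul_pow, inv_mul_cancel₀ hT.ne', one_pow]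
      rw [h5, one_smul]
    · intro j hj hne
      rw [hα j (Finset.mem_range.1 hj), if_neg hne, mul_zero, zero_smul]
    · intro hn
      exact absurd (Finset.mem_range.2 (by omega)) hn
  have h7 : h m 0 - (T⁻¹) ^ m • ∑ e, α e • h 0 (x e * T)
      = - ((T⁻¹) ^ m • ∑ e, α e • (h 0 (x e * T) - P (x e * T))) := by
    conv_lhs => rw [← hexact]
    simp only [smul_sub, Finset.sum_sub_distrib]
    abel
  rw [h7, norm_neg, norm_smul, Real.norm_of_nonneg (by positivity)]
  have h8 : ‖∑ e, α e • (h 0 (x e * T) - P (x e * T))‖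
      ≤ (∑ e, |α e|) * (T ^ p * I) := by
    rw [Finset.sum_mul]
    refine (norm_sum_le _ _).trans (Finset.sum_le_sum fun e _ => ?_)
    rw [norm_smul, Real.norm_eq_abs]
    exact mul_le_mul_of_nonneg_left (htay _ (hnode e)) (abs_nonneg _)
  calc (T⁻¹) ^ m * ‖∑ e, α e • (h 0 (x e * T) - P (x e * T))‖
      ≤ (T⁻¹) ^ m * ((∑ e, |α e|) * (T ^ p * I)) := by (clear * - h8 hT; gcongr)
    _ = _ := by ring

theorem itp_intY [CompleteSpace E] {ι : Type} [Fintype ι] {y : ι → ℝ}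
    (hy : ∀ e, y e ∈ Icc (0 : ℝ) 1) {x : ℝ} (hx : x ∈ Icc (0 : ℝ) 1) {p : ℕ} (hp : 1 ≤ p)
    (a : ι → ℝ) (ha : ∀ k < p, ∑ j, a j * y j ^ k = x ^ (k + 1) / ((k : ℝ) + 1))
    {T : ℝ} (hT : 0 < T) {h : ℕ → ℝ → E} (hh : Tower T p h) :
    ‖(∫ t in (0 : ℝ)..(x * T), h 0 t) - T • ∑ j, a j • h 0 (y j * T)‖
      ≤ (1 + ∑ j, |a j|) * T ^ p * ∫ t in (0 : ℝ)..T, ‖h p t‖ := by
  obtain ⟨m, rfl⟩ : ∃ m, p = m + 1 := ⟨p - 1, by omega⟩
  set I : ℝ := ∫ s in (0 : ℝ)..T, ‖h (m + 1) s‖ with hI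
  have hI0 : 0 ≤ I := intervalIntegral.integral_nonneg hT.le fun s _ => norm_nonneg _
  have hnode : ∀ e, y e * T ∈ Icc 0 T := fun e =>
    ⟨mul_nonneg (hy e).1 hT.le, mul_le_of_le_one_left hT.le (hy e).2⟩
  set P : ℝ → E := fun t => ∑ j ∈ Finset.range (m + 1), (t ^ j / (j.factorial : ℝ)) • h j 0 with hP
  have hPc : Continuous P := by
    rw [hP]
    (clear * -; fun_prop)
  have htay : ∀ t ∈ Icc 0 T, ‖h 0 t - P t‖ ≤ T ^ m * I := itp_taylor hT m h hh
  have hxT : x * T ∈ Icc 0 T :=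
    ⟨mul_nonneg hx.1 hT.le, mul_le_of_le_one_left hT.le hx.2⟩
  have hexact : T • ∑ j, a j • P (y j * T)
      = ∫ t in (0 : ℝ)..(x * T), P t := by
    have h1 : ∑ j, a j • P (y j * T)
        = ∑ k ∈ Finset.range (m + 1), (T ^ k / (k.factorial : ℝ)
            * (∑ j, a j * y j ^ k)) • h k 0 := by
      simp only [hP, Finset.smul_sum]
      rw [Finset.sum_comm]
      apply Finset.sum_congr rfl
      intro k _
      rw [Finset.mul_sum, Finset.sum_smul]
      apply Finset.sum_congr rfl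
      intro e _
      rw [smul_smul]
      congr 1
      rw [mul_pow]
      ring
    rw [h1, Finset.smul_sum]
    have h2 : ∫ t in (0 : ℝ)..(x * T), P t = ∑ k ∈ Finset.range (m + 1),
        (((x * T) ^ (k + 1) / ((k : ℝ) + 1)) / (k.factorial : ℝ)) • h k 0 := by
      rw [hP]
      rw [intervalIntegral.integral_finsetSum]
      · apply Finset.sum_congr rfl
        intro k _
        rw [intervalIntegral.integral_smul_const, intervalIntegral.integral_div, integral_pow]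
        simp only [ne_eq, Nat.add_eq_zero_iff, one_ne_zero, and_false, not_false_eq_true, zero_pow, sub_zero]
      · intro k _
        apply Continuous.intervalIntegrable
        (clear * -; fun_prop)
    rw [h2]
    apply Finset.sum_congr rfl
    intro k hk
    rw [ha k (Finset.mem_range.1 hk), smul_smul]
    congr 1
    rw [mul_pow]
    ring
  have hic : IntervalIntegrable (h 0) volume 0 (x * T) := by
    apply ContinuousOn.intervalIntegrable
    rw [uIcc_of_le hxT.1]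
    exact (itp_cont hh (Nat.zero_le _)).mono (Icc_subset_Icc_right hxT.2)
  have h7 : (∫ t in (0 : ℝ)..(x * T), h 0 t)
        - T • ∑ j, a j • h 0 (y j * T)
      = (∫ t in (0 : ℝ)..(x * T), (h 0 t - P t))
        - T • ∑ j, a j • (h 0 (y j * T)
          - P (y j * T)) := by
    rw [intervalIntegral.integral_sub hic (hPc.intervalIntegrable _ _), ← hexact]
    simp only [smul_sub, Finset.sum_sub_distrib]
    abel
  rw [h7]
  have h8 : ‖∑ j, a j • (h 0 (y j * T)
          - P (y j * T))‖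
      ≤ (∑ e, |a e|) * (T ^ m * I) := by
    rw [Finset.sum_mul]
    refine (norm_sum_le _ _).trans (Finset.sum_le_sum fun e _ => ?_)
    rw [norm_smul, Real.norm_eq_abs]
    exact mul_le_mul_of_nonneg_left (htay _ (hnode e)) (abs_nonneg _)
  have h9 : ‖∫ t in (0 : ℝ)..(x * T), (h 0 t - P t)‖ ≤ (T ^ m * I) * |x * T - 0| := by
    apply intervalIntegral.norm_integral_le_of_norm_le_const
    intro t ht
    rw [uIoc_of_le hxT.1] at ht
    exact htay t ⟨ht.1.le, ht.2.trans hxT.2⟩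
  rw [sub_zero, abs_of_nonneg hxT.1] at h9
  have h10 : (T ^ m * I) * (x * T) ≤ (T ^ m * I) * T :=
    mul_le_mul_of_nonneg_left hxT.2 (by (clear * - hT hI0; positivity))
  calc ‖(∫ t in (0 : ℝ)..(x * T), (h 0 t - P t))
        - T • ∑ j, a j • (h 0 (y j * T)
          - P (y j * T))‖
      ≤ (T ^ m * I) * T + T * ((∑ e, |a e|) * (T ^ m * I)) := by
        refine (norm_sub_le _ _).trans (add_le_add (h9.trans h10) ?_)
        rw [norm_smul, Real.norm_of_nonneg hT.le]
        exact mul_le_mul_of_nonneg_left h8 hT.le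
    _ = _ := by ring

end err

theorem wt_prod {n : ℕ} {x a : Fin n → ℝ} {c : ℝ}
    (h : ∀ k < n, |∑ j, a j * x j ^ k| ≤ c) (S : Finset (Fin n)) : ∀ k, k + S.card < n →
      |∑ j, a j * x j ^ k * ∏ m ∈ S, (x j - x m)| ≤ c * ∏ m ∈ S, (1 + |x m|) := by
  induction S using Finset.induction_on with
  | empty => intro k hk; simpa using h k (by simpa using hk)
  | insert m S hm ih =>
    intro k hk
    rw [Finset.card_insert_of_notMem hm] at hk
    have e : ∑ j, a j * x j ^ k * ∏ i ∈ insert m S, (x j - x i) =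
        ∑ j, a j * x j ^ (k + 1) * ∏ i ∈ S, (x j - x i) -
          x m * ∑ j, a j * x j ^ k * ∏ i ∈ S, (x j - x i) := by
      rw [Finset.mul_sum, ← Finset.sum_sub_distrib]
      refine Finset.sum_congr rfl fun j _ => ?_
      rw [Finset.prod_insert hm]
      ring
    have h1 := ih (k + 1) (by omega)
    have h3 := mul_le_mul_of_nonneg_left (ih k (by omega)) (abs_nonneg (x m))
    rw [e, Finset.prod_insert hm]
    refine (abs_sub _ _).trans ?_
    rw [abs_mul]
    linarith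

theorem sq_base (J : ℕ) : ∀ k t : ℕ, J = k + t →
    (t.factorial : ℝ) * (J + k) * ∏ m ∈ Finset.range k, |(J : ℝ) ^ 2 - m ^ 2| =
      J * (J + k).factorial := by
  intro k
  induction k with
  | zero => intro t h; simp [h, mul_comm]
  | succ k ih =>
    intro t h
    have h1 := ih (t + 1) (by omega)
    have h2 : (J : ℝ) = k + 1 + t := by exact_mod_cast h
    have h3 : |(J : ℝ) ^ 2 - k ^ 2| = (t + 1) * (J + k) := by
      rw [abs_of_nonneg (by rw [h2]; nlinarith [Nat.cast_nonneg (α := ℝ) k, Nat.cast_nonneg (α := ℝ) t]), h2]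
      ring
    rw [Finset.prod_range_succ, h3, ← add_assoc, Nat.factorial_succ (J + k)]
    rw [Nat.factorial_succ] at h1
    push_cast at h1 ⊢
    linear_combination ((J : ℝ) + k + 1) * h1

theorem sq_den (J t : ℕ) : (t.factorial : ℝ) * (J + t + J).factorial ≤
    2 * ∏ m ∈ (Finset.range (J + t + 1)).erase J, |(J : ℝ) ^ 2 - m ^ 2| := by
  induction t with
  | zero =>
    rw [add_zero, Finset.range_add_one, Finset.erase_insert Finset.notMem_range_self]
    rcases Nat.eq_zero_or_pos J with rfl | hJ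
    · simp
    · have h1 := sq_base J J 0 rfl
      have h2 : (0 : ℝ) < J := by exact_mod_cast hJ
      refine le_of_mul_le_mul_left (le_of_eq ?_) h2
      rw [Nat.factorial_zero] at h1 ⊢
      push_cast at h1 ⊢
      linarith
  | succ t ih =>
    have h3 : |(J : ℝ) ^ 2 - (J + t + 1 : ℕ) ^ 2| = (t + 1) * (J + t + J + 1) := by
      push_cast
      rw [abs_sub_comm, abs_of_nonneg (by nlinarith [Nat.cast_nonneg (α := ℝ) J, Nat.cast_nonneg (α := ℝ) t])]
      ring
    rw [← add_assoc, Finset.range_add_one (n := J + t + 1), Finset.erase_insert_of_ne (by omega),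
      Finset.prod_insert (by simp), h3, show J + t + 1 + J = J + t + J + 1 by ring,
      Nat.factorial_succ, Nat.factorial_succ]
    have h4 := mul_le_mul_of_nonneg_left ih (show (0 : ℝ) ≤ (t + 1) * (J + t + J + 1) by positivity)
    push_cast
    linarith

theorem sq_fac (n : ℕ) : ∀ J t : ℕ, n = J + t →
    (n.factorial : ℝ) ^ 2 ≤ t.factorial * (n + J).factorial := by
  intro J
  induction J with
  | zero => intro t h; simp [h, sq]
  | succ J ih =>
    intro t h
    have h1 := ih (t + 1) (by omega)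
    have h2 : (t : ℝ) ≤ n + J := by exact_mod_cast (by omega : t ≤ n + J)
    rw [← add_assoc, Nat.factorial_succ (n + J)]
    rw [Nat.factorial_succ] at h1
    push_cast at h1 ⊢
    have h3 : (0 : ℝ) ≤ t.factorial * (n + J).factorial := by positivity
    nlinarith

theorem sq_num (n : ℕ) :
    ∏ m ∈ Finset.range (n + 1), (1 + |(m : ℝ) ^ 2|) ≤ (n + 1) * (n.factorial : ℝ) ^ 2 := by
  induction n with
  | zero => simp
  | succ n ih =>
    rw [Finset.prod_range_succ, Nat.factorial_succ, abs_of_nonneg (by positivity)]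
    push_cast
    have h1 : (0 : ℝ) ≤ n := Nat.cast_nonneg n
    have h2 : (n + 1) * (1 + ((n : ℝ) + 1) ^ 2) ≤ (n + 1 + 1) * (n + 1) ^ 2 := by nlinarith
    calc _ ≤ (n + 1) * (n.factorial : ℝ) ^ 2 * (1 + ((n : ℝ) + 1) ^ 2) := by gcongr
      _ = (n + 1) * (1 + ((n : ℝ) + 1) ^ 2) * (n.factorial : ℝ) ^ 2 := by ring
      _ ≤ (n + 1 + 1) * (n + 1) ^ 2 * (n.factorial : ℝ) ^ 2 := by gcongr
      _ = _ := by ring

/-- Weights for the nodes `0, 1, 4, …, n²` with prescribed moments. -/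
theorem sq_weights (n : ℕ) (c : ℕ → ℝ) {γ : ℝ} (hc : ∀ k, |c k| ≤ γ) :
    ∃ a : Fin (n + 1) → ℝ, (∀ k < n + 1, ∑ j, a j * ((j : ℝ) ^ 2) ^ k = c k) ∧
      ∑ j, |a j| ≤ 2 * (n + 1) ^ 2 * γ := by
  have hγ : 0 ≤ γ := (abs_nonneg _).trans (hc 0)
  obtain ⟨a, ha⟩ := itp_weights (fun j : Fin (n + 1) => (j : ℝ) ^ 2) (fun i j h => by
    have h1 := (pow_left_inj₀ (Nat.cast_nonneg _) (Nat.cast_nonneg _) two_ne_zero).1 h
    exact Fin.ext (by exact_mod_cast h1)) c
  refine ⟨a, ha, ?_⟩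
  have key : ∀ j, |a j| ≤ 2 * (n + 1) * γ := by
    intro j
    have h1 := wt_prod (x := fun j : Fin (n + 1) => (j : ℝ) ^ 2) (a := a) (c := γ)
      (fun k hk => by rw [ha k hk]; exact hc k) (Finset.univ.erase j) 0 (by simp)
    rw [Finset.sum_eq_single j, pow_zero, mul_one, abs_mul, Finset.abs_prod] at h1
    · have h2 : ∏ m ∈ Finset.univ.erase j, (1 + |((m : Fin (n + 1)) : ℝ) ^ 2|) ≤
          (n + 1) * (n.factorial : ℝ) ^ 2 := by
        refine le_trans ?_ (sq_num n)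
        rw [Finset.prod_range (fun m : ℕ => 1 + |(m : ℝ) ^ 2|)]
        exact Finset.prod_le_prod_of_subset_of_one_le (Finset.subset_univ _)
          (fun _ _ => by positivity) fun _ _ _ => le_add_of_nonneg_right (abs_nonneg _)
      obtain ⟨t, ht⟩ := Nat.exists_eq_add_of_le (Nat.lt_succ_iff.1 j.2)
      have h3 := sq_den j t
      rw [← ht] at h3
      replace h3 := (sq_fac n j t ht).trans h3
      have h4 : ∏ m ∈ (Finset.range (n + 1)).erase j, |((j : ℕ) : ℝ) ^ 2 - m ^ 2| =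
          ∏ m ∈ Finset.univ.erase j, |((j : ℕ) : ℝ) ^ 2 - ((m : Fin (n + 1)) : ℝ) ^ 2| := by
        symm
        refine Finset.prod_bij (fun m _ => (m : ℕ)) ?_ ?_ ?_ fun _ _ => rfl
        · intro m hm
          exact Finset.mem_erase.2 ⟨fun e => Finset.ne_of_mem_erase hm (Fin.ext e),
            Finset.mem_range.2 m.2⟩
        · exact fun _ _ _ _ e => Fin.ext e
        · intro m hm
          exact ⟨⟨m, Finset.mem_range.1 (Finset.mem_of_mem_erase hm)⟩, Finset.mem_erase.2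
            ⟨fun e => Finset.ne_of_mem_erase hm (congrArg Fin.val e), Finset.mem_univ _⟩, rfl⟩
      rw [h4] at h3
      have h5 := mul_le_mul_of_nonneg_left h3 (abs_nonneg (a j))
      have h6 := mul_le_mul_of_nonneg_left h2 hγ
      refine le_of_mul_le_mul_right ?_ (show 0 < (n.factorial : ℝ) ^ 2 by positivity)
      linarith
    · intro b _ hb
      rw [Finset.prod_eq_zero (Finset.mem_erase.2 ⟨hb, Finset.mem_univ b⟩) (sub_self _), mul_zero]
    · intro h
      exact absurd (Finset.mem_univ _) h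
  refine (Finset.sum_le_card_nsmul _ _ _ fun j _ => key j).trans (le_of_eq ?_)
  simp only [Finset.card_univ, Fintype.card_fin, nsmul_eq_mul]
  push_cast
  ring

/-- Weights are moved along a map of the index sets. -/
theorem push_weights {ι κ : Type} [Fintype ι] [Fintype κ] (g : ι → κ) (w : ι → ℝ) :
    ∃ W : κ → ℝ, (∀ f : κ → ℝ, ∑ n, W n * f n = ∑ i, w i * f (g i)) ∧
      ∑ n, |W n| ≤ ∑ i, |w i| := by
  classical
  refine ⟨fun n => ∑ i, if g i = n then w i else 0, fun f => ?_, ?_⟩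
  · simp only [Finset.sum_mul, ite_mul, zero_mul]
    rw [Finset.sum_comm]
    simp
  · refine (Finset.sum_le_sum fun n _ => Finset.abs_sum_le_sum_abs _ _).trans (le_of_eq ?_)
    rw [Finset.sum_comm]
    simp [apply_ite abs]

theorem shift_mom {n : ℕ} {a y : Fin n → ℝ} {u v : ℝ}
    (h : ∀ k < n, ∑ j, a j * y j ^ k = ∫ s in u..v, s ^ k) (x σ : ℝ) {k : ℕ} (hk : k < n) :
    ∑ j, a j * (σ * y j + x) ^ k = ∫ s in u..v, (σ * s + x) ^ k := by
  simp only [add_pow, Finset.mul_sum]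
  rw [Finset.sum_comm, intervalIntegral.integral_finsetSum
    fun i _ => Continuous.intervalIntegrable (by fun_prop) _ _]
  refine Finset.sum_congr rfl fun i hi => ?_
  have e : ∀ s : ℝ, (σ * s) ^ i * x ^ (k - i) * (k.choose i) =
      (σ ^ i * x ^ (k - i) * (k.choose i)) * s ^ i := fun s => by ring
  simp only [e]
  rw [intervalIntegral.integral_const_mul, ← h i (by have := Finset.mem_range.1 hi; omega),
    Finset.mul_sum]
  exact Finset.sum_congr rfl fun j _ => by ring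

/-- A rule for one cell of the grid. -/
theorem cell_weights {r p : ℕ} (hp : p = 2 * r ^ 2) (c : Fin p) : ∃ W : Fin p → ℝ,
    (∀ k < r + 1, ∑ n, W n * ((n : ℝ) + 1) ^ k = ((c + 1) ^ (k + 1) - c ^ (k + 1)) / (k + 1)) ∧
      ∑ n, |W n| ≤ 2 * (r + 1) ^ 2 := by
  have hj : ∀ j : Fin (r + 1), (j : ℕ) ^ 2 ≤ r ^ 2 := fun j =>
    Nat.pow_le_pow_left (Nat.lt_succ_iff.1 j.2) 2
  have hb : ∀ (u : ℝ) (k : ℕ), u ∈ Icc (-1 : ℝ) 0 → |∫ s in u..u + 1, s ^ k| ≤ 1 := by
    intro u k hu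
    have h1 := intervalIntegral.norm_integral_le_of_norm_le_const (a := u) (b := u + 1) (C := 1)
      (f := fun s : ℝ => s ^ k) fun s hs => by
        rw [uIoc_of_le (by linarith)] at hs
        rw [Real.norm_eq_abs, abs_pow]
        exact pow_le_one₀ (abs_nonneg _) (abs_le.2 ⟨by linarith [hs.1, hu.1], by linarith [hs.2, hu.2]⟩)
    rwa [add_sub_cancel_left, abs_one, mul_one, Real.norm_eq_abs] at h1
  rcases lt_or_ge (c : ℕ) (r ^ 2) with hc | hc
  · obtain ⟨a, ha, hs⟩ := sq_weights r _ fun k => hb (-1) k ⟨le_rfl, by norm_num⟩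
    obtain ⟨W, hW, hW'⟩ := push_weights
      (fun j : Fin (r + 1) => (⟨c + j ^ 2, by have := hj j; omega⟩ : Fin p)) a
    refine ⟨W, fun k hk => ?_, by linarith⟩
    have h1 := shift_mom ha (c + 1) 1 hk
    simp only [one_mul] at h1
    rw [intervalIntegral.integral_comp_add_right (fun s => s ^ k), integral_pow] at h1
    rw [hW fun n => ((n : ℝ) + 1) ^ k]
    push_cast
    convert h1 using 4 <;> ring
  · obtain ⟨a, ha, hs⟩ := sq_weights r _ fun k => hb 0 k ⟨by norm_num, le_rfl⟩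
    obtain ⟨W, hW, hW'⟩ := push_weights
      (fun j : Fin (r + 1) => (⟨c - j ^ 2, by have := c.2; omega⟩ : Fin p)) a
    refine ⟨W, fun k hk => ?_, by linarith⟩
    have h1 := shift_mom ha (c + 1) (-1) hk
    simp only [neg_one_mul, neg_add_eq_sub] at h1
    rw [intervalIntegral.integral_comp_sub_left (fun s => s ^ k), integral_pow] at h1
    rw [hW fun n => ((n : ℝ) + 1) ^ k]
    simp only [Nat.cast_sub ((hj _).trans hc)]
    push_cast
    convert h1 using 4 <;> ring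

/-- Rules on the nodes `e / p` which are exact for polynomials of degree at most `r`. -/
structure Rules (p r : ℕ) (A : Fin p → Fin p → ℝ) (α β : Fin (p + 1) → ℝ) (K : ℝ) : Prop where
  K0 : 0 ≤ K
  A_le : ∀ i j, |A i j| ≤ K
  α_le : ∀ e, |α e| ≤ K
  β_le : ∀ e, |β e| ≤ K
  β_sum : ∑ e, β e = 0
  errA : ∀ k, 1 ≤ k → k ≤ r → ∀ (E : Type) [NormedAddCommGroup E] [NormedSpace ℝ E]
    [CompleteSpace E] (T : ℝ), 0 < T → ∀ h : ℕ → ℝ → E, Tower T k h → ∀ i : Fin p,
      ‖(∫ t in (0 : ℝ)..(((i : ℝ) + 1) / p * T), h 0 t)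
        - T • ∑ j : Fin p, A i j • h 0 (((j : ℝ) + 1) / p * T)‖
        ≤ K * T ^ k * ∫ t in (0 : ℝ)..T, ‖h k t‖
  errα : ∀ k, 1 ≤ k → k ≤ r → ∀ (E : Type) [NormedAddCommGroup E] [NormedSpace ℝ E]
    [CompleteSpace E] (T : ℝ), 0 < T → ∀ h : ℕ → ℝ → E, Tower T (k + 1) h →
      ‖h 1 0 - T⁻¹ • ∑ e : Fin (p + 1), α e • h 0 ((e : ℝ) / p * T)‖
        ≤ K * T ^ (k - 1) * ∫ t in (0 : ℝ)..T, ‖h (k + 1) t‖
  errβ : ∀ k, 2 ≤ k → k ≤ r → ∀ (E : Type) [NormedAddCommGroup E] [NormedSpace ℝ E]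
    [CompleteSpace E] (T : ℝ), 0 < T → ∀ h : ℕ → ℝ → E, Tower T (k + 1) h →
      ‖h 2 0 - (T⁻¹) ^ 2 • ∑ e : Fin (p + 1), β e • h 0 ((e : ℝ) / p * T)‖
        ≤ K * T ^ (k - 2) * ∫ t in (0 : ℝ)..T, ‖h (k + 1) t‖

theorem deriv_weights {r p : ℕ} (hr : 1 ≤ r) (hp : p = 2 * r ^ 2) {m : ℕ} (hm : m ≤ 2) :
    ∃ α : Fin (p + 1) → ℝ, (∀ k < r + 1, ∑ e, α e * ((e : ℝ) / p) ^ k =
      if k = m then (m.factorial : ℝ) else 0) ∧ ∑ e, |α e| ≤ p ^ 2 * (2 * (r + 1) ^ 2 * 2) := by
  have hp1 : (1 : ℝ) ≤ p := by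
    have : 1 ≤ r ^ 2 := Nat.one_le_pow _ _ hr
    exact_mod_cast (by omega : 1 ≤ p)
  obtain ⟨a, ha, hs⟩ := sq_weights r (fun k => if k = m then (m.factorial : ℝ) else 0) (γ := 2)
    fun k => by
      split_ifs
      · interval_cases m <;> norm_num
      · norm_num
  obtain ⟨W, hW, hW'⟩ := push_weights (fun j : Fin (r + 1) => (⟨j ^ 2, by
    have := Nat.pow_le_pow_left (Nat.lt_succ_iff.1 j.2) 2
    omega⟩ : Fin (p + 1))) fun j => (p : ℝ) ^ m * a j
  refine ⟨W, fun k hk => ?_, hW'.trans ?_⟩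
  · rw [hW fun e => ((e : ℝ) / p) ^ k]
    have h1 : ∀ j : Fin (r + 1), (p : ℝ) ^ m * a j * (((j ^ 2 : ℕ) : ℝ) / p) ^ k =
        (p ^ m / p ^ k) * (a j * ((j : ℝ) ^ 2) ^ k) := fun j => by
      push_cast
      rw [div_pow]
      ring
    simp only [h1]
    rw [← Finset.mul_sum, ha k hk]
    split_ifs with h
    · rw [h, div_self (by positivity), one_mul]
    · exact mul_zero _
  · simp only [abs_mul, ← Finset.mul_sum]
    rw [abs_of_nonneg (by positivity)]
    exact mul_le_mul (pow_le_pow_right₀ hp1 hm) hs (by positivity) (by positivity)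

theorem exists_rules {r p : ℕ} (hr : 2 ≤ r) (hp : p = 2 * r ^ 2) :
    ∃ A α β, Rules p r A α β (15 * ((p : ℝ) + 1) ^ 3) := by
  have hr2 : (2 : ℝ) ≤ r := by exact_mod_cast hr
  have hpr : (p : ℝ) = 2 * r ^ 2 := by exact_mod_cast hp
  have hp8 : (8 : ℝ) ≤ p := by nlinarith
  have hp0 : (0 : ℝ) < p := by linarith
  have hr3 : 2 * ((r : ℝ) + 1) ^ 2 ≤ 3 * p := by nlinarith
  have hK1 : (p : ℝ) ^ 2 * (2 * (r + 1) ^ 2 * 2) ≤ 15 * ((p : ℝ) + 1) ^ 3 := by
    nlinarith [mul_le_mul_of_nonneg_left hr3 (sq_nonneg (p : ℝ)), pow_pos hp0 3, pow_pos hp0 2]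
  have hK2 : 1 + 2 * ((r : ℝ) + 1) ^ 2 ≤ 15 * ((p : ℝ) + 1) ^ 3 := by
    nlinarith [pow_pos hp0 3, pow_pos hp0 2]
  choose W hW hW' using cell_weights hp
  obtain ⟨α, hα, hKα⟩ := deriv_weights (by omega) hp (m := 1) one_le_two
  obtain ⟨β, hβ, hKβ⟩ := deriv_weights (by omega) hp (m := 2) le_rfl
  obtain ⟨A, hA⟩ : ∃ A : Fin p → Fin p → ℝ, ∀ i n, A i n =
      (p : ℝ)⁻¹ * ∑ c ∈ Finset.range (i + 1), if h : c < p then W ⟨c, h⟩ n else 0 :=
    ⟨_, fun _ _ => rfl⟩
  have hA1 : ∀ (i : Fin p), ∀ k < r + 1, ∑ j, A i j * (((j : ℝ) + 1) / p) ^ k =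
      (((i : ℝ) + 1) / p) ^ (k + 1) / ((k : ℝ) + 1) := by
    intro i k hk
    have h1 : ∀ c ∈ Finset.range (i + 1),
        ∑ j : Fin p, (if h : c < p then W ⟨c, h⟩ j else 0) * ((j : ℝ) + 1) ^ k =
          ((c + 1 : ℕ) : ℝ) ^ (k + 1) / (k + 1) - (c : ℝ) ^ (k + 1) / (k + 1) := by
      intro c hc
      have h2 : c < p := by have := Finset.mem_range.1 hc; omega
      simp only [dif_pos h2]
      rw [hW _ k hk, sub_div]
      push_cast
      rfl
    have h2 : ∀ j : Fin p, A i j * (((j : ℝ) + 1) / p) ^ k = ((p : ℝ) ^ (k + 1))⁻¹ *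
        ∑ c ∈ Finset.range (i + 1), (if h : c < p then W ⟨c, h⟩ j else 0) * ((j : ℝ) + 1) ^ k := by
      intro j
      rw [hA, ← Finset.sum_mul, div_pow, pow_succ (p : ℝ), mul_inv]
      ring
    simp only [h2]
    rw [← Finset.mul_sum, Finset.sum_comm, Finset.sum_congr rfl h1,
      Finset.sum_range_sub (fun c : ℕ => (c : ℝ) ^ (k + 1) / (k + 1)), div_pow]
    push_cast
    rw [zero_pow (by omega)]
    field_simp
    ring
  have hKA : ∀ i, 1 + ∑ j, |A i j| ≤ 15 * ((p : ℝ) + 1) ^ 3 := by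
    intro i
    refine le_trans (add_le_add le_rfl ?_) hK2
    calc ∑ j, |A i j| ≤ ∑ j, (p : ℝ)⁻¹ *
          ∑ c ∈ Finset.range (i + 1), |if h : c < p then W ⟨c, h⟩ j else 0| :=
          Finset.sum_le_sum fun j _ => by
            rw [hA, abs_mul, abs_of_pos (inv_pos.2 hp0)]
            exact mul_le_mul_of_nonneg_left (Finset.abs_sum_le_sum_abs _ _) (by positivity)
      _ ≤ (p : ℝ)⁻¹ * (p * (2 * ((r : ℝ) + 1) ^ 2)) := by
          rw [← Finset.mul_sum, Finset.sum_comm]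
          refine mul_le_mul_of_nonneg_left ((Finset.sum_le_card_nsmul _ _
            (2 * ((r : ℝ) + 1) ^ 2) fun c hc => ?_).trans ?_) (by positivity)
          · have h2 : c < p := by have := Finset.mem_range.1 hc; omega
            simp only [dif_pos h2]
            exact hW' _
          · rw [Finset.card_range, nsmul_eq_mul]
            gcongr
            exact i.2
      _ = _ := by field_simp
  have b1 : ∀ j : Fin p, ((j : ℝ) + 1) / (p : ℝ) ∈ Icc (0 : ℝ) 1 := fun j =>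
    ⟨by positivity, (div_le_one hp0).2 (by exact_mod_cast j.2)⟩
  have b2 : ∀ j : Fin (p + 1), (j : ℝ) / (p : ℝ) ∈ Icc (0 : ℝ) 1 := fun j =>
    ⟨by positivity, (div_le_one hp0).2 (by exact_mod_cast Nat.lt_succ_iff.1 j.2)⟩
  replace hKα := hKα.trans hK1
  replace hKβ := hKβ.trans hK1
  refine ⟨A, α, β, by positivity, ?_, ?_, ?_, ?_, ?_, ?_, ?_⟩
  · intro i j
    have h1 : |A i j| ≤ ∑ j, |A i j| :=
      Finset.single_le_sum (f := fun j => |A i j|) (fun i _ => abs_nonneg _) (Finset.mem_univ j)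
    linarith [hKA i]
  · intro e
    exact (Finset.single_le_sum (f := fun e => |α e|) (fun i _ => abs_nonneg _)
      (Finset.mem_univ e)).trans hKα
  · intro e
    exact (Finset.single_le_sum (f := fun e => |β e|) (fun i _ => abs_nonneg _)
      (Finset.mem_univ e)).trans hKβ
  · simpa only [pow_zero, mul_one, OfNat.zero_ne_ofNat, ↓reduceIte] using hβ 0 (by omega)
  · intro k hk hk' E _ _ _ T hT h hh i
    have hI0 : 0 ≤ ∫ t in (0 : ℝ)..T, ‖h k t‖ :=
      intervalIntegral.integral_nonneg hT.le fun s _ => norm_nonneg _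
    refine (itp_intY b1 (b1 i) hk (A i) (fun l hl => hA1 i l (by omega)) hT hh).trans ?_
    gcongr
    exact hKA i
  · intro k hk hk' E _ _ _ T hT h hh
    have hI0 : 0 ≤ ∫ t in (0 : ℝ)..T, ‖h (k + 1) t‖ :=
      intervalIntegral.integral_nonneg hT.le fun s _ => norm_nonneg _
    have h1 := itp_derivY b2 hk α (fun l hl => hα l (by omega)) hT hh
    rw [pow_one] at h1
    refine h1.trans ?_
    have h2 : T⁻¹ * T ^ k = T ^ (k - 1) := by
      obtain ⟨q, rfl⟩ : ∃ q, k = q + 1 := ⟨k - 1, by omega⟩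
      rw [pow_succ, Nat.add_sub_cancel]
      field_simp
    rw [h2]
    gcongr
  · intro k hk hk' E _ _ _ T hT h hh
    have hI0 : 0 ≤ ∫ t in (0 : ℝ)..T, ‖h (k + 1) t‖ :=
      intervalIntegral.integral_nonneg hT.le fun s _ => norm_nonneg _
    refine (itp_derivY b2 hk β (fun l hl => hβ l (by omega)) hT hh).trans ?_
    have h2 : (T⁻¹) ^ 2 * T ^ k = T ^ (k - 2) := by
      obtain ⟨q, rfl⟩ : ∃ q, k = q + 2 := ⟨k - 2, by omega⟩
      rw [pow_add, Nat.add_sub_cancel, inv_pow]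
      field_simp
    rw [h2]
    gcongr

end Vale.Agent.N347X
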