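import Vale.Agent.N347X.Mult

/-! P347, explicit constants: words of operators on tensor fields and their `L²` norms. -/

open MeasureTheory Filter Module Set

namespace Vale.Agent.N347X

open Vale.Agent.P347 Vale.Agent.P347.Z Vale.Agent.P347.Z.MBz

variable {d : ℕ}

/-- Sums of words of operators applied to constant vectors: at most `r` divergences, weight at
most `o`, value at most `v`. -/
inductive TE (D : Dat d) (X : ℝ) : ℕ → ℕ → ℝ → ∀ {I : Type} [Fintype I], TF d I → Prop
  | zero {I : Type} [Fintype I] : TE D X 0 0 0 (fun (_ : I) (_ : ZS d) => (0 : ℝ))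
  | const (e : Eu d) (he : ‖e‖ ≤ 1) : TE D X 0 0 1 (cT e)
  | div {r o : ℕ} {v : ℝ} {I : Type} [Fintype I] {u : TF d (Sl d × I)} :
      TE D X r o v u → TE D X (r + 1) (o + 1) v (D.divT u)
  | tb {r o : ℕ} {v : ℝ} {K I : Type} [Fintype K] [Fintype I] {B : MF d K I} {c : Code}
      {u : TF d I} : Alg D.κ D.w c B → TE D X r o v u →
      TE D X r (o + om c) (val X c * v) (D.TB B u)
  | tm {r o : ℕ} {v : ℝ} {K I : Type} [Fintype K] [Fintype I] {M : K → I → ℝ} {u : TF d I} :
      opM 1 M → TE D X r o v u → TE D X r o v (TM M u)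
  | mul {r o : ℕ} {v : ℝ} {I : Type} [Fintype I] {u : TF d I} :
      TE D X r o v u → TE D X r (o + 1) v (mulT u)
  | add {r o : ℕ} {v v' : ℝ} {I : Type} [Fintype I] {u u' : TF d I} :
      TE D X r o v u → TE D X r o v' u' → TE D X r o (v + v') (addT u u')
  | sm {r o : ℕ} {v : ℝ} {I : Type} [Fintype I] {u : TF d I} (a : ℝ) :
      TE D X r o v u → TE D X r o (|a| * v) (smT a u)
  | rei {r o : ℕ} {v : ℝ} {I I' : Type} [Fintype I] [Fintype I'] {u : TF d I} (e : I' ≃ I) :
      TE D X r o v u → TE D X r o v (fun i => u (e i))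
  | mono {r o r' o' : ℕ} {v v' : ℝ} {I : Type} [Fintype I] {u : TF d I} :
      TE D X r o v u → r ≤ r' → o ≤ o' → v ≤ v' → TE D X r' o' v' u
  | congr {r o : ℕ} {v : ℝ} {I : Type} [Fintype I] {u u' : TF d I} :
      TE D X r o v u → (∀ i (p : ZS d), p.1 ∈ JT → u' i p = u i p) → TE D X r o v u'

variable {D : Dat d} {X : ℝ}

theorem TE.nonneg (hX : 0 ≤ X) {r o : ℕ} {v : ℝ} {I : Type} [Fintype I] {u : TF d I}
    (h : TE D X r o v u) : 0 ≤ v := by
  induction h with
  | zero => exact le_rfl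
  | const => exact zero_le_one
  | div _ ih => exact ih
  | tb _ _ ih => exact mul_nonneg (val_nonneg hX _) ih
  | tm _ _ ih => exact ih
  | mul _ ih => exact ih
  | add _ _ ih ih' => exact add_nonneg ih ih'
  | sm a _ ih => exact mul_nonneg (abs_nonneg a) ih
  | rei _ _ ih => exact ih
  | mono _ _ _ h ih => exact ih.trans h
  | congr _ _ ih => exact ih

theorem TE.cg (hD : D.Ok) {r o : ℕ} {v : ℝ} {I : Type} [Fintype I] {u : TF d I}
    (h : TE D X r o v u) : ∀ i, CG JT (u i) := by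
  induction h with
  | zero => exact fun _ => CG.const isOpen_JT 0
  | const => exact fun _ => CG.const isOpen_JT _
  | div _ ih => exact divT_cg hD ih
  | tb hB _ ih => exact TB_cg hD (hB.cg hD.heat) ih
  | tm _ _ ih => exact TM_cg _ ih
  | mul _ ih => exact bdo_mul_cg ih
  | add _ _ ih ih' => exact bdo_add_cg ih ih'
  | sm a _ ih => exact bdo_sm_cg ih a
  | rei e _ ih => exact fun i => ih (e i)
  | mono _ _ _ _ ih => exact ih
  | congr _ h ih => exact fun i => CG.congr isOpen_JT (ih i) fun p hp => h i p hp.1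

theorem TE.add' {r o r₁ o₁ r₂ o₂ : ℕ} {v v' : ℝ} {I : Type} [Fintype I] {u u' : TF d I}
    (h : TE D X r₁ o₁ v u) (h' : TE D X r₂ o₂ v' u') (a : r₁ ≤ r ∧ o₁ ≤ o ∧ r₂ ≤ r ∧ o₂ ≤ o) :
    TE D X r o (v + v') (addT u u') :=
  (h.mono a.1 a.2.1 le_rfl).add (h'.mono a.2.2.1 a.2.2.2 le_rfl)

theorem TE.amp {r o : ℕ} {v : ℝ} {I : Type} [Fintype I] [DecidableEq I]
    {B : MF d (Fin d) (Fin d)} (hB : Alg D.κ D.w (.sm (.gen [])) B) {u : TF d (Fin d × I)}
    (h : TE D X r o v u) : TE D X r (o + 1) v (D.TB (amp B I) u) := by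
  have h1 := TE.tb (Alg.amp I hB) h
  rw [val_amp, val_sm, val_gen, gX_nil, one_mul] at h1
  exact h1

theorem TE.slot {r o : ℕ} {v : ℝ} {I : Type} [Fintype I] [DecidableEq I]
    {B : MF d (Fin d) (Fin d)} (hB : Alg D.κ D.w (.sm (.gen [])) B) {u : TF d (Sl d × I)}
    (h : TE D X r o v u) : TE D X r (o + 1) v (slotB D B u) :=
  TE.tm (opM_mE I) (TE.amp hB (TE.tm (opM_mP I) h))

theorem alg_F1 (hD : D.Ok) : Alg D.κ D.w (.sm (.gen [])) (F1 D.w) :=
  Alg.congr (Alg.sm D.κ (by rw [abs_of_pos hD.κ0]; exact hD.κ1) (Alg.gen IsW.nil))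
    fun k i p _ => F1_eq hD.κ0.ne' k i p

theorem alg_B0 (D : Dat d) : Alg D.κ D.w (.sm (.gen [])) (B0 D.κ D.w) :=
  Alg.congr (Alg.sm 1 (by simp) (Alg.gen IsW.nil)) fun k i p _ => (one_mul _).symm

theorem TE.grad (hD : D.Ok) (hX : 1 ≤ X) {r o : ℕ} {v : ℝ} {I : Type} [Fintype I] {u : TF d I}
    (h : TE D X r o v u) : TE D X r (o + 2) (2 * X * o * v) (gradT u) := by
  classical
  have hX0 : 0 ≤ X := by linarith
  induction h with
  | zero =>
    refine (TE.zero.mono le_rfl (by omega) (by simp)).congr fun m p _ => ?_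
    exact cm_dz_zero m.1 p
  | const e he =>
    refine (TE.zero.mono le_rfl (by omega) (by simp)).congr fun m p _ => ?_
    show fderiv ℝ (fun _ : ZS d => e m.2.1) p _ = 0
    simp only [fderiv_fun_const, Pi.zero_apply, zero_apply]
  | @div r o v I _ u h ih =>
    let e : (Sl d × (Sl d × I)) ≃ (Sl d × (Sl d × I)) :=
      { toFun := fun m => (m.2.1, (m.1, m.2.2))
        invFun := fun m => (m.2.1, (m.1, m.2.2))
        left_inv := fun m => rfl
        right_inv := fun m => rfl }
    have t0 : TE D X r (o + 2) (2 * X * o * v) (swp (gradT u)) := ih.rei e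
    have t3 := (h.slot (alg_F1 hD)).mul.mul
    have t4 := (t0.div.add' h (r := r + 1) (o := o + 3) (by omega)).add' t3 (r := r + 1)
      (o := o + 1 + 2) (by omega)
    refine (t4.mono le_rfl le_rfl ?_).congr fun m p hp => gradT_divT hD (h.cg hD) m hp
    have := mul_nonneg (sub_nonneg.2 hX) (h.nonneg hX0)
    push_cast
    nlinarith
  | @tb r o v K I _ _ B c u hB h ih =>
    have a1 : Alg D.κ D.w (.rei (.amp c)) (ampL (Sl d) B) :=
      Alg.rei (Prod.swap : Sl d × K → K × Sl d) (Prod.swap : Sl d × I → I × Sl d)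
        Prod.swap_injective Prod.swap_injective (Alg.amp (Sl d) hB)
    have t1 := TE.tb a1 ih
    have t2 := (TE.tm (opM_mE K) (TE.tb (hB.dout hD.heat) h)).mul
    have o1 := om_dout c
    have t3 := t1.add' t2 (r := r) (o := o + om c + 2) (by simp only [om]; omega)
    refine (t3.mono le_rfl le_rfl ?_).congr fun m p hp =>
      gradT_TB hD (hB.cg hD.heat) (h.cg hD) m hp
    rw [val_rei, val_amp]
    have v0 := h.nonneg hX0
    have v1 := mul_le_mul_of_nonneg_right (val_dout hX0 c) v0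
    have v2 : 0 ≤ X * om c * val X c * v := by have := val_nonneg hX0 c; positivity
    push_cast
    nlinarith
  | @tm r o v K I _ _ M u hM h ih =>
    refine (TE.tm (sb_opM_amp (A := Sl d) hM) ih).congr fun m p hp => ?_
    have hu := h.cg hD
    obtain ⟨m, k⟩ := m
    show dz m (fun q => ∑ i, M k i * u i q) p = ∑ i : Sl d × I, _ * _
    rw [cm_dz_sum _ (fun i _ => CG.mul isOpen_JT (CG.const isOpen_JT _) (hu i)) m hp,
      Fintype.sum_prod_type, Finset.sum_eq_single m]
    · refine Finset.sum_congr rfl fun i _ => ?_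
      rw [cm_dz_cmul (hu i) _ m hp]
      simp [gradT]
    · intro b _ hb
      refine Finset.sum_eq_zero fun i _ => ?_
      show (if m = b then M k i else 0) * _ = 0
      rw [if_neg (Ne.symm hb), zero_mul]
    · intro h
      exact absurd (Finset.mem_univ _) h
  | @mul r o v I _ u h ih =>
    refine (ih.mul.mono le_rfl (by omega) ?_).congr fun m p hp =>
      cm_dz_timeMul (h.cg hD m.2) m.1 hp
    have := mul_nonneg hX0 (h.nonneg hX0)
    push_cast
    nlinarith
  | add h h' ih ih' =>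
    exact ((ih.add ih').mono le_rfl le_rfl (le_of_eq (by ring))).congr fun m p hp =>
      cm_dz_add (h.cg hD m.2) (h'.cg hD m.2) m.1 hp
  | sm a h ih =>
    exact ((ih.sm a).mono le_rfl le_rfl (le_of_eq (by ring))).congr fun m p hp =>
      cm_dz_cmul (h.cg hD m.2) a m.1 hp
  | rei e h ih => exact ih.rei (Equiv.prodCongr (Equiv.refl (Sl d)) e)
  | mono h h1 h2 h3 ih =>
    refine ih.mono h1 (by omega) ?_
    have := h.nonneg hX0
    gcongr
  | congr h huv ih => exact ih.congr fun m p hp => cm_dz_congr (huv m.2) m.1 hp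

theorem TE.dt (hD : D.Ok) (hX : 1 ≤ X) {r o : ℕ} {v : ℝ} {I : Type} [Fintype I] {u : TF d I}
    (h : TE D X r o v u) : TE D X (r + 1) (o + 3) (3 * (X * o) ^ 2 * v) (D.DtT u) := by
  classical
  have hX0 : 0 ≤ X := by linarith
  have hst : ∀ (o : ℕ) {v : ℝ}, 0 ≤ v →
      3 * (X * o) ^ 2 * v + v ≤ 3 * (X * ((o + 1 : ℕ) : ℝ)) ^ 2 * v := by
    intro o v hv
    have h1 : 1 ≤ X ^ 2 := one_le_pow₀ hX
    have h2 : 3 * (X * o) ^ 2 + 1 ≤ 3 * (X * ((o + 1 : ℕ) : ℝ)) ^ 2 := by
      have h3 : 0 ≤ X ^ 2 * o := by positivity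
      push_cast
      nlinarith
    nlinarith
  induction h with
  | @zero I _ =>
    refine (TE.zero.mono (by omega) (by omega) (by simp)).congr fun m p _ => ?_
    exact congrFun (congrFun (rg_DtT_const D fun _ : I => (0 : ℝ)) m) p
  | const e he =>
    refine (TE.zero.mono (by omega) (by omega) (by simp)).congr fun m p _ => ?_
    exact congrFun (congrFun (rg_DtT_const D fun i : Fin d × Unit => e i.1) m) p
  | @div r o v I _ u h ih =>
    have t := ih.div.add' (h.slot (alg_F1 hD)).mul.div (r := r + 1 + 1) (o := o + 1 + 3)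
      (by omega)
    exact (t.mono le_rfl le_rfl (hst o (h.nonneg hX0))).congr fun m p hp =>
      DtT_divT hD (h.cg hD) m hp
  | @tb r o v K I _ _ B c u hB h ih =>
    have t1 := TE.tb hB ih
    have t2 := (TE.tm (opM_mE K) (TE.tb (hB.dout hD.heat) h)).div
    have t3 := TE.tb (hB.din hD.heat) (TE.tm (opM_mP I) (h.grad hD hX))
    have t4 := (TE.tb (alg_pm hD.heat hD.κ0 hD.κ1 hB) h).mul.sm 2
    have o1 := om_dout c
    have o2 := om_din c
    have o3 := om_pm c
    have t5 := ((t1.add' t2 (r := r + 1) (o := o + om c + 3) (by omega)).add' t3 (r := r + 1)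
      (o := o + om c + 3) (by omega)).add' t4 (r := r + 1) (o := o + om c + 3) (by omega)
    refine (t5.mono le_rfl le_rfl ?_).congr fun m p hp => DtT_TB hD (hB.cg hD.heat) (h.cg hD) m hp
    have v0 := h.nonneg hX0
    have w0 := val_nonneg hX0 c
    have v1 := mul_le_mul_of_nonneg_right (val_dout hX0 c) v0
    have v2 := mul_le_mul_of_nonneg_right (val_din hX0 c) (show 0 ≤ 2 * X * o * v by positivity)
    have v3 := mul_le_mul_of_nonneg_right (val_pm hX c) v0
    have v4 : X * om c ≤ (X * om c) ^ 2 := by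
      rcases Nat.eq_zero_or_pos (om c) with h0 | h0
      · rw [h0]; simp
      · have h1 : (1 : ℝ) ≤ om c := by exact_mod_cast h0
        have h2 : 1 ≤ X * om c := one_le_mul_of_one_le_of_one_le hX h1
        nlinarith
    have v5 := mul_le_mul_of_nonneg_right v4 (mul_nonneg w0 v0)
    have v6 : 0 ≤ X * o * (X * om c) * (val X c * v) := by positivity
    rw [abs_two]
    push_cast
    nlinarith
  | @tm r o v K I _ _ M u hM h ih =>
    exact (TE.tm hM ih).congr fun m p hp => DtT_TM hD M (h.cg hD) m hp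
  | @mul r o v I _ u h ih =>
    have t := h.add' ih.mul (r := r + 1) (o := o + 1 + 3) (by omega)
    refine (t.mono le_rfl le_rfl ?_).congr fun m p hp => DtT_mulT hD (h.cg hD) m hp
    rw [add_comm]
    exact hst o (h.nonneg hX0)
  | add h h' ih ih' =>
    exact ((ih.add ih').mono le_rfl le_rfl (le_of_eq (by ring))).congr fun m p hp =>
      bdo_DtT_add (h.cg hD) (h'.cg hD) m p hp
  | sm a h ih =>
    exact ((ih.sm a).mono le_rfl le_rfl (le_of_eq (by ring))).congr fun m p hp =>
      bdo_DtT_sm (h.cg hD) a m p hp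
  | rei e h ih => exact ih.rei e
  | mono h h1 h2 h3 ih =>
    refine ih.mono (by omega) (by omega) ?_
    have := h.nonneg hX0
    gcongr
  | congr h huv ih => exact ih.congr fun m p hp => bdo_DtT_congr huv m p hp

theorem TE.dtot (hD : D.Ok) (hX : 1 ≤ X) {r o : ℕ} {v : ℝ} {I : Type} [Fintype I] {u : TF d I}
    (h : TE D X r o v u) : TE D X (r + 1) (o + 4) (11 * (X * o) ^ 2 * v) (DtotT D u) := by
  classical
  have hX0 : 0 ≤ X := by linarith
  have g := h.grad hD hX
  have t1 := (TE.tm (opM_mJ I) (g.slot (alg_B0 D))).div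
  have t2 := ((TE.tm (opM_mJ I) g).slot (alg_B0 D)).div
  have t3 : TE D X (r + 1) (o + 2 + 1 + 1) _ (GT D u) := t1.add t2
  have t4 := (h.dt hD hX).add' (t3.sm (D.lam * D.κ)) (r := r + 1) (o := o + 4) (by omega)
  refine (t4.mono le_rfl le_rfl ?_).congr fun i p hp => DtotT_eq hD (h.cg hD) i hp
  have hlk : |D.lam * D.κ| ≤ 2 := by
    rw [abs_mul, abs_of_pos hD.κ0]
    exact hD.hlam
  have v0 := h.nonneg hX0
  have v4 : X * o ≤ (X * o) ^ 2 := by
    rcases Nat.eq_zero_or_pos o with h0 | h0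
    · rw [h0]; simp
    · have h1 : (1 : ℝ) ≤ o := by exact_mod_cast h0
      have h2 : 1 ≤ X * o := one_le_mul_of_one_le_of_one_le hX h1
      nlinarith
  have v5 := mul_le_mul_of_nonneg_right v4 v0
  have v6 := mul_le_mul_of_nonneg_right hlk
    (show 0 ≤ 2 * X * o * v + 2 * X * o * v by positivity)
  nlinarith

theorem TE.iter (hD : D.Ok) (hX : 1 ≤ X) {r o : ℕ} {v : ℝ} {I : Type} [Fintype I] {u : TF d I}
    (h : TE D X r o v u) (j : ℕ) :
    TE D X (r + j) (o + 4 * j) ((11 * (X * (o + 4 * j)) ^ 2) ^ j * v) ((DtotT D)^[j] u) := by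
  have hX0 : 0 ≤ X := by linarith
  induction j with
  | zero => simpa using h
  | succ j ih =>
    rw [Function.iterate_succ_apply']
    refine (ih.dtot hD hX).mono le_rfl (by omega) ?_
    have v0 := h.nonneg hX0
    rw [pow_succ' _ j, ← mul_assoc]
    push_cast
    gcongr <;> linarith

theorem TE.l2 (hD : D.Ok) {τ : ℝ} (hτ : τ ∈ IT) {W : ℕ} (hW : 1 ≤ W) (s : ℕ) :
    ∀ {r o : ℕ} {v : ℝ} {I : Type} [Fintype I] {u : TF d I}, TE D (2 * W + 1) r o v u → r ≤ s →
      o + 2 * s ≤ W → L2B D τ ((4 * (2 * W + 1) * W) ^ s * v) u := by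
  have hWr : (1 : ℝ) ≤ W := by exact_mod_cast hW
  have hX : (1 : ℝ) ≤ 2 * W + 1 := by linarith
  have hX0 : (0 : ℝ) ≤ 2 * W + 1 := by linarith
  have hY : (1 : ℝ) ≤ 4 * (2 * W + 1) * W := by nlinarith
  induction s using Nat.strong_induction_on with
  | _ s IH =>
  intro r o v I _ u h
  have hYs : (1 : ℝ) ≤ (4 * (2 * W + 1) * W) ^ s := one_le_pow₀ hY
  induction h with
  | zero => exact fun _ _ => rg_HB_zero D τ 0
  | const e he =>
    intro _ _
    exact sb_L2B_mono ((Bd_cT d D hD e he).2 0 0 τ hτ) zero_le_one (by linarith)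
  | @div r o v I _ u h _ =>
    intro h1 h2
    obtain ⟨s, rfl⟩ : ∃ t, s = t + 1 := ⟨s - 1, by omega⟩
    have v0 := h.nonneg hX0
    have l1 := IH s (by omega) h (by omega) (by omega)
    have l2 := IH s (by omega) (h.grad hD hX) (by omega) (by omega)
    have ho : (o : ℝ) ≤ W := by exact_mod_cast (by omega : o ≤ W)
    have hp : (0 : ℝ) ≤ (4 * (2 * W + 1) * W) ^ s := by positivity
    have l3 : HB D τ 1 ((4 * (2 * W + 1) * W) ^ s * (2 * (2 * W + 1) * W * v)) u := by
      refine ⟨sb_L2B_mono l1 (by positivity) ?_, sb_L2B_mono l2 (by positivity) ?_⟩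
      · refine mul_le_mul_of_nonneg_left (le_mul_of_one_le_left v0 ?_) hp
        nlinarith
      · gcongr
    have l4 := L2B_divT hD hτ (h.cg hD) (by positivity) l3
    refine sb_L2B_mono l4 (by positivity) (le_of_eq ?_)
    ring
  | @tb r o v K I _ _ B c u hB h ih =>
    intro h1 h2
    have hop := alg_op hD.heat hD.κ0 hD.κ1 hW (by omega : om c ≤ W + 1) hB
    have l1 := sb_L2B_le (v := D.TB B u) hD hτ (h.cg hD)
      (fun z => hop _ (hD.lev_mem hτ) _ fun i => u i (τ, z)) (ih h1 (by omega))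
    rw [mul_left_comm]
    exact l1
  | tm hM h ih =>
    intro h1 h2
    have l1 := HB_TM (n := 0) hD hτ (h.cg hD) zero_le_one hM (ih h1 h2)
    rw [one_mul] at l1
    exact l1
  | mul h ih =>
    intro h1 h2
    exact HB_mulT (n := 0) hD hτ (h.cg hD) (by have := h.nonneg hX0; positivity)
      (ih h1 (by omega))
  | add h h' ih ih' =>
    intro h1 h2
    rw [mul_add]
    exact L2B_add hD hτ (h.cg hD) (h'.cg hD) (by have := h.nonneg hX0; positivity)
      (by have := h'.nonneg hX0; positivity) (ih h1 h2) (ih' h1 h2)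
  | sm a h ih =>
    intro h1 h2
    rw [mul_left_comm]
    exact HB_smT (n := 0) hD hτ (h.cg hD) a (ih h1 h2)
  | rei e h ih => exact fun h1 h2 => sb_rei (n := 0) (IT_subset_JT hτ) e (ih h1 h2)
  | mono h a1 a2 a3 ih =>
    intro h1 h2
    exact sb_L2B_mono (ih (by omega) (by omega)) (by have := h.nonneg hX0; positivity)
      (mul_le_mul_of_nonneg_left a3 (by positivity))
  | congr h huv ih =>
    exact fun h1 h2 => HB.congr (n := 0) (IT_subset_JT hτ) (ih h1 h2) huv

end Vale.Agent.N347X
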